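import Crest.Agent.R141.Defs

/-!
Row 141: algebra of `tens`, `clz`, `CL` (naturality, symmetry, multi-affinity).
-/

set_option autoImplicit false

namespace Crest.Agent.R141

open Crest.Agent.R153 Crest.Agent.R153.Ms Crest.Agent.R153.Nest
open Crest.ProbabilityR MeasureTheory Filter

variable {S S' A B ι : Type} {j p : ℕ} {θ : ℝ}

theorem mapM_prod [CommMonoid A] [CommMonoid B] (f : A → B) (h1 : f 1 = 1)
    (hf : ∀ a b, f (a * b) = f a * f b) {κ : Type} (s : Finset κ) (X : κ → Ms (Nest A j)) :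
    mapM f (∏ i ∈ s, X i) = ∏ i ∈ s, mapM f (X i) := by
  classical
  induction s using Finset.induction_on with
  | empty => simpa using mapM_one f h1
  | insert i s hi ih => rw [Finset.prod_insert hi, Finset.prod_insert hi, mapM_mul f hf, ih]

theorem mapM_bind {M : Type} (f : A → B) (ν : Ms M) (κ : M → Ms (Nest A j)) :
    mapM f (Ms.bind ν κ) = Ms.bind ν fun c => mapM f (κ c) := ext_I fun f => by simp

theorem mul_bind {M N : Type} [Mul N] (ν : Ms M) (κ : M → Ms N) (Z : Ms N) :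
    Z * Ms.bind ν κ = Ms.bind ν fun c => Z * κ c :=
  ext_I fun f => by
    simp only [I_mul, I_bind]
    exact I_comm _ _ _

section tens
variable [Fintype ι] [DecidableEq ι] [CommMonoid A] [CommMonoid B]

theorem tens_mapM (f : A → B) (h1 : f 1 = 1) (hf : ∀ a b, f (a * b) = f a * f b)
    (T : ι → Ms (Nest A j)) :
    tens (fun i => mapM f (T i)) = mapM (fun x i => f (x i)) (tens T) := by
  rw [tens, tens, mapM_prod _ (by funext i; simp [h1]) (fun a b => by funext i; simp [hf])]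
  refine Finset.prod_congr rfl fun i _ => ?_
  rw [mapM_mapM, mapM_mapM]
  congr 1
  funext a i'
  by_cases h : i' = i
  · subst h; simp
  · simp [h, h1]

theorem tens_perm (π : Equiv.Perm ι) (T : ι → Ms (Nest A j)) :
    tens (fun i => T (π i)) = mapM (fun x i => x (π i)) (tens T) := by
  rw [tens, tens, mapM_prod _ rfl (fun _ _ => rfl)]
  conv_rhs => rw [← Equiv.prod_comp π]
  refine Finset.prod_congr rfl fun i _ => ?_
  rw [mapM_mapM]
  congr 1
  funext a i'
  by_cases h : i' = i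
  · subst h; simp
  · simp [h]

theorem tens_update (T : ι → Ms (Nest A j)) (ℓ : ι) (U : Ms (Nest A j)) :
    tens (Function.update T ℓ U) = mapM (fun a => Pi.mulSingle ℓ a) U *
      ∏ i ∈ Finset.univ.erase ℓ, mapM (fun a => Pi.mulSingle i a) (T i) := by
  rw [tens, ← Finset.mul_prod_erase _ _ (Finset.mem_univ ℓ), Function.update_self]
  congr 1
  exact Finset.prod_congr rfl fun i hi => by rw [Function.update_of_ne (Finset.ne_of_mem_erase hi)]

omit [Fintype ι] in
theorem goodM_mulSingle {P : A → Prop} (h1 : P 1) (i : ι) {U : Ms (Nest A j)} (hU : GoodM P U) :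
    GoodM (fun x : ι → A => ∀ i, P (x i)) (mapM (fun a => Pi.mulSingle i a) U) :=
  hU.mapM fun a ha i' => by
    by_cases h : i' = i
    · subst h; simpa using ha
    · simpa [h] using h1

end tens

theorem mlin_perm (g : Diluted.Inter p) (π : Equiv.Perm (Fin p)) (x : Fin p → ℝ) :
    mlin g (fun ℓ => x (π ℓ)) = mlin (fun s => g fun ℓ => s (π ℓ)) x := by
  unfold mlin
  rw [← (Equiv.arrowCongr π.symm (Equiv.refl Bool)).sum_comp]
  refine Finset.sum_congr rfl fun s _ => ?_
  rw [← Equiv.prod_comp π (fun ℓ => qq (x ℓ) (s ℓ))]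
  rfl

theorem mlin_update (g : Diluted.Inter p) (x : Fin p → ℝ) (ℓ : Fin p) (t : ℝ) :
    mlin g (Function.update x ℓ t) =
      mlin g (Function.update x ℓ 0) * (1 - t) + mlin g (Function.update x ℓ 1) * t := by
  have e : ∀ (t : ℝ) (s : Fin p → Bool), ∏ i, qq (Function.update x ℓ t i) (s i) =
      qq t (s ℓ) * ∏ i ∈ Finset.univ.erase ℓ, qq (x i) (s i) := fun t s => by
    rw [← Finset.mul_prod_erase _ _ (Finset.mem_univ ℓ), Function.update_self]
    congr 1
    exact Finset.prod_congr rfl fun i hi => by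
      rw [Function.update_of_ne (Finset.ne_of_mem_erase hi)]
  simp only [mlin, e, Finset.sum_mul, ← Finset.sum_add_distrib]
  refine Finset.sum_congr rfl fun s _ => ?_
  cases s ℓ <;> simp [qq] <;> ring

theorem clz_perm (g : Diluted.Inter p) (π : Equiv.Perm (Fin p)) (T : Fin p → Ms (Nest (S → ℝ) j)) :
    clz g (fun ℓ => T (π ℓ)) = clz (fun s => g fun ℓ => s (π ℓ)) T := by
  rw [clz, clz, tens_perm, mapM_mapM]
  simp only [← mlin_perm]

theorem CL_perm {Γ : Ms (Diluted.Inter p)} (hS : Symm Γ) (π : Equiv.Perm (Fin p))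
    (T : Fin p → Ms (Nest (S → ℝ) j)) : CL Γ (fun ℓ => T (π ℓ)) = CL Γ T := by
  conv_rhs => rw [← hS π]
  refine ext_I fun f => ?_
  simp only [CL, I_bind, I_map, clz_perm]

theorem CL_update_eq {m : ℕ} {Γ : Ms (Diluted.Inter (m + 1))} (hS : Symm Γ)
    (T T' : Ms (Nest (S → ℝ) j)) (ℓ : Fin (m + 1)) :
    CL Γ (Function.update (fun _ => T') ℓ T) = CL Γ (lastSlot (m + 1) T T') := by
  rw [← CL_perm hS (Equiv.swap ℓ (Fin.last m)) (lastSlot (m + 1) T T')]
  congr 1
  funext i
  by_cases h : i = ℓ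
  · subst h; simp [lastSlot]
  · rw [Function.update_of_ne h, lastSlot, if_pos]
    have h2 : Equiv.swap ℓ (Fin.last m) i ≠ Fin.last m := by
      intro e
      rw [Equiv.swap_apply_eq_iff, Equiv.swap_apply_right] at e
      exact h e
    have := Fin.val_lt_last h2
    simpa using this

theorem clz_pb (g : Diluted.Inter p) (φ : S' → S) (T : Fin p → Ms (Nest (S → ℝ) j)) :
    mapM (fun x τ => x (φ τ)) (clz g T) = clz g fun ℓ => mapM (fun x τ => x (φ τ)) (T ℓ) := by
  rw [clz, clz, tens_mapM _ rfl (fun _ _ => rfl), mapM_mapM, mapM_mapM]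

theorem CL_pb (Γ : Ms (Diluted.Inter p)) (φ : S' → S) (T : Fin p → Ms (Nest (S → ℝ) j)) :
    mapM (fun x τ => x (φ τ)) (CL Γ T) = CL Γ fun ℓ => mapM (fun x τ => x (φ τ)) (T ℓ) := by
  simp only [CL, mapM_bind, clz_pb]

theorem clz_slotE (g : Diluted.Inter p) (ξ : Ms (Nest ℝ j)) :
    clz g (fun _ => slotE S ξ) = mapM (fun r _ => mlin g r) (tens fun _ : Fin p => ξ) := by
  rw [clz, slotE, tens_mapM (fun (r : ℝ) (_ : S) => r) rfl (fun _ _ => rfl), mapM_mapM]

theorem lastSlot_map {C D : Type} (f : C → D) (T T' : C) :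
    (fun ℓ => f (lastSlot p T T' ℓ)) = lastSlot p (f T) (f T') := by
  funext ℓ
  unfold lastSlot
  split_ifs <;> rfl

/-- A factor in a context is an affine function of each slot. -/
theorem mul_clz_update {c : ℝ} (hc : 0 ≤ c) {g : Diluted.Inter p} (hg : Inc c g)
    {X : Ms (Nest (S → ℝ) j)} (hX : GoodM U01 X) {T : Fin p → Ms (Nest (S → ℝ) j)}
    (hT : ∀ ℓ, GoodM U01 (T ℓ)) (ℓ : Fin p) :
    ∃ W : Ms (Nest (Bool → S → ℝ) j), GoodM N01 W ∧
      ∀ U, X * clz g (Function.update T ℓ U) = comb W U := by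
  have hR : GoodM (fun x : Fin p → S → ℝ => ∀ i, U01 (x i))
      (∏ i ∈ Finset.univ.erase ℓ, mapM (fun a => Pi.mulSingle i a) (T i)) :=
    goodM_prod (fun _ => U01_one) (fun a b ha hb i => (ha i).mul (hb i)) _ fun i _ =>
      goodM_mulSingle U01_one i (hT i)
  refine ⟨map2M (fun x y b σ => x σ * mlin g
      (Function.update (fun i => y i σ) ℓ (if b then y ℓ σ else 0))) X
      (∏ i ∈ Finset.univ.erase ℓ, mapM (fun a => Pi.mulSingle i a) (T i)),
    GoodM.map2M (fun x y hx hy b σ => ?_) hX hR, fun U => ?_⟩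
  · have h := mlin_mem hg (x := Function.update (fun i => y i σ) ℓ (if b then y ℓ σ else 0))
      fun i => by
        by_cases h : i = ℓ
        · subst h
          rw [Function.update_self]
          split_ifs
          · exact hy i σ
          · exact ⟨le_rfl, zero_le_one⟩
        · rw [Function.update_of_ne h]; exact hy i σ
    exact ⟨mul_nonneg (hx σ).1 (hc.trans h.1), mul_le_one₀ (hx σ).2 (hc.trans h.1) h.2⟩
  · rw [clz, tens_update, mul_comm (mapM _ U), mul_eq_map2M _ (mapM _ U), map2M_mapM_right,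
      mapM_map2M, mul_eq_map2M X, comb]
    symm
    refine map2M_assoc _ _ _ _ (fun x y u => ?_) _ _ _
    funext σ
    have e : (fun i => (y * (Pi.mulSingle ℓ u : Fin p → S → ℝ)) i σ) =
        Function.update (fun i => y i σ) ℓ (y ℓ σ * u σ) := by
      funext i
      by_cases h : i = ℓ
      · subst h; simp
      · simp [h]
    simp only [Pi.mul_apply x, e, if_true, Bool.false_eq_true, if_false]
    rw [mlin_update g _ ℓ (y ℓ σ * u σ), mlin_update g _ ℓ (y ℓ σ)]
    ring

section scalar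
variable [Fintype S] {c : ℝ} {Γ : Ms (Diluted.Inter p)} {H : Ms (Bool → ℝ)}

theorem pS_mul_CL (X : Ms (Nest (S → ℝ) j)) (T : Fin p → Ms (Nest (S → ℝ) j)) :
    pS θ (X * CL Γ T) = I Γ fun g => pS θ (X * clz g T) := by
  rw [CL, mul_bind, pS, pre_bind]; rfl

theorem pS_mul_edge (hM : Model c Γ H) {ξ : Ms (Nest ℝ j)} (hξ : GoodM R01 ξ)
    {X : Ms (Nest (S → ℝ) j)} (hX : GoodM U01 X) :
    pS θ (X * CL Γ fun _ => slotE S ξ) = pS θ X * edgeW θ Γ ξ := by
  rw [pS_mul_CL, edgeW, ← I_const_mul]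
  refine hM.suppΓ.I_congr fun g hg => ?_
  rw [clz_slotE, mul_eq_map2M, map2M_mapM_right]
  have hT : GoodM (fun x : Fin p → ℝ => ∀ ℓ, R01 (x ℓ)) (tens fun _ : Fin p => ξ) :=
    goodM_tens (P := fun _ => R01) fun _ => hξ
  exact pre_tensor (u := sumv) (u₁ := sumv) (u₂ := mlin g)
    (F := fun (x : S → ℝ) (r : Fin p → ℝ) => x * fun _ => mlin g r) sumv_nonneg
    (fun r hr => hM.pos.le.trans (mlin_mem hg hr).1)
    (fun x r _ _ => by simp [sumv, Finset.sum_mul]) hX hT

theorem pS_mul_edge_pow (hM : Model c Γ H) {ξ : Ms (Nest ℝ j)} (hξ : GoodM R01 ξ) (J : ℕ)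
    {X : Ms (Nest (S → ℝ) j)} (hX : GoodM U01 X) :
    pS θ (X * (CL Γ fun _ => slotE S ξ) ^ J) = pS θ X * edgeW θ Γ ξ ^ J := by
  induction J with
  | zero => simp
  | succ J ih =>
    rw [pow_succ, ← mul_assoc,
      pS_mul_edge hM hξ (hX.mulU ((hM.goodM_CL fun _ => hξ.slotE).powU J)), ih]
    ring

omit [Fintype S] in
theorem edgeW_mem (hM : Model c Γ H) (h0 : 0 ≤ θ) {ξ : Ms (Nest ℝ j)} (hξ : GoodM R01 ξ) :
    0 ≤ edgeW θ Γ ξ ∧ edgeW θ Γ ξ ≤ 1 := by
  have hT := goodM_tens (P := fun _ : Fin p => R01) fun _ => hξ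
  refine ⟨hM.probΓ.ge_of_ge fun g hg => pre_nonneg
    (fun r hr => hM.pos.le.trans (mlin_mem (hM.suppΓ g hg) hr).1) hT,
    hM.probΓ.le_of_le fun g hg => ?_⟩
  have := pre_mono h0 (u := mlin g) (v := fun _ => 1)
    (fun r hr => hM.pos.le.trans (mlin_mem (hM.suppΓ g hg) hr).1)
    (fun r hr => (mlin_mem (hM.suppΓ g hg) hr).2) hT
  rwa [pre_const zero_le_one hT, Real.one_rpow] at this

end scalar

end Crest.Agent.R141
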