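import Crest.Agent.R141.Ass_B

/-!
Row 141: cavity lower bound for the finite model.
-/

set_option autoImplicit false
set_option maxHeartbeats 400000

namespace Crest.Agent.R141

open Crest.Agent.R153 Crest.Agent.R153.Ms Crest.Agent.R153.Nest
open Crest.ProbabilityR MeasureTheory Filter

theorem ass' {p : ℕ} (hp : 1 ≤ p) {c α : ℝ} {Γ : Ms (Diluted.Inter p)} {H : Ms (Bool → ℝ)}
    (hM : Model c Γ H) (hS : Symm Γ) (hα : 0 ≤ α) {y ε : ℝ} (hy : 0 < y) (hε : 0 < ε) :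
    ∃ Q j : ℕ, 2 ≤ Q ∧ th Q ^ j ≤ y ∧ ∀ b : ℝ,
      (∀ ξ : Ms (Nest ℝ j), GoodM R01 ξ → Real.exp (b * th Q ^ j) ≤ PiG (th Q) α Γ H ξ) →
      ∀ᶠ N : ℕ in atTop, Real.exp ((b - ε) * th Q ^ j * N) ≤ ann (th Q) j α Γ H N := by
  obtain ⟨m, rfl⟩ : ∃ m, p = m + 1 := ⟨p - 1, by omega⟩
  obtain ⟨y₁, hy₁, hdec⟩ := decoupling' hy
  obtain ⟨κ, hκ⟩ : ∃ κ, κ = Real.exp (-(ε / 2 * y₁)) := ⟨_, rfl⟩
  have hκ0 : 0 < κ := hκ ▸ Real.exp_pos _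
  have hκ1 : κ < 1 := hκ ▸ Real.exp_lt_one_iff.2 (by nlinarith)
  obtain ⟨πm, hπm⟩ : ∃ πm, πm = Real.exp (-(α * ((m + 1 : ℕ) : ℝ))) * min c 1 := ⟨_, rfl⟩
  have hπm0 : 0 < πm := hπm ▸ mul_pos (Real.exp_pos _) (lt_min hM.pos one_pos)
  obtain ⟨G, hG⟩ : ∃ G : ℝ, G = 2 * (1 + 1 / πm) * (m + 1) ^ 2 * α * Real.exp (m * α) := ⟨_, rfl⟩
  have hG0 : 0 ≤ G := by rw [hG]; positivity
  obtain ⟨ε', hε'⟩ : ∃ ε', ε' = (1 - κ) / (2 * (G + 1)) := ⟨_, rfl⟩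
  have hε0 : 0 < ε' := hε' ▸ div_pos (by linarith) (by positivity)
  have hGε : κ < 1 - 2 * (1 + 1 / πm) * (m + 1) ^ 2 * α * ε' * Real.exp (m * α) := by
    have e1 : ε' * (2 * (G + 1)) = 1 - κ := by rw [hε']; field_simp
    have e2 : 2 * (1 + 1 / πm) * (m + 1) ^ 2 * α * ε' * Real.exp (m * α) = G * ε' := by
      rw [hG]; ring
    rw [e2]; nlinarith
  obtain ⟨Q, j, R, Pm, hQ, hy1, hy2, hPm, hD⟩ := hdec ε' hε0
  refine ⟨Q, j, hQ, hy2, fun b hb => ?_⟩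
  have hth := th_mem hQ
  have h0 : 0 < th Q := by linarith [hth.1]
  obtain ⟨π₀, hπ₀⟩ : ∃ π₀, π₀ = max (Real.exp (b * th Q ^ j)) πm := ⟨_, rfl⟩
  have hπ1 : πm ≤ π₀ := hπ₀ ▸ le_max_right _ _
  have hπ2 : Real.exp (b * th Q ^ j) ≤ π₀ := hπ₀ ▸ le_max_left _ _
  have hPi : ∀ ξ : Ms (Nest ℝ j), GoodM R01 ξ → π₀ ≤ PiG (th Q) α Γ H ξ := fun ξ hξ =>
    hπ₀ ▸ max_le (hb ξ hξ) (hπm ▸ PiG_lower h0.le hth.2.le hp hM hα hξ)
  have hlimp : Tendsto (fun N : ℕ => (N : ℝ) / (N + 1)) atTop (nhds 1) :=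
    tendsto_natCast_div_add_atTop 1
  have hcont : Continuous fun p : ℝ => p ^ ((j + 1) * R) *
      Real.exp (-((m + 1) * α * (1 - p ^ m))) * (Real.exp (-(m * α * (1 - p ^ (m + 1)))) -
        2 * (1 + 1 / πm) * (m + 1) ^ 2 * α * ε' * Real.exp (m * α)) := by
    fun_prop
  have hlim := (hcont.tendsto 1).comp hlimp
  simp only [one_pow, sub_self, mul_zero, neg_zero, Real.exp_zero, one_mul] at hlim
  obtain ⟨N₀, hN₀⟩ := eventually_atTop.1 ((hlim.eventually (lt_mem_nhds hGε)).and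
    (eventually_ge_atTop 1))
  have hlow : ∀ n, (κ * π₀) ^ n * Phi' (th Q) Γ H α Pm R j N₀ ≤
      Phi' (th Q) Γ H α Pm R j (N₀ + n) := by
    intro n
    induction n with
    | zero => simp
    | succ n ih =>
      obtain ⟨b1, b3⟩ := hN₀ (N₀ + n) (by omega)
      have : NeZero (N₀ + n) := ⟨by omega⟩
      have := step' h0.le hth.2.le (N := N₀ + n) hM hS hα hε0.le (hπm0.le.trans hπ1)
        (G := 1 / πm) (by positivity) (by rw [mul_one_div, one_le_div hπm0]; exact hπ1) hPi hPm R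
        (fun M => hD _ _ (oldS _) (U01_oldS _) (ASS.PP _) (ASS.PP_one _) (ASS.PP_mul _)
          (PP_testS _) _ ((hM.good_oldF _ j).mulU ((hM.good_Cc' _ j).powU M))
          ((hM.PP_oldF _ j).mul (ASS.PP_mul _)
            ((hM.PP_Cc' _ j).pow (ASS.PP_one _) (ASS.PP_mul _) M))) rfl b1.le
      calc _ = κ * π₀ * ((κ * π₀) ^ n * Phi' (th Q) Γ H α Pm R j N₀) := by ring
        _ ≤ _ := (mul_le_mul_of_nonneg_left ih (mul_nonneg hκ0.le (hπm0.le.trans hπ1))).trans this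
  have : NeZero N₀ := ⟨by have := (hN₀ N₀ le_rfl).2; omega⟩
  have hpos : 0 < Phi' (th Q) Γ H α Pm R j N₀ := Phi'_pos h0.le hM hα hPm R
  obtain ⟨y', hy'⟩ : ∃ y', y' = th Q ^ j := ⟨_, rfl⟩
  rw [← hy'] at hy1 hπ2 ⊢
  have hy0 : 0 < y' := hy₁.trans_le hy1
  obtain ⟨n₀, hn₀⟩ := exists_nat_ge
    (((b - ε) * y' * N₀ - Real.log (Phi' (th Q) Γ H α Pm R j N₀)) / (ε / 2 * y'))
  rw [div_le_iff₀ (by positivity)] at hn₀
  filter_upwards [eventually_ge_atTop (N₀ + n₀)] with N hN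
  obtain ⟨n, rfl⟩ : ∃ n, N = N₀ + n := ⟨N - N₀, by omega⟩
  have hn : (n₀ : ℝ) ≤ n := by exact_mod_cast (by omega : n₀ ≤ n)
  have : NeZero (N₀ + n) := ⟨by have := (hN₀ N₀ le_rfl).2; omega⟩
  refine le_trans ?_ ((hlow n).trans (Phi'_le h0.le hM hα hPm R))
  have k1 : Real.exp ((b - ε / 2) * y') ≤ κ * π₀ := by
    refine le_trans ?_ (mul_le_mul_of_nonneg_left hπ2 hκ0.le)
    rw [hκ, ← Real.exp_add]
    exact Real.exp_le_exp.2 (by nlinarith)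
  refine le_trans ?_ (mul_le_mul_of_nonneg_right (pow_le_pow_left₀ (Real.exp_pos _).le k1 n) hpos.le)
  rw [← Real.exp_log hpos, ← Real.exp_nat_mul, ← Real.exp_add]
  refine Real.exp_le_exp.2 ?_
  push_cast
  nlinarith [mul_le_mul_of_nonneg_right hn (show 0 ≤ ε / 2 * y' by positivity)]

end Crest.Agent.R141
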