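import Crest.Agent.R141.Dec_B

/-!
Row 141: signed versions of the representation and of the decoupling theorem of row 153.
-/

set_option autoImplicit false

namespace Crest.Agent.R141

open Crest.Agent.R153 Crest.Agent.R153.Ms Crest.Agent.R153.Nest
open Crest.ProbabilityR MeasureTheory Filter

theorem rep_signed {S : Type} [Fintype S] {j : ℕ} {θ : ℝ} (h0 : 0 < θ) (h1 : θ ≤ 1) {η : ℝ}
    (hη : 0 < η) {X : Ms (Nest (S → ℝ) j)} (hX : GoodM U01 X) (hpos : 0 < pS θ X) :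
    ∃ Λ : Ms (ℕ × (Nest (S → ℝ) j →* ℝ)), Λ.NN ∧
      Λ.Supp (fun a => (∀ z : ℝ, a.2 (det (fun _ => z) j) = z ^ a.1) ∧
        ∀ F : (Bool → ℝ) → (S → ℝ) → S → ℝ, (∀ x σ, Continuous fun f => F f x σ) →
          ∀ c, Continuous fun f => a.2 (Nest.map (F f) c)) ∧
      ∀ V : Ms (Nest (S → ℝ) j), GoodM (fun v => ∀ σ, |v σ| ≤ 1) V →
        |GP θ X (mapM (fun v σ => (1 - v σ) / 2) V) - I Λ (fun a => I V a.2)| ≤ η := by
  classical
  obtain ⟨Q', -, hQ⟩ := exists_errR_le h0 h1 j hη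
  refine ⟨Ms.map (fun χ : Ch S j =>
      (if h : ∃ n : ℕ, ∀ z : ℝ, χ (det (labf fun _ => z) j) = z ^ n then h.choose else 0,
        χ.comp (mapHom (labHom S) j))) (Ms.bind (treeP θ Q' j) fun t => muP θ t X), ?_, ?_,
    fun V hV => ?_⟩
  · exact ((NN_treeP h0.le h1 Q' j).bind fun t _ => (prob_muP h0 t hX hpos).1).map _
  · refine Supp.map ((supp_true _).bind fun t _ =>
      (supp_muP_pow t X).and (supp_muP_cont (T := Bool → ℝ) (B := S → ℝ) t X)) ?_
    rintro χ ⟨hn, hc⟩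
    refine ⟨fun z => ?_, fun F hF c => ?_⟩
    · simp only [dif_pos hn]
      rw [← hn.choose_spec z]
      exact congrArg χ (map_det _ _ _)
    · have := hc (fun f x => labf (F f x)) (fun x b σ => by
        cases b
        · exact continuous_const
        · exact hF x σ) c
      refine this.congr fun f => congrArg χ ?_
      exact (Nest.map_map (F f) labf c).symm
  · have e0 : ∀ v : S → ℝ, cl (labf v) = fun σ => (1 - v σ) / 2 := fun v => by
      funext σ
      simp only [cl, labf, lab, if_true, Bool.false_eq_true, if_false]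
      ring
    have hW : GoodM (fun w => U01 (cl w)) (mapM labf V) := hV.mapM fun v hv σ => by
      have := abs_le.1 (hv σ)
      rw [e0]
      constructor <;> linarith [this.1, this.2]
    obtain ⟨h2, h3⟩ := repS h0 h1 Q' hX hpos hW
    rw [mapM_mapM] at h2 h3
    simp only [e0] at h2 h3
    have e2 : ∀ n : Ch S j → ℕ, I (Ms.map (fun χ : Ch S j => (n χ, χ.comp (mapHom (labHom S) j)))
        (Ms.bind (treeP θ Q' j) fun t => muP θ t X)) (fun a => I V a.2) =
        G1P θ Q' X (mapM labf V) := by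
      intro n
      simp only [I_map, I_bind, G1P, I_mapM]
      rfl
    rw [e2, abs_le]
    constructor <;> linarith

theorem decoupling' {y : ℝ} (hy : 0 < y) : ∃ y₁ : ℝ, 0 < y₁ ∧ ∀ ε : ℝ, 0 < ε →
    ∃ (Q j R : ℕ) (Pm : ∀ i, Ms (Nest (Option Bool) i)), 2 ≤ Q ∧ y₁ ≤ th Q ^ j ∧ th Q ^ j ≤ y ∧
      (∀ i, GoodM Any (Pm i)) ∧
      ∀ (S L : Type) [Fintype S] [Fintype L] [Nonempty L] (β : L → S → ℝ), (∀ l, U01 (β l)) →
      ∀ P : (S → ℝ) → Prop, P 1 → (∀ x x', P x → P x' → P (x * x')) →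
        (∀ l o, P fun σ => 1 - tv o (β l σ)) →
      ∀ A₀ : Ms (Nest (S → ℝ) j), GoodM U01 A₀ → GoodM P A₀ →
        ∃ (ν : Ms (Ms (Nest (S → ℝ) j))) (err : Ms (Nest (S → ℝ) j) → ℝ),
          ν.Prob ∧ Ms.bind ν (fun Y => Y) = A₀ * pinsM β Pm R j ∧
          I ν (fun Y => err Y * pS (th Q) Y) ≤ ε * pS (th Q) (A₀ * pinsM β Pm R j) ∧
          ν.Supp fun Y => GoodM U01 Y ∧ GoodM P Y ∧ 0 ≤ err Y ∧
            ∃ ξ : Ms (Nest ℝ j), GoodM R01 ξ ∧
              ∀ W : Ms (Nest (Bool → S → ℝ) j), GoodM N01 W →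
                |pS (th Q) (Y * comb W (slotB β j)) - pS (th Q) (Y * comb W (slotE S ξ))|
                  ≤ err Y * pS (th Q) Y := by
  obtain ⟨A, hA⟩ := exists_pow_lt_of_lt_one hy (by norm_num : (1 / 2 : ℝ) < 1)
  refine ⟨(1 / 4) ^ A, by positivity, fun ε hε => ?_⟩
  obtain ⟨M, hM0, hM⟩ := decouple_comb (η := ε / 2) (y := (1 / 4) ^ A) (by positivity)
    (by positivity)
  set τ := ε / (2 * (M + 1)) with hτ
  have hτ0 : 0 < τ := by positivity
  obtain ⟨Q₀, hQ₀⟩ := exists_nat_ge (1 + Real.exp (3 * A) * (6 * (1 + A)) / τ ^ 2)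
  have hQ1 : (1 : ℝ) ≤ Q₀ := le_trans (le_add_of_nonneg_right (by positivity)) hQ₀
  have hQ1' : 1 ≤ Q₀ := by exact_mod_cast hQ1
  set Q := 2 * Q₀ with hQ
  set j := Q * A with hj
  have hQ2 : 2 ≤ Q := by omega
  have hth := th_mem hQ2
  have hb := th_pow_bounds hQ1' A
  set θ := th Q with hθ
  have h0 : 0 < θ := by linarith [hth.1]
  obtain ⟨Q', hQ', hD⟩ := hM θ h0 hth.2.le j hb.1
  set p := τ ^ 2 / (2 * (Real.exp (3 * A) * (j + 1))) with hp
  have hp0 : 0 < p := by positivity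
  obtain ⟨R, Pm, hR, hPm, hspec⟩ := exists_menu hth.1 hth.2 Q' j hp0
  refine ⟨Q, j, R, Pm, hQ2, hb.1, hb.2.trans hA.le,
     hPm, fun S L _ _ _ β hβ P hP1 hPmul hPt A₀ hA₀ hA₀' =>
    ⟨Ms.map (ZZ β Pm R j) (base0 β Pm R j A₀), fun Y => ε / 2 + M * Real.sqrt (aa θ β Q' j Y),
      (prob_base0 hβ hPm hR hA₀).map _, ext_I fun f => ?_, ?_, ?_⟩⟩
  · simp only [I_bind, I_map]
    exact I_base0_ZZ hR A₀ f
  · have hX := hA₀.mulU (goodM_pinsM hβ hPm R j)
    have hmain : (I (Mid θ β Pm R j A₀) fun q => Real.sqrt (aa θ β Q' j (ZZ β Pm R j q))) ≤ τ := by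
      refine (I_sqrt_le (NN_Mid hβ hPm hR hA₀) (mass_tilt_le_one _ _)
        fun q _ => aa_nonneg h0.le hth.2.le β Q' _).trans (Real.sqrt_le_iff.2 ⟨hτ0.le, ?_⟩)
      have a1 := psi_bound hth.1 hth.2.le hQ' hR hPm hp0.le hspec hβ j le_rfl A₀ hA₀
      have h2 : 0 ≤ 1 - θ := by linarith [hth.2]
      refine le_trans ((supp_Mid hβ hPm hA₀).I_mono (NN_Mid hβ hPm hR hA₀) fun q hq =>
        le_add_of_nonneg_right (mul_nonneg (by positivity)
          (En_le_one h0.le hth.2.le hβ Q' (goodM_ZZ hβ hPm hq.1)).1)) (a1.trans ?_)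
      have hQr : (Q : ℝ) = 2 * Q₀ := by rw [hQ]; push_cast; ring
      have e1 : 1 - θ = 1 / (Q : ℝ) := by rw [hθ, th]; ring
      have e2 : (j : ℝ) * (1 - θ) = A := by
        rw [e1, hj]; push_cast; rw [hQr]; field_simp
      have a2 : (1 + 3 * (1 - θ)) ^ j ≤ Real.exp (3 * A) := by
        calc _ ≤ Real.exp (3 * (1 - θ)) ^ j :=
              pow_le_pow_left₀ (by positivity) (by linarith [Real.add_one_le_exp (3 * (1 - θ))]) j
          _ = Real.exp (3 * A) := by rw [← Real.exp_nat_mul, ← e2]; congr 1; ring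
      rw [e2]
      refine (mul_le_mul_of_nonneg_right a2 (by positivity)).trans ?_
      have a3 : Real.exp (3 * A) * ((j + 1) * p) = τ ^ 2 / 2 := by rw [hp]; field_simp
      have a4 : Real.exp (3 * A) * (6 * (1 - θ) * (1 + A)) ≤ τ ^ 2 / 2 := by
        have a5 : Real.exp (3 * A) * (6 * (1 + A)) / τ ^ 2 ≤ Q₀ := by linarith
        rw [div_le_iff₀ (by positivity)] at a5
        rw [e1, hQr]
        calc _ = Real.exp (3 * A) * (6 * (1 + A)) / (2 * Q₀) := by ring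
          _ ≤ τ ^ 2 / 2 := by rw [div_le_iff₀ (by positivity)]; linarith
      rw [mul_add]
      linarith
    rw [I_Mid hR] at hmain
    have hb0 : (I (base0 β Pm R j A₀) fun q => pS θ (ZZ β Pm R j q)) = pS θ (A₀ * pinsM β Pm R j) :=
      I_base0_ZZ hR A₀ (vS θ)
    have hle : (I (base0 β Pm R j A₀) fun q => pS θ (ZZ β Pm R j q) *
        Real.sqrt (aa θ β Q' j (ZZ β Pm R j q))) ≤ τ * pS θ (A₀ * pinsM β Pm R j) := by
      rcases (pS_nonneg (θ := θ) hX).eq_or_lt with hz | hz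
      · rw [← hz, mul_zero, ← I_zero_fun (base0 β Pm R j A₀)]
        refine le_of_eq (I_congr fun q hq => ?_)
        rw [eq_zero_of_I_eq_zero (prob_base0 hβ hPm hR hA₀).1 (fun q hq =>
          pS_nonneg (goodM_ZZ hβ hPm (supp_base0 hβ hPm hA₀ q hq))) (hb0.trans hz.symm) q hq,
          zero_mul]
      · rwa [div_le_iff₀ hz] at hmain
    have e : (I (Ms.map (ZZ β Pm R j) (base0 β Pm R j A₀)) fun Y =>
        (ε / 2 + M * Real.sqrt (aa θ β Q' j Y)) * pS θ Y) =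
        ε / 2 * pS θ (A₀ * pinsM β Pm R j) + M * I (base0 β Pm R j A₀) fun q =>
          pS θ (ZZ β Pm R j q) * Real.sqrt (aa θ β Q' j (ZZ β Pm R j q)) := by
      rw [I_map, ← hb0, ← I_const_mul, ← I_const_mul, ← I_add_fun]
      congr 1; funext q; ring
    rw [e]
    have a1 := mul_le_mul_of_nonneg_left hle hM0
    have a2 : M * τ ≤ ε / 2 := by
      rw [hτ, mul_div_assoc', div_le_iff₀ (by positivity)]; nlinarith
    have a3 := mul_le_mul_of_nonneg_right a2 (pS_nonneg (θ := θ) hX)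
    nlinarith
  · refine ((supp_base0 hβ hPm hA₀).and (supp_base0' hP1 hPmul hPt hPm hA₀')).map fun q hq => ?_
    have hY := goodM_ZZ (R := R) hβ hPm hq.1
    refine ⟨hY, goodM_ZZ' hP1 hPmul hPt hPm hq.2, by positivity, ?_⟩
    rcases (pS_nonneg (θ := θ) hY).eq_or_lt with hz | hz
    · refine ⟨1, goodM_one R01_one, fun W hW => ?_⟩
      have z : ∀ W, GoodM U01 W → pS θ (ZZ β Pm R j q * W) = 0 := fun W hW =>
        le_antisymm ((pS_mul_le h0.le hY hW).trans hz.symm.le) (pS_nonneg (hY.mulU hW))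
      rw [z _ (goodM_comb hW (goodM_slotB hβ j)), z _ (goodM_comb hW (goodM_one R01_one).slotE), ← hz]
      simp
    · exact ⟨xiOf θ β _, goodM_xiOf h0 hβ hY hz, fun W hW => hD S L β hβ _ W hY hW hz⟩

end Crest.Agent.R141
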