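import Crest.Agent.R141.Alg
import Crest.Agent.R141.Dec
import Crest.Agent.R153.ASS

/-!
Row 141: one more site (domination, slot replacement, the estimate for one decoupled component).
-/

set_option autoImplicit false
set_option maxHeartbeats 400000

namespace Crest.Agent.R141

open Crest.Agent.R153 Crest.Agent.R153.Ms Crest.Agent.R153.Nest Crest.Agent.R153.ASS
open Crest.ProbabilityR MeasureTheory Filter

variable {S A : Type} {j p : ℕ} {θ c : ℝ} {Γ : Ms (Diluted.Inter p)} {H : Ms (Bool → ℝ)}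

/-! ### Domination -/

/-- Nonnegative measures supported on `P`-good nests. -/
def PosP (P : A → Prop) (X : Ms (Nest A j)) : Prop := X.NN ∧ X.Supp (Good P)

theorem PosP.add {P : A → Prop} {X Y : Ms (Nest A j)} (hX : PosP P X) (hY : PosP P Y) :
    PosP P (X + Y) := ⟨hX.1.add hY.1, hX.2.add hY.2⟩

theorem PosP.mul [CommMonoid A] {P : A → Prop} (hmul : ∀ a b, P a → P b → P (a * b))
    {X Y : Ms (Nest A j)} (hX : PosP P X) (hY : PosP P Y) : PosP P (X * Y) :=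
  ⟨hX.1.mul hY.1, hX.2.mul hY.2 fun _ _ hc hd => Good.mul hmul hc hd⟩

theorem posP_prod [CommMonoid A] {P : A → Prop} (h1 : P 1) (hmul : ∀ a b, P a → P b → P (a * b))
    {κ : Type} (s : Finset κ) {X : κ → Ms (Nest A j)} (h : ∀ i, PosP P (X i)) :
    PosP P (∏ i ∈ s, X i) :=
  Finset.prod_induction _ _ (fun _ _ => PosP.mul hmul) ⟨NN_one, (goodM_one h1).2⟩ fun i _ => h i

theorem posP_prod_add [CommMonoid A] {P : A → Prop} (h1 : P 1)
    (hmul : ∀ a b, P a → P b → P (a * b)) {κ : Type} [DecidableEq κ] {U V : κ → Ms (Nest A j)}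
    (hU : ∀ i, PosP P (U i)) (hV : ∀ i, PosP P (V i)) (s : Finset κ) :
    PosP P (∏ i ∈ s, (U i + V i) - (∏ i ∈ s, U i + ∑ ℓ ∈ s, V ℓ * ∏ i ∈ s.erase ℓ, U i)) := by
  induction s using Finset.induction_on with
  | empty => simpa using ⟨NN_zero, supp_zero _⟩
  | insert a s ha ih =>
    have e : ∑ ℓ ∈ s, V ℓ * ∏ i ∈ (insert a s).erase ℓ, U i =
        U a * ∑ ℓ ∈ s, V ℓ * ∏ i ∈ s.erase ℓ, U i := by
      rw [Finset.mul_sum]
      refine Finset.sum_congr rfl fun ℓ hℓ => ?_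
      rw [Finset.erase_insert_of_ne (by rintro rfl; exact ha hℓ),
        Finset.prod_insert fun h => ha (Finset.mem_of_mem_erase h)]
      ring
    rw [Finset.prod_insert ha, Finset.prod_insert ha, Finset.sum_insert ha, Finset.erase_insert ha, e]
    have e2 : ∀ a b x y z : Ms (Nest A j),
        (a + b) * x - (a * y + (b * y + a * z)) = (a + b) * (x - (y + z)) + b * z := by
      intros; ring
    rw [e2]
    refine (((hU a).add (hV a)).mul hmul ih).add ((hV a).mul hmul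
      ⟨NN_sum fun ℓ _ => ((hV ℓ).mul hmul (posP_prod h1 hmul _ hU)).1,
        supp_sum fun ℓ _ => ((hV ℓ).mul hmul (posP_prod h1 hmul _ hU)).2⟩)

theorem clz_dom {m : ℕ} {g : Diluted.Inter (m + 1)} (hc : 0 ≤ c) (hg : Inc c g)
    {B B' : Ms (Nest (S → ℝ) j)} (hB : GoodM U01 B) (hB' : GoodM U01 B') {a b : ℝ} (ha : 0 ≤ a)
    (hb : 0 ≤ b) :
    Pos (clz g (fun _ => a • B + b • B') - (a ^ (m + 1) • clz g (fun _ => B) +
      (b * a ^ m) • ∑ ℓ, clz g (Function.update (fun _ => B) ℓ B'))) := by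
  have k : ∀ {U : Ms (Nest (S → ℝ) j)}, GoodM U01 U → ∀ {t : ℝ}, 0 ≤ t → ∀ i : Fin (m + 1),
      PosP (fun x : Fin (m + 1) → S → ℝ => ∀ i, U01 (x i))
        (t • mapM (fun x => Pi.mulSingle i x) U) := fun {U} hU {t} ht i => by
    have := goodM_mulSingle (P := U01) U01_one i hU
    exact ⟨this.1.1.smul ht, this.2.smul _⟩
  have h := posP_prod_add (P := fun x : Fin (m + 1) → S → ℝ => ∀ i, U01 (x i)) (fun _ => U01_one)
    (fun a b ha hb i => (ha i).mul (hb i)) (k hB ha) (k hB' hb) Finset.univ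
  have e : clz g (fun _ => a • B + b • B') - (a ^ (m + 1) • clz g (fun _ => B) +
      (b * a ^ m) • ∑ ℓ, clz g (Function.update (fun _ => B) ℓ B')) =
      mapM (fun x σ => mlin g fun ℓ => x ℓ σ) (tens (fun _ => a • B + b • B') -
        (a ^ (m + 1) • tens (fun _ => B) +
          (b * a ^ m) • ∑ ℓ, tens (Function.update (fun _ => B) ℓ B'))) :=
    ext_I fun f => by simp [clz, I_sum]
  rw [e]
  have e2 : tens (fun _ : Fin (m + 1) => a • B + b • B') - (a ^ (m + 1) • tens (fun _ => B) +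
      (b * a ^ m) • ∑ ℓ, tens (Function.update (fun _ => B) ℓ B')) =
      ∏ i, (a • mapM (fun x => Pi.mulSingle i x) B + b • mapM (fun x => Pi.mulSingle i x) B') -
        (∏ i, a • mapM (fun x => Pi.mulSingle i x) B +
          ∑ ℓ, (b • mapM (fun x => Pi.mulSingle ℓ x) B') *
            ∏ i ∈ Finset.univ.erase ℓ, a • mapM (fun x => Pi.mulSingle i x) B) := by
    simp only [tens_update, Finset.prod_smul, Finset.prod_const, Finset.card_univ, Fintype.card_fin,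
      Finset.card_erase_of_mem (Finset.mem_univ _), Nat.add_sub_cancel, smul_mul_smul_comm,
      Finset.smul_sum]
    simp only [tens, mapM_add, mapM_smul]
  rw [e2]
  exact ⟨h.1.map _, h.2.map fun _ hd => hd.map fun x hx =>
    Inc.u01 hc fun σ => mlin_mem hg fun ℓ => hx ℓ σ⟩

theorem CL_dom {m : ℕ} {Γ : Ms (Diluted.Inter (m + 1))} (hM : Model c Γ H) (hS : Symm Γ)
    {B B' : Ms (Nest (S → ℝ) j)} (hB : GoodM U01 B) (hB' : GoodM U01 B') {a b : ℝ} (ha : 0 ≤ a)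
    (hb : 0 ≤ b) :
    Pos (CL Γ (fun _ => a • B + b • B') - (a ^ (m + 1) • CL Γ (fun _ => B) +
      ((m + 1) * a ^ m * b) • CL Γ (lastSlot (m + 1) B' B))) := by
  have e : CL Γ (fun _ => a • B + b • B') - (a ^ (m + 1) • CL Γ (fun _ => B) +
      ((m + 1) * a ^ m * b) • CL Γ (lastSlot (m + 1) B' B)) =
      Ms.bind Γ fun g => clz g (fun _ => a • B + b • B') - (a ^ (m + 1) • clz g (fun _ => B) +
        (b * a ^ m) • ∑ ℓ, clz g (Function.update (fun _ => B) ℓ B')) := by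
    have e1 : ((m + 1) * a ^ m * b) • CL Γ (lastSlot (m + 1) B' B) =
        (b * a ^ m) • ∑ ℓ, CL Γ (Function.update (fun _ => B) ℓ B') := by
      simp only [CL_update_eq hS, Finset.sum_const, Finset.card_univ, Fintype.card_fin,
        ← Nat.cast_smul_eq_nsmul ℝ, smul_smul]
      congr 1
      push_cast
      ring
    rw [e1]
    refine ext_I fun f => ?_
    simp only [CL, I_sub, I_add, I_smul, I_sum, I_bind, I_sub_fun, I_add_fun, I_const_mul, I_sum_fun]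
  rw [e]
  exact ⟨hM.probΓ.1.bind fun g hg => (clz_dom hM.pos.le (hM.suppΓ g hg) hB hB' ha hb).1,
    hM.suppΓ.bind fun g hg => (clz_dom hM.pos.le hg hB hB' ha hb).2⟩

/-! ### Slot replacement -/

section slots
variable [Fintype S] {Y B E : Ms (Nest (S → ℝ) j)} {e : ℝ}

theorem replace_clz (he : 0 ≤ e)
    (h : ∀ W : Ms (Nest (Bool → S → ℝ) j), GoodM N01 W →
      |pS θ (Y * comb W B) - pS θ (Y * comb W E)| ≤ e)
    {g : Diluted.Inter p} (hc : 0 ≤ c) (hg : Inc c g) {T T' : Fin p → Ms (Nest (S → ℝ) j)}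
    (hT : ∀ ℓ, GoodM U01 (T ℓ)) (hT' : ∀ ℓ, GoodM U01 (T' ℓ))
    (hTT : ∀ ℓ, T ℓ = T' ℓ ∨ (T ℓ = B ∧ T' ℓ = E)) {X : Ms (Nest (S → ℝ) j)} (hX : GoodM U01 X) :
    |pS θ (Y * X * clz g T) - pS θ (Y * X * clz g T')| ≤ p * e := by
  classical
  have key : ∀ s : Finset (Fin p),
      |pS θ (Y * X * clz g T) - pS θ (Y * X * clz g (s.piecewise T' T))| ≤ s.card * e := by
    intro s
    induction s using Finset.induction_on with
    | empty => simp
    | insert a s ha ih =>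
      have hs : ∀ ℓ, GoodM U01 (s.piecewise T' T ℓ) := fun ℓ => by
        by_cases hℓ : ℓ ∈ s
        · rw [Finset.piecewise_eq_of_mem _ _ _ hℓ]; exact hT' ℓ
        · rw [Finset.piecewise_eq_of_notMem _ _ _ hℓ]; exact hT ℓ
      have e1 : s.piecewise T' T = Function.update (s.piecewise T' T) a (T a) := by
        rw [← Finset.piecewise_eq_of_notMem s T' T ha, Function.update_eq_self]
      have step : |pS θ (Y * X * clz g (s.piecewise T' T)) -
          pS θ (Y * X * clz g ((insert a s).piecewise T' T))| ≤ e := by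
        rw [Finset.piecewise_insert]
        obtain ⟨W, hW, hWe⟩ := mul_clz_update hc hg hX hs a
        conv_lhs => enter [1, 1]; rw [e1]
        rw [mul_assoc, mul_assoc, hWe, hWe]
        rcases hTT a with h1 | ⟨h1, h2⟩
        · rw [h1, sub_self, abs_zero]; exact he
        · rw [h1, h2]; exact h W hW
      rw [Finset.card_insert_of_notMem ha]
      refine (abs_sub_le _ _ _).trans ((add_le_add ih step).trans (le_of_eq ?_))
      push_cast; ring
  simpa using key Finset.univ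

theorem replace_CL (hM : Model c Γ H) (he : 0 ≤ e)
    (h : ∀ W : Ms (Nest (Bool → S → ℝ) j), GoodM N01 W →
      |pS θ (Y * comb W B) - pS θ (Y * comb W E)| ≤ e)
    {T T' : Fin p → Ms (Nest (S → ℝ) j)}
    (hT : ∀ ℓ, GoodM U01 (T ℓ)) (hT' : ∀ ℓ, GoodM U01 (T' ℓ))
    (hTT : ∀ ℓ, T ℓ = T' ℓ ∨ (T ℓ = B ∧ T' ℓ = E)) (J : ℕ) {X : Ms (Nest (S → ℝ) j)}
    (hX : GoodM U01 X) :
    |pS θ (Y * X * CL Γ T ^ J) - pS θ (Y * X * CL Γ T' ^ J)| ≤ J * (p * e) := by
  refine replace_pow (hM.goodM_CL hT) (hM.goodM_CL hT') (fun X hX => ?_) J X hX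
  rw [pS_mul_CL, pS_mul_CL, ← I_sub_fun]
  exact abs_I_le_const hM.probΓ fun g hg =>
    replace_clz he h hM.pos.le (hM.suppΓ g hg) hT hT' hTT hX

end slots

/-! ### Old and new sites -/

def oldS (N : ℕ) (i : Fin N) : (Fin (N + 1) → Bool) → ℝ := spin (N + 1) i.succ

noncomputable def newB (N j : ℕ) : Ms (Nest ((Fin (N + 1) → Bool) → ℝ) j) :=
  dirac (det (spin (N + 1) 0) j)

noncomputable def newF (H : Ms (Bool → ℝ)) (N j : ℕ) : Ms (Nest ((Fin (N + 1) → Bool) → ℝ) j) :=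
  Ms.map (fun w => det (fun σ : Fin (N + 1) → Bool => w (σ 0)) j) H

noncomputable def oldF (H : Ms (Bool → ℝ)) (N j : ℕ) : Ms (Nest ((Fin (N + 1) → Bool) → ℝ) j) :=
  ∏ i : Fin N, Ms.map (fun w => det (fun σ : Fin (N + 1) → Bool => w (σ i.succ)) j) H

noncomputable def Cc' (Γ : Ms (Diluted.Inter p)) (N j : ℕ) :
    Ms (Nest ((Fin (N + 1) → Bool) → ℝ) j) := CL Γ fun _ => slotB (oldS N) j

noncomputable def Dc' (Γ : Ms (Diluted.Inter p)) (N j : ℕ) :
    Ms (Nest ((Fin (N + 1) → Bool) → ℝ) j) := CL Γ (lastSlot p (newB N j) (slotB (oldS N) j))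

theorem U01_oldS (N : ℕ) (i : Fin N) : U01 (oldS N i) := U01_spin _ _

theorem PP_oldS (N : ℕ) (i : Fin N) : PP N (oldS N i) := fun σ => by
  simp [oldS, spin, g0, Fin.tail]

theorem PP_testS (N : ℕ) (i : Fin N) (o : Option Bool) :
    PP N fun σ => 1 - tv o (oldS N i σ) := fun σ => by
  simp only []; rw [← PP_oldS N i σ]

theorem oldS_g0 (N : ℕ) : (fun i τ => oldS N i (g0 N τ)) = spin N := by
  funext i τ; simp [oldS, spin, g0]

theorem good_newB (N j : ℕ) : GoodM U01 (newB N j) := goodM_dirac (good_det (U01_spin _ _) j)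

theorem fieldN_succ (H : Ms (Bool → ℝ)) (N j : ℕ) : fieldN H (N + 1) j = newF H N j * oldF H N j :=
  Fin.prod_univ_succ _

theorem Model.good_newF (hM : Model c Γ H) (N j : ℕ) : GoodM U01 (newF H N j) :=
  ⟨hM.probH.map _, hM.suppH.map fun _ hw => good_det (fun _ => (hw.u01 hM.pos.le) _) j⟩

theorem Model.good_oldF (hM : Model c Γ H) (N j : ℕ) : GoodM U01 (oldF H N j) :=
  goodM_prod U01_one U01_mul _ fun _ _ => ⟨hM.probH.map _, hM.suppH.map fun _ hw =>
    good_det (fun _ => (hw.u01 hM.pos.le) _) j⟩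

theorem Model.PP_oldF (hM : Model c Γ H) (N j : ℕ) : GoodM (PP N) (oldF H N j) :=
  goodM_prod (PP_one N) (PP_mul N) _ fun _ _ => ⟨hM.probH.map _, hM.suppH.map fun _ _ =>
    good_det (fun σ => by simp [g0, Fin.tail]) j⟩

theorem pb_oldF (H : Ms (Bool → ℝ)) (N j : ℕ) : pb (g0 N) (oldF H N j) = fieldN H N j := by
  rw [pb, oldF, mapM_prod _ rfl (fun _ _ => rfl), fieldN]
  refine Finset.prod_congr rfl fun i _ => ?_
  rw [mapM, Ms.map_map]
  simp [g0]

theorem pb_CL {T : Type} (φ : T → S) (Γ : Ms (Diluted.Inter p)) (U : Fin p → Ms (Nest (S → ℝ) j)) :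
    pb φ (CL Γ U) = CL Γ fun ℓ => pb φ (U ℓ) := CL_pb Γ φ U

theorem pb_Cc' (Γ : Ms (Diluted.Inter p)) (N j : ℕ) :
    pb (g0 N) (Cc' Γ N j) = CL Γ fun _ => slotB (spin N) j := by
  rw [Cc', pb_CL, pb_slotB, oldS_g0]

theorem Model.good_Cc' (hM : Model c Γ H) (N j : ℕ) [NeZero N] : GoodM U01 (Cc' Γ N j) :=
  hM.goodM_CL fun _ => goodM_slotB (U01_oldS N) j

theorem Model.good_Dc' (hM : Model c Γ H) (N j : ℕ) [NeZero N] : GoodM U01 (Dc' Γ N j) :=
  hM.goodM_CL (lastSlot_prop (good_newB N j) (goodM_slotB (U01_oldS N) j))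

theorem Model.PP_Cc' (hM : Model c Γ H) (N j : ℕ) [NeZero N] : GoodM (PP N) (Cc' Γ N j) :=
  goodM_bind hM.probΓ fun g _ =>
    (goodM_tens (P := fun _ => PP N) fun _ => goodM_slotB' (PP_oldS N) j).mapM fun x hx σ => by
      simp only []
      congr 1
      funext ℓ
      exact hx ℓ σ

theorem pb_siteN (N : ℕ) (ξ : Ms (Nest ℝ j)) (J : ℕ) :
    pb (fun σ : Fin (N + 1) → Bool => σ 0) (siteN Γ H ξ J) =
      newF H N j * CL Γ (lastSlot p (newB N j) (slotE _ ξ)) ^ J := by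
  rw [siteN, pb_mul, pb_pow, pb_CL, lastSlot_map, pb_slotE]
  congr 1
  · rw [pb, mapM, Ms.map_map, newF]
    simp
  · rw [pb, mapM_dirac, map_det]
    rfl

theorem avg_split' {M : Type} {N : ℕ} (hN : 0 < N) (X : Fin (N + 1) → Ms M) :
    avg X = ((N : ℝ) / (N + 1)) • avg (fun i : Fin N => X i.succ) + (1 / ((N : ℝ) + 1)) • X 0 := by
  refine ext_I fun f => ?_
  have : (N : ℝ) ≠ 0 := by positivity
  simp only [I_add, I_smul, I_avg, Fin.sum_univ_succ, Fintype.card_fin]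
  push_cast
  field_simp
  ring

theorem per_Y' (h0 : 0 ≤ θ) {N : ℕ} [NeZero N] {m : ℕ} {Γ : Ms (Diluted.Inter (m + 1))}
    (hM : Model c Γ H) {a : ℝ} (ha : 0 ≤ a)
    {Y : Ms (Nest ((Fin (N + 1) → Bool) → ℝ) j)} (hY : GoodM U01 Y) (hP : GoodM (PP N) Y)
    {ξ : Ms (Nest ℝ j)} (hξ : GoodM R01 ξ) {π₀ G : ℝ} (hπ : 0 ≤ π₀) (hG : 1 ≤ π₀ * G)
    (hPi : π₀ ≤ PiG θ a Γ H ξ) {e : ℝ} (he : 0 ≤ e)
    (h : ∀ W : Ms (Nest (Bool → (Fin (N + 1) → Bool) → ℝ) j), GoodM N01 W →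
      |pS θ (Y * comb W (slotB (oldS N) j)) - pS θ (Y * comb W (slotE _ ξ))| ≤ e)
    {l₁ l₂ : ℝ} (h1 : 0 ≤ l₁) (h1' : l₁ ≤ (m + 1) * a) (h2 : 0 ≤ l₂) (h2' : l₂ ≤ m * a) :
    π₀ * (Real.exp (-(m * a - l₂)) * (∑' J, poi l₂ J * pS θ (pb (g0 N) (Y * Cc' Γ N j ^ J))) -
      (1 + G) * (m + 1) ^ 2 * a * e) ≤ ∑' J, poi l₁ J * pS θ (Y * newF H N j * Dc' Γ N j ^ J) := by
  have hB := goodM_slotB (U01_oldS N) j
  have hE : GoodM U01 (slotE (Fin (N + 1) → Bool) ξ) := hξ.slotE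
  obtain ⟨y, hy⟩ : ∃ y, y = pS θ (pb (g0 N) Y) := ⟨_, rfl⟩
  have hy0 : 0 ≤ y := hy ▸ pS_nonneg (good_pb _ hY)
  obtain ⟨w, hw⟩ : ∃ w, w = edgeW θ Γ ξ := ⟨_, rfl⟩
  have hw01 : 0 ≤ w ∧ w ≤ 1 := hw ▸ edgeW_mem hM h0 hξ
  have ht : (1 : ℝ) ≤ 2 ^ (θ ^ j) := Real.one_le_rpow (by norm_num) (pow_nonneg h0 _)
  have hm0 : (0 : ℝ) ≤ m := Nat.cast_nonneg _
  have hF1 : GoodM U01 (Ms.map (fun w => det w j) H) :=
    ⟨hM.probH.map _, hM.suppH.map fun _ hw => good_det (hw.u01 hM.pos.le) j⟩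
  have hD1 : GoodM U01 (CL Γ (lastSlot (m + 1) (dirac (det spin1 j)) (slotE Bool ξ))) :=
    hM.goodM_CL (lastSlot_prop (goodM_dirac (good_det U01_spin1 j)) hξ.slotE)
  -- site part
  have s1 : ∀ J : ℕ, y * pS θ (siteN Γ H ξ J) - J * ((m + 1) * e) ≤
      pS θ (Y * newF H N j * Dc' Γ N j ^ J) := by
    intro J
    have := replace_CL hM he h (lastSlot_prop (good_newB N j) hB) (lastSlot_prop (good_newB N j) hE)
      (fun ℓ => by unfold lastSlot; split_ifs <;> simp) J (hM.good_newF N j)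
    rw [mul_assoc Y _ (CL Γ (lastSlot _ _ (slotE _ ξ)) ^ J), ← pb_siteN,
      pS_tensor hY hP (hM.goodM_siteN hξ J), ← hy] at this
    have := (abs_le.1 this).1
    push_cast at this
    unfold Dc'; linarith
  have sumS : Summable fun J => poi l₁ J * pS θ (siteN Γ H ξ J) := summable_pS h0 h1 hF1 hD1
  have s2 : y * (∑' J, poi l₁ J * pS θ (siteN Γ H ξ J)) - l₁ * ((m + 1) * e) ≤
      ∑' J, poi l₁ J * pS θ (Y * newF H N j * Dc' Γ N j ^ J) := by
    refine hasSum_le (fun J => ?_) ((sumS.hasSum.mul_left y).sub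
      ((hasSum_poi_mul_nat l₁).mul_right ((m + 1) * e)))
      (summable_pS h0 h1 (hY.mulU (hM.good_newF N j)) (hM.good_Dc' N j)).hasSum
    have := mul_le_mul_of_nonneg_left (s1 J) (poi_nonneg h1 J)
    linarith
  have s3 : π₀ * Real.exp (-(m * a * (1 - w))) ≤ ∑' J, poi l₁ J * pS θ (siteN Γ H ξ J) := by
    have a1 := tsum_pS_anti h0 h1 h1' hF1 hD1
    refine le_trans ?_ a1
    unfold PiG at hPi
    rw [← hw] at hPi
    push_cast at hPi
    rw [add_sub_cancel_right, mul_comm a, mul_comm a] at hPi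
    rw [Real.exp_neg, ← div_eq_mul_inv, div_le_iff₀ (Real.exp_pos _)]
    exact hPi
  -- clause part
  have c1 : ∀ J : ℕ, pS θ (pb (g0 N) (Y * Cc' Γ N j ^ J)) ≤ y * w ^ J + J * ((m + 1) * e) := by
    intro J
    have a1 := replace_CL hM he h (T := fun _ => slotB (oldS N) j) (T' := fun _ => slotE _ ξ)
      (fun _ => hB) (fun _ => hE) (fun _ => Or.inr ⟨rfl, rfl⟩) J (goodM_one U01_one)
    rw [mul_one, pS_mul_edge_pow hM hξ _ hY, pS_PP hY hP, ← hy, ← hw] at a1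
    have a2 := (abs_le.1 a1).2
    have a3 := pS_PP (θ := θ) (hY.mulU ((hM.good_Cc' N j).powU J))
      (hP.mul (PP_mul N) ((hM.PP_Cc' N j).pow (PP_one N) (PP_mul N) J))
    unfold Cc' at a3 ⊢
    rw [a3] at a2
    push_cast at a2
    have a4 : (0 : ℝ) ≤ J * ((m + 1) * e) := by positivity
    by_contra hlt
    have a5 := not_le.1 hlt
    nlinarith
  have c2 : ∑' J, poi l₂ J * pS θ (pb (g0 N) (Y * Cc' Γ N j ^ J)) ≤
      y * Real.exp (-l₂ * (1 - w)) + l₂ * ((m + 1) * e) := by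
    have sumC : Summable fun J => poi l₂ J * pS θ (pb (g0 N) (Y * Cc' Γ N j ^ J)) := by
      simp only [pb_mul, pb_pow]
      exact summable_pS h0 h2 (good_pb _ hY) (good_pb _ (hM.good_Cc' N j))
    refine hasSum_le (fun J => ?_) sumC.hasSum (((hasSum_poi_mul_pow l₂ w).mul_left y).add
      ((hasSum_poi_mul_nat l₂).mul_right ((m + 1) * e)))
    have := mul_le_mul_of_nonneg_left (c1 J) (poi_nonneg h2 J)
    linarith
  have d0 : Real.exp (-(m * a - l₂)) ≤ 1 := Real.exp_le_one_iff.2 (by linarith)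
  have d1 : Real.exp (-(m * a - l₂)) * Real.exp (-l₂ * (1 - w)) ≤
      Real.exp (-(m * a * (1 - w))) := by
    rw [← Real.exp_add]
    refine Real.exp_le_exp.2 ?_
    nlinarith [mul_nonneg (sub_nonneg.2 h2') hw01.1]
  have d2 := mul_le_mul_of_nonneg_left
    (mul_le_mul_of_nonneg_left c2 (Real.exp_pos (-(m * a - l₂))).le) hπ
  have d3 := mul_le_mul_of_nonneg_left ((mul_le_mul_of_nonneg_left d1 hπ).trans s3) hy0
  have d4 : Real.exp (-(m * a - l₂)) * (l₂ * ((m + 1) * e)) ≤ (m + 1) ^ 2 * a * e := by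
    calc _ ≤ 1 * ((m + 1) * a * ((m + 1) * e)) :=
          mul_le_mul d0 (mul_le_mul_of_nonneg_right (by nlinarith) (by positivity))
            (by positivity) zero_le_one
      _ = _ := by ring
  have d4' := mul_le_mul_of_nonneg_left d4 hπ
  have d5 : l₁ * ((m + 1) * e) ≤ (m + 1) ^ 2 * a * e := by
    calc _ ≤ (m + 1) * a * ((m + 1) * e) := mul_le_mul_of_nonneg_right h1' (by positivity)
      _ = _ := by ring
  have d6 := mul_le_mul_of_nonneg_right hG (show 0 ≤ ((m : ℝ) + 1) ^ 2 * a * e by positivity)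
  nlinarith

end Crest.Agent.R141
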