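import Crest.Agent.R141.Ass_A

/-! Row 141: the recursion in the number of sites. -/

set_option autoImplicit false
set_option maxHeartbeats 400000

namespace Crest.Agent.R141

open Crest.Agent.R153 Crest.Agent.R153.Ms Crest.Agent.R153.Nest Crest.Agent.R153.ASS
open Crest.ProbabilityR MeasureTheory Filter

variable {j : ℕ} {θ c : ℝ} {H : Ms (Bool → ℝ)}

/-- The conclusion of the decoupling theorem for the measure `Z`. -/
def Dec' (θ ε : ℝ) (N : ℕ) (Z : Ms (Nest ((Fin (N + 1) → Bool) → ℝ) j)) : Prop :=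
  ∃ (ν : Ms (Ms (Nest ((Fin (N + 1) → Bool) → ℝ) j)))
    (err : Ms (Nest ((Fin (N + 1) → Bool) → ℝ) j) → ℝ),
    ν.Prob ∧ Ms.bind ν (fun Y => Y) = Z ∧ I ν (fun Y => err Y * pS θ Y) ≤ ε * pS θ Z ∧
    ν.Supp fun Y => GoodM U01 Y ∧ GoodM (PP N) Y ∧ 0 ≤ err Y ∧
      ∃ ξ : Ms (Nest ℝ j), GoodM R01 ξ ∧
        ∀ W : Ms (Nest (Bool → (Fin (N + 1) → Bool) → ℝ) j), GoodM N01 W →
          |pS θ (Y * comb W (slotB (oldS N) j)) - pS θ (Y * comb W (slotE _ ξ))| ≤ err Y * pS θ Y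

theorem per_Z' (h0 : 0 ≤ θ) (hθ1 : θ ≤ 1) {N : ℕ} [NeZero N] {m : ℕ}
    {Γ : Ms (Diluted.Inter (m + 1))} (hM : Model c Γ H) {a : ℝ} (ha : 0 ≤ a) {ε : ℝ}
    (hε : 0 ≤ ε) {π₀ G : ℝ} (hπ : 0 ≤ π₀) (hG0 : 0 ≤ G) (hG : 1 ≤ π₀ * G)
    (hPi : ∀ ξ : Ms (Nest ℝ j), GoodM R01 ξ → π₀ ≤ PiG θ a Γ H ξ)
    {Z : Ms (Nest ((Fin (N + 1) → Bool) → ℝ) j)} (hZ : GoodM U01 Z) (hP : GoodM (PP N) Z)
    (hD : Dec' θ ε N Z)
    {l₁ l₂ : ℝ} (h1 : 0 ≤ l₁) (h1' : l₁ ≤ (m + 1) * a) (h2 : 0 ≤ l₂) (h2' : l₂ ≤ m * a) :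
    π₀ * ((Real.exp (-(m * a - l₂)) - 2 * (1 + G) * (m + 1) ^ 2 * a * ε * Real.exp (m * a)) *
      (∑' J, poi l₂ J * pS θ (pb (g0 N) (Z * Cc' Γ N j ^ J)))) ≤
      ∑' J, poi l₁ J * pS θ (Z * newF H N j * Dc' Γ N j ^ J) := by
  obtain ⟨ν, err, hν, hb, he, hs⟩ := hD
  have key := hs.I_mono hν.1 (f := fun Y => π₀ * (Real.exp (-(m * a - l₂)) *
      (∑' J, poi l₂ J * pS θ (pb (g0 N) (Y * Cc' Γ N j ^ J))) -
      (1 + G) * (m + 1) ^ 2 * a * (err Y * pS θ Y)))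
    (g := fun Y => ∑' J, poi l₁ J * pS θ (Y * newF H N j * Dc' Γ N j ^ J)) (by
      rintro Y ⟨hY, hYP, he0, ξ, hξ, h⟩
      exact per_Y' h0 hM ha hY hYP hξ hπ hG (hPi ξ hξ) (mul_nonneg he0 (pS_nonneg hY)) h h1 h1'
        h2 h2')
  rw [I_const_mul, I_sub_fun, I_const_mul, I_const_mul,
    I_tsum ν _ (fun Y hY => summable_pS h0 h1 ((hs Y hY).1.mulU (hM.good_newF N j))
      (hM.good_Dc' N j)),
    I_tsum ν _ (fun Y hY => by
      simp only [pb_mul, pb_pow]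
      exact summable_pS h0 h2 (good_pb _ (hs Y hY).1) (good_pb _ (hM.good_Cc' N j)))] at key
  have e1 : ∀ J, I ν (fun Y => poi l₁ J * pS θ (Y * newF H N j * Dc' Γ N j ^ J)) =
      poi l₁ J * pS θ (Z * newF H N j * Dc' Γ N j ^ J) := fun J => by
    rw [I_const_mul, ← hb, bind_mul, bind_mul, pS, pre_bind]; rfl
  have e2 : ∀ J, I ν (fun Y => poi l₂ J * pS θ (pb (g0 N) (Y * Cc' Γ N j ^ J))) =
      poi l₂ J * pS θ (pb (g0 N) (Z * Cc' Γ N j ^ J)) := fun J => by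
    rw [I_const_mul, ← hb, bind_mul, pb_bind, pS, pre_bind]; rfl
  simp only [e1, e2] at key
  refine le_trans (mul_le_mul_of_nonneg_left ?_ hπ) key
  obtain ⟨Bz, hBz⟩ : ∃ Bz, Bz = ∑' J, poi l₂ J * pS θ (pb (g0 N) (Z * Cc' Γ N j ^ J)) := ⟨_, rfl⟩
  have b1 : Real.exp (-l₂) * pS θ (pb (g0 N) Z) ≤ Bz := by
    rw [hBz]
    simp only [pb_mul, pb_pow]
    exact le_tsum_pS h0 h2 (good_pb _ hZ) (good_pb _ (hM.good_Cc' N j))
  rw [← hBz]
  have hy0 : 0 ≤ pS θ (pb (g0 N) Z) := pS_nonneg (good_pb _ hZ)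
  have b2 : pS θ Z ≤ 2 * pS θ (pb (g0 N) Z) := by
    rw [pS_PP hZ hP]
    refine mul_le_mul_of_nonneg_right ?_ hy0
    calc (2 : ℝ) ^ (θ ^ j) ≤ 2 ^ (1 : ℝ) :=
          Real.rpow_le_rpow_of_exponent_le (by norm_num) (pow_le_one₀ h0 hθ1)
      _ = 2 := Real.rpow_one _
  have b3 : pS θ (pb (g0 N) Z) ≤ Real.exp (m * a) * Bz := by
    have c1 := mul_le_mul_of_nonneg_left b1 (Real.exp_pos (m * a)).le
    have c2 : 1 ≤ Real.exp (m * a) * Real.exp (-l₂) := by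
      rw [← Real.exp_add]; exact Real.one_le_exp (by linarith)
    nlinarith
  have b4 : I ν (fun Y => err Y * pS θ Y) ≤ ε * (2 * (Real.exp (m * a) * Bz)) :=
    he.trans (mul_le_mul_of_nonneg_left (by linarith) hε)
  have b5 := mul_le_mul_of_nonneg_left b4 (show 0 ≤ (1 + G) * ((m : ℝ) + 1) ^ 2 * a by positivity)
  nlinarith

/-- The pinned annealed value. -/
noncomputable def Phi' {p : ℕ} (θ : ℝ) (Γ : Ms (Diluted.Inter p)) (H : Ms (Bool → ℝ)) (a : ℝ)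
    (Pm : ∀ i, Ms (Nest (Option Bool) i)) (R j N : ℕ) : ℝ :=
  ∑' M, poi (a * N) M *
    pS θ (fieldN H N j * pinsM (spin N) Pm R j * (CL Γ fun _ => slotB (spin N) j) ^ M)

theorem step' (h0 : 0 ≤ θ) (hθ1 : θ ≤ 1) {N : ℕ} [NeZero N] {m : ℕ}
    {Γ : Ms (Diluted.Inter (m + 1))} (hM : Model c Γ H) (hS : Symm Γ) {a : ℝ} (ha : 0 ≤ a) {ε : ℝ}
    (hε : 0 ≤ ε) {π₀ G : ℝ} (hπ : 0 ≤ π₀) (hG0 : 0 ≤ G) (hG : 1 ≤ π₀ * G)
    (hPi : ∀ ξ : Ms (Nest ℝ j), GoodM R01 ξ → π₀ ≤ PiG θ a Γ H ξ)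
    {Pm : ∀ i, Ms (Nest (Option Bool) i)} (hPm : ∀ i, GoodM Any (Pm i)) (R : ℕ)
    (hD : ∀ M, Dec' θ ε N (oldF H N j * Cc' Γ N j ^ M * pinsM (oldS N) Pm R j))
    {p : ℝ} (hp : p = (N : ℝ) / (N + 1)) {κ : ℝ}
    (hκ : κ ≤ p ^ ((j + 1) * R) * Real.exp (-((m + 1) * a * (1 - p ^ m))) *
      (Real.exp (-(m * a * (1 - p ^ (m + 1)))) -
        2 * (1 + G) * (m + 1) ^ 2 * a * ε * Real.exp (m * a))) :
    κ * π₀ * Phi' θ Γ H a Pm R j N ≤ Phi' θ Γ H a Pm R j (N + 1) := by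
  have hN : 0 < N := Nat.pos_of_ne_zero (NeZero.ne N)
  have hN' : (0 : ℝ) < N := by exact_mod_cast hN
  set q : ℝ := 1 / ((N : ℝ) + 1) with hq
  have hq0 : 0 < q := by positivity
  have hpq : p = 1 - q := by rw [hp, hq]; field_simp; ring
  have hp0 : 0 < p := by rw [hp]; positivity
  have hp1 : p ≤ 1 := by linarith
  have hNq : (N : ℝ) * q = p := by rw [hp, hq]; field_simp
  have hN1q : ((N : ℝ) + 1) * q = 1 := by rw [hq]; field_simp
  have hm0 : (0 : ℝ) ≤ m := Nat.cast_nonneg _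
  set l₀ : ℝ := a * (N + 1) * p ^ (m + 1) with hl₀
  set l₁ : ℝ := (m + 1) * a * p ^ m with hl₁
  set l₂ : ℝ := a * N * (1 - p ^ m) with hl₂
  have hpm : p ^ m ≤ 1 := pow_le_one₀ hp0.le hp1
  have h00 : 0 ≤ l₀ := by positivity
  have h1 : 0 ≤ l₁ := by positivity
  have h1' : l₁ ≤ (m + 1) * a := mul_le_of_le_one_right (by positivity) hpm
  have h2 : 0 ≤ l₂ := mul_nonneg (by positivity) (by linarith)
  have h2' : l₂ ≤ m * a := by
    have := one_sub_pow_le (q := q) (by linarith) m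
    rw [← hpq] at this
    calc l₂ ≤ a * N * (m * q) := mul_le_mul_of_nonneg_left this (by positivity)
      _ = m * a * p := by rw [← hNq]; ring
      _ ≤ _ := mul_le_of_le_one_right (by positivity) hp1
  have h2'' : m * a * p ^ (m + 1) ≤ l₂ := by
    have := le_one_sub_pow hq0.le (by linarith) m
    rw [← hpq] at this
    calc m * a * p ^ (m + 1) = a * N * (m * q * p ^ m) := by rw [pow_succ, ← hNq]; ring
      _ ≤ l₂ := mul_le_mul_of_nonneg_left this (by positivity)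
  have hsum : a * N = l₀ + l₂ := by
    have : ((N : ℝ) + 1) * p = N := by rw [hp]; field_simp
    rw [hl₀, hl₂, pow_succ]
    linear_combination (-(a * p ^ m)) * this
  have hδ : a * (N + 1) - (l₀ + l₁) ≤ (m + 1) * a * (1 - p ^ m) := by
    have := one_sub_pow_le (q := q) (by linarith) (m + 1)
    rw [← hpq] at this
    have h3 := mul_le_mul_of_nonneg_left this (show 0 ≤ a * (N + 1) by positivity)
    push_cast at h3
    have h4 : a * (N + 1) * ((m + 1) * q) = (m + 1) * a := by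
      linear_combination (a * (m + 1)) * hN1q
    rw [hl₀, hl₁]; nlinarith
  obtain ⟨Pn, hPn⟩ : ∃ Pn, Pn = pinsM (oldS N) Pm R j := ⟨_, rfl⟩
  have gP : GoodM U01 Pn := hPn ▸ goodM_pinsM (U01_oldS N) hPm R j
  have gPP : GoodM (PP N) Pn := hPn ▸ goodM_pinsM' (PP_one N) (PP_mul N) (PP_testS N) hPm R j
  obtain ⟨C, hC⟩ : ∃ C, C = Cc' Γ N j := ⟨_, rfl⟩
  obtain ⟨D, hDc⟩ : ∃ D, D = Dc' Γ N j := ⟨_, rfl⟩
  obtain ⟨F, hF⟩ : ∃ F, F = oldF H N j := ⟨_, rfl⟩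
  obtain ⟨F', hF'⟩ : ∃ F', F' = newF H N j := ⟨_, rfl⟩
  have gC : GoodM U01 C := hC ▸ hM.good_Cc' N j
  have gD : GoodM U01 D := hDc ▸ hM.good_Dc' N j
  have gF : GoodM U01 F := hF ▸ hM.good_oldF N j
  have gF' : GoodM U01 F' := hF' ▸ hM.good_newF N j
  have gCP : GoodM (PP N) C := hC ▸ hM.PP_Cc' N j
  have gFP : GoodM (PP N) F := hF ▸ hM.PP_oldF N j
  obtain ⟨C', hC'⟩ : ∃ C', C' = CL Γ fun _ => slotB (spin (N + 1)) j := ⟨_, rfl⟩
  have gC' : GoodM U01 C' := hC' ▸ hM.goodM_CL fun _ => goodM_slotB (U01_spin _) j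
  have gP' : GoodM U01 (pinsM (spin (N + 1)) Pm R j) := goodM_pinsM (U01_spin _) hPm R j
  -- the value with `N` variables
  have eN : Phi' θ Γ H a Pm R j N =
      ∑' i, poi l₀ i * ∑' J, poi l₂ J * pS θ (pb (g0 N) (F * C ^ i * Pn * C ^ J)) := by
    unfold Phi'
    rw [hsum, poi_merge h0 h00 h2 ((hM.goodM_fieldN N j).mulU (goodM_pinsM (U01_spin _) hPm R j))
      (hM.goodM_CL fun _ => goodM_slotB (U01_spin _) j)]
    simp only [pb_mul, pb_pow, hC, hPn, hF, pb_Cc', pb_oldF, pb_pinsM, oldS_g0]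
    simp only [mul_right_comm (fieldN H N j) (pinsM (spin N) Pm R j)]
  have eN' : Phi' θ Γ H a Pm R j (N + 1) = ∑' M, poi (a * ((N + 1 : ℕ) : ℝ)) M *
      pS θ (F' * F * pinsM (spin (N + 1)) Pm R j * C' ^ M) := by
    rw [Phi', fieldN_succ, hF, hF', hC']
  -- domination
  have hslot : slotB (spin (N + 1)) j = p • slotB (oldS N) j + q • newB N j := by
    rw [hp]; exact avg_split' hN _
  have hpin : ∀ i, Pos (pinP (spin (N + 1)) (Pm i) - p • pinP (oldS N) (Pm i)) := fun i => by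
    have : pinP (spin (N + 1)) (Pm i) =
        p • pinP (oldS N) (Pm i) + q • testM (spin (N + 1) 0) (Pm i) := by
      rw [hp]; exact avg_split' hN _
    rw [this, add_sub_cancel_left]
    exact (pos_of_good (goodM_testM (U01_spin _ _) (hPm i))).smul hq0.le
  obtain ⟨W, hW⟩ : ∃ W, W = p ^ (m + 1) • C + ((m + 1) * p ^ m * q) • D := ⟨_, rfl⟩
  have pW : Pos W := hW ▸ ((pos_of_good gC).smul (by positivity)).add
    ((pos_of_good gD).smul (by positivity))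
  have hdom : Pos (C' - W) := by
    rw [hW, hC', hslot, hC, hDc]
    exact CL_dom hM hS (goodM_slotB (U01_oldS N) j) (good_newB N j) hp0.le hq0.le
  have hlam : (a * (N + 1)) • W = l₀ • C + l₁ • D := by
    rw [hW, smul_add, smul_smul, smul_smul]
    congr 2
    rw [hl₁]
    linear_combination (a * (m + 1) * p ^ m) * hN1q
  have gX : GoodM U01 (F' * F * Pn) := (gF'.mulU gF).mulU gP
  have t1 : ∀ M : ℕ, p ^ ((j + 1) * R) * Real.exp (-((m + 1) * a * (1 - p ^ m))) *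
      (Real.exp (-(l₀ + l₁)) / (M.factorial : ℝ) * pS θ (F' * F * Pn * (l₀ • C + l₁ • D) ^ M)) ≤
      poi (a * ((N + 1 : ℕ) : ℝ)) M * pS θ (F' * F * pinsM (spin (N + 1)) Pm R j * C' ^ M) := by
    intro M
    have a1 := pinsM_cmp h0 hθ1 (U01_oldS N) (U01_spin (N + 1)) hPm hp0 hp1 hpin R j
      (F' * F * C' ^ M) ((gF'.mulU gF).mulU (gC'.powU M))
    rw [← hPn] at a1
    have a2 : pS θ (F' * F * Pn * W ^ M) ≤ pS θ (F' * F * C' ^ M * Pn) := by
      refine pS_le_of_pos ?_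
      rw [mul_right_comm _ (C' ^ M), ← mul_sub]
      exact (pos_of_good gX).mul (pos_pow_sub pW (pos_of_good gC') hdom M)
    have a3 : 0 ≤ pS θ (F' * F * Pn * W ^ M) := ((pos_of_good gX).mul (pW.pow M)).pS_nonneg
    have a4 : Real.exp (-((m + 1) * a * (1 - p ^ m))) * Real.exp (-(l₀ + l₁)) ≤
        Real.exp (-(a * (N + 1))) := by
      rw [← Real.exp_add]; exact Real.exp_le_exp.2 (by linarith)
    rw [← hlam, smul_pow, mul_smul_comm, pS_smul,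
      mul_right_comm _ (pinsM (spin (N + 1)) Pm R j), poi]
    push_cast
    calc _ = (Real.exp (-((m + 1) * a * (1 - p ^ m))) * Real.exp (-(l₀ + l₁))) *
          ((a * (N + 1)) ^ M / M.factorial) *
            (p ^ ((j + 1) * R) * pS θ (F' * F * Pn * W ^ M)) := by ring
      _ ≤ Real.exp (-(a * (N + 1))) * ((a * (N + 1)) ^ M / M.factorial) *
          pS θ (F' * F * C' ^ M * pinsM (spin (N + 1)) Pm R j) := by
          refine mul_le_mul (mul_le_mul_of_nonneg_right a4 (by positivity))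
            ((mul_le_mul_of_nonneg_left a2 (by positivity)).trans a1) (by positivity)
            (by positivity)
      _ = _ := by ring
  have t2 := hasSum_le t1 ((poi_split_pS h0 h00 h1 gX gC gD).mul_left _)
    (summable_pS h0 (by positivity) ((gF'.mulU gF).mulU gP') gC').hasSum
  rw [← eN'] at t2
  obtain ⟨η, hη⟩ : ∃ η, η = Real.exp (-(m * a * (1 - p ^ (m + 1)))) -
    2 * (1 + G) * (m + 1) ^ 2 * a * ε * Real.exp (m * a) := ⟨_, rfl⟩
  rw [← hη] at hκ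
  have hBi : ∀ i, 0 ≤ ∑' J, poi l₂ J * pS θ (pb (g0 N) (F * C ^ i * Pn * C ^ J)) ∧
      ∑' J, poi l₂ J * pS θ (pb (g0 N) (F * C ^ i * Pn * C ^ J)) ≤ pS θ (pb (g0 N) Pn) := by
    intro i
    have g1 := good_pb (g0 N) ((gF.mulU (gC.powU i)).mulU gP)
    have g2 := good_pb (g0 N) gC
    simp only [pb_mul (g0 N) (F * C ^ i * Pn), pb_pow]
    refine ⟨tsum_pS_nonneg h2 g1 g2, (tsum_pS_le h0 h2 g1 g2).trans ?_⟩
    rw [mul_comm, pb_mul]
    exact pS_mul_le h0 (good_pb _ gP) (good_pb _ (gF.mulU (gC.powU i)))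
  have t3 : η * π₀ * Phi' θ Γ H a Pm R j N ≤
      ∑' i, poi l₀ i * ∑' J, poi l₁ J * pS θ (F' * F * Pn * C ^ i * D ^ J) := by
    rw [eN, ← tsum_mul_left]
    refine Summable.tsum_le_tsum (fun i => ?_) (Summable.mul_left _ ?_) ?_
    · have b1 := per_Z' h0 hθ1 hM ha hε hπ hG0 hG hPi ((gF.mulU (gC.powU i)).mulU gP)
        ((gFP.mul (PP_mul N) (gCP.pow (PP_one N) (PP_mul N) i)).mul (PP_mul N) gPP)
        (by rw [hF, hC, hPn]; exact hD i) h1 h1' h2 h2'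
      rw [← hC, ← hDc, ← hF'] at b1
      have b2 : Real.exp (-(m * a * (1 - p ^ (m + 1)))) ≤ Real.exp (-(m * a - l₂)) :=
        Real.exp_le_exp.2 (by linarith)
      rw [mul_left_comm, show F' * F * Pn * C ^ i = F * C ^ i * Pn * F' by ring]
      refine mul_le_mul_of_nonneg_left (le_trans ?_ b1) (poi_nonneg h00 i)
      rw [mul_comm η, mul_assoc]
      exact mul_le_mul_of_nonneg_left (mul_le_mul_of_nonneg_right (by linarith) (hBi i).1) hπ
    · exact summable_poi_mul h00 fun i => by rw [abs_of_nonneg (hBi i).1]; exact (hBi i).2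
    · refine summable_poi_mul h00 (B := pS θ (F' * F * Pn)) fun i => ?_
      rw [abs_of_nonneg (tsum_pS_nonneg h1 (gX.mulU (gC.powU i)) gD)]
      exact (tsum_pS_le h0 h1 (gX.mulU (gC.powU i)) gD).trans (pS_mul_le h0 gX (gC.powU i))
  have hΦ : 0 ≤ Phi' θ Γ H a Pm R j N := tsum_pS_nonneg (by positivity)
    ((hM.goodM_fieldN N j).mulU (goodM_pinsM (U01_spin _) hPm R j))
    (hM.goodM_CL fun _ => goodM_slotB (U01_spin _) j)
  calc κ * π₀ * Phi' θ Γ H a Pm R j N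
      ≤ p ^ ((j + 1) * R) * Real.exp (-((m + 1) * a * (1 - p ^ m))) * η * π₀ *
        Phi' θ Γ H a Pm R j N :=
        mul_le_mul_of_nonneg_right (mul_le_mul_of_nonneg_right hκ hπ) hΦ
    _ ≤ _ := by
      rw [mul_assoc, mul_assoc, ← mul_assoc η]
      exact (mul_le_mul_of_nonneg_left t3 (by positivity)).trans t2

theorem Phi'_pos (h0 : 0 ≤ θ) {N : ℕ} [NeZero N] {p : ℕ} {Γ : Ms (Diluted.Inter p)}
    (hM : Model c Γ H) {a : ℝ} (ha : 0 ≤ a)
    {Pm : ∀ i, Ms (Nest (Option Bool) i)} (hPm : ∀ i, GoodM Any (Pm i)) (R : ℕ) :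
    0 < Phi' θ Γ H a Pm R j N := by
  refine lt_of_lt_of_le ?_ (le_tsum_pS h0 (by positivity)
    ((hM.goodM_fieldN N j).mulU (goodM_pinsM (U01_spin _) hPm R j))
    (hM.goodM_CL fun _ => goodM_slotB (U01_spin _) j))
  refine mul_pos (Real.exp_pos _) (pre_pos (v := sumv)
    (P := fun x : (Fin N → Bool) → ℝ => ∀ σ, 0 < x σ)
    (fun x hx => Finset.sum_pos (fun σ _ => hx σ) Finset.univ_nonempty) ?_)
  refine GoodM.mul (P := fun x : (Fin N → Bool) → ℝ => ∀ σ, 0 < x σ)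
    (Q := fun x : (Fin N → Bool) → ℝ => ∀ σ, 0 < x σ) (fun x y hx hy σ => mul_pos (hx σ) (hy σ))
    (goodM_prod (fun _ => one_pos) (fun x y hx hy σ => mul_pos (hx σ) (hy σ)) _ fun i _ =>
      ⟨hM.probH.map _, hM.suppH.map fun w hw => good_det (fun σ => hM.pos.trans_le (hw _).1) j⟩)
    (goodM_pinsM' (fun _ => one_pos) (fun x y hx hy σ => mul_pos (hx σ) (hy σ))
      (fun l o σ => ?_) hPm R j)
  linarith [(tv_mem (U01_spin N l σ) o).2]

theorem Phi'_le (h0 : 0 ≤ θ) {N : ℕ} [NeZero N] {p : ℕ} {Γ : Ms (Diluted.Inter p)}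
    (hM : Model c Γ H) {a : ℝ} (ha : 0 ≤ a)
    {Pm : ∀ i, Ms (Nest (Option Bool) i)} (hPm : ∀ i, GoodM Any (Pm i)) (R : ℕ) :
    Phi' θ Γ H a Pm R j N ≤ ann θ j a Γ H N := by
  have gP := goodM_pinsM (U01_spin N) hPm R j
  have gF := hM.goodM_fieldN N j
  have gC : GoodM U01 (CL Γ fun _ => slotB (spin N) j) :=
    hM.goodM_CL fun _ => goodM_slotB (U01_spin _) j
  have hx : 0 ≤ a * N := by positivity
  refine Summable.tsum_le_tsum (fun M => ?_) (summable_pS h0 hx (gF.mulU gP) gC)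
    (summable_pS h0 hx gF gC)
  rw [mul_right_comm]
  exact mul_le_mul_of_nonneg_left (pS_mul_le h0 (gF.mulU (gC.powU M)) gP) (poi_nonneg hx M)

theorem PiG_lower (h0 : 0 ≤ θ) (h1 : θ ≤ 1) {p : ℕ} (hp : 1 ≤ p) {Γ : Ms (Diluted.Inter p)}
    (hM : Model c Γ H) {a : ℝ} (ha : 0 ≤ a) {ξ : Ms (Nest ℝ j)} (hξ : GoodM R01 ξ) :
    Real.exp (-(a * p)) * min c 1 ≤ PiG θ a Γ H ξ := by
  have hc : 0 < min c 1 := lt_min hM.pos one_pos
  have hF : GoodM (Inc c) (Ms.map (fun w => det w j) H) :=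
    ⟨hM.probH.map _, hM.suppH.map fun _ hw => good_det hw j⟩
  have hF1 : GoodM U01 (Ms.map (fun w => det w j) H) := hF.mono fun _ => Inc.u01 hM.pos.le
  have hD1 : GoodM U01 (CL Γ (lastSlot p (dirac (det spin1 j)) (slotE Bool ξ))) :=
    hM.goodM_CL (lastSlot_prop (goodM_dirac (good_det U01_spin1 j)) hξ.slotE)
  have a1 := le_tsum_pS h0 (show 0 ≤ a * p by positivity) hF1 hD1
  have a2 : min c 1 ≤ pS θ (Ms.map (fun w => det w j) H) := by
    have := pre_mono h0 (u := fun _ => min c 1) (v := sumv) (fun _ _ => hc.le) (fun w hw => by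
      have := (hw true).1
      have := (hw false).1
      have := min_le_left c 1
      have := hM.pos
      simp only [sumv, Fintype.sum_bool]
      linarith) hF
    rw [pre_const hc.le hF] at this
    refine le_trans ?_ this
    calc min c 1 = min c 1 ^ (1 : ℝ) := (Real.rpow_one _).symm
      _ ≤ _ := Real.rpow_le_rpow_of_exponent_ge hc (min_le_right _ _) (pow_le_one₀ h0 h1)
  have a3 : 1 ≤ Real.exp (a * ((p : ℝ) - 1) * (1 - edgeW θ Γ ξ)) := by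
    have : (1 : ℝ) ≤ p := by exact_mod_cast hp
    exact Real.one_le_exp (mul_nonneg (mul_nonneg ha (by linarith))
      (by linarith [(edgeW_mem hM h0 hξ).2]))
  have a4 := (mul_le_mul_of_nonneg_left a2 (Real.exp_pos (-(a * p))).le).trans a1
  exact a4.trans (le_mul_of_one_le_right ((by positivity : (0 : ℝ) ≤ _).trans a4) a3)

end Crest.Agent.R141
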