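import Crest.Agent.R141.Defs

/-!
Row 141, task R141-Conc: Jensen and concentration for `log Z` in the finite model.

PLAN.  `K = -log c ≥ 0`.  On the support of `Zm Γ H N M` all values lie in `[c^(N+M), 1]`, so
`g M = I (Zm ..) (log ∘ sumv)` satisfies `|g M| ≤ (N+M) K + N` and `|g (M+1) - g M| ≤ K`.
Jensen: `e^{y L} ≥ e^{a} (1 + y L - a)` with `a = y N press`, sum against `poi` and `Zm` (`hasSum_poi`, `hasSum_poi_mul_nat`).
Concentration for fixed `M`: for a list (or finite product) of `n` probability measures on `S → ℝ` supported on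
`Inc c` and a positive base `x`: `I (Π ν) (z ↦ sumv (x z)^y) ≤ exp (y I (Π ν) (log sumv (x z)) + n C y²)` by induction
(`φ z = I (rest) (log sumv (x z ·))` oscillates by at most `K`; `e^u ≤ 1 + u + e^K u²` for `|u| ≤ K`).
Poisson part: `g' M = g M + C y M` is `(K+C)`-Lipschitz; by Jensen and symmetrisation
`E e^{y (g' M - E g')} ≤ E cosh (y (g' M - g' M')) ≤ E cosh (y K' (M - M')) = exp (2 λ (cosh (y K') - 1)) ≤ exp (C' λ y²)`
(`hasSum_poi_mul_pow`); any other argument is fine.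
-/

set_option autoImplicit false

namespace Crest.Agent.R141

open Crest.Agent.R153 Crest.Agent.R153.Ms Crest.Agent.R153.Nest
open Crest.ProbabilityR MeasureTheory Filter

namespace Conc

variable {S : Type}

/-- Positive functions. -/
def Pos (x : S → ℝ) : Prop := ∀ σ, 0 < x σ

theorem Pos.mul {x z : S → ℝ} (hx : Pos x) (hz : Pos z) : Pos (x * z) :=
  fun σ => mul_pos (hx σ) (hz σ)

theorem pos_one : Pos (1 : S → ℝ) := fun _ => one_pos

theorem pos_of_inc {c : ℝ} (hc : 0 < c) {z : S → ℝ} (hz : Inc c z) : Pos z :=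
  fun σ => hc.trans_le (hz σ).1

/-- Multiplication by a function with values in `[c,1]` changes `φ` by at most `K`. -/
def Osc (c K : ℝ) (φ : (S → ℝ) → ℝ) : Prop :=
  ∀ x, Pos x → ∀ z, Inc c z → |φ (x * z) - φ x| ≤ K

theorem abs_I_sub_le {M : Type} {X : Ms M} (hX : X.Prob) {P : M → Prop} (hP : X.Supp P)
    {f g : M → ℝ} {K : ℝ} (h : ∀ a, P a → |f a - g a| ≤ K) : |I X f - I X g| ≤ K := by
  rw [← I_sub_fun]
  refine (abs_I_le hX.1 _).trans ?_
  rw [← hX.I_const K]
  exact hP.I_mono hX.1 h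

theorem Osc.int {c K : ℝ} {φ : (S → ℝ) → ℝ} (h : Osc c K φ) {Y : Ms (S → ℝ)} (hY : Y.Prob)
    (hP : Y.Supp Pos) : Osc c K fun w => I Y fun b => φ (w * b) := by
  intro x hx z hz
  refine abs_I_sub_le hY hP fun b hb => ?_
  rw [mul_right_comm]
  exact h _ (hx.mul hb) z hz

theorem jensen_I {M : Type} {X : Ms M} (hX : X.Prob) (u : M → ℝ) :
    Real.exp (I X u) ≤ I X fun a => Real.exp (u a) := by
  set m := I X u with hm
  have h1 : I X (fun a => Real.exp m * (1 + (u a - m))) = Real.exp m := by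
    rw [I_const_mul, I_add_fun, I_sub_fun, hX.I_const, hX.I_const, ← hm]; ring
  rw [← h1]
  refine I_mono hX.1 fun a _ => ?_
  have h2 := Real.add_one_le_exp (u a - m)
  calc Real.exp m * (1 + (u a - m)) ≤ Real.exp m * Real.exp (u a - m) :=
        mul_le_mul_of_nonneg_left (by linarith) (Real.exp_pos _).le
    _ = Real.exp (u a) := by rw [← Real.exp_add]; congr 1; ring

theorem exp_le_chord {B v y : ℝ} (hB : 0 < B) (hv : |v| ≤ B) :
    Real.exp (y * v) ≤ (Real.exp (y * B) + Real.exp (-(y * B))) / 2 +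
      v * ((Real.exp (y * B) - Real.exp (-(y * B))) / (2 * B)) := by
  obtain ⟨h1, h2⟩ := abs_le.1 hv
  have h := convexOn_exp.2 (Set.mem_univ (y * B)) (Set.mem_univ (-(y * B)))
    (show 0 ≤ (B + v) / (2 * B) by apply div_nonneg <;> linarith)
    (show 0 ≤ (B - v) / (2 * B) by apply div_nonneg <;> linarith)
    (by field_simp; ring)
  simp only [smul_eq_mul] at h
  have e1 : (B + v) / (2 * B) * (y * B) + (B - v) / (2 * B) * -(y * B) = y * v := by
    field_simp; ring
  rw [e1] at h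
  refine h.trans (le_of_eq ?_)
  field_simp; ring

theorem hoeffding {M : Type} {X : Ms M} (hX : X.Prob) {P : M → Prop} (hP : X.Supp P)
    {u : M → ℝ} {B : ℝ} (hB : 0 < B) (h : ∀ a, P a → |u a - I X u| ≤ B) (y : ℝ) :
    I X (fun a => Real.exp (y * u a)) ≤ Real.exp (y * I X u + B ^ 2 / 2 * y ^ 2) := by
  set m := I X u with hm
  have h1 : I X (fun a => Real.exp (y * u a)) ≤ I X fun a => Real.exp (y * m) *
      ((Real.exp (y * B) + Real.exp (-(y * B))) / 2 +
        (u a - m) * ((Real.exp (y * B) - Real.exp (-(y * B))) / (2 * B))) := by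
    refine hP.I_mono hX.1 fun a ha => ?_
    have e : Real.exp (y * u a) = Real.exp (y * m) * Real.exp (y * (u a - m)) := by
      rw [← Real.exp_add]; congr 1; ring
    rw [e]
    exact mul_le_mul_of_nonneg_left (exp_le_chord hB (h a ha)) (Real.exp_pos _).le
  rw [I_const_mul, I_add_fun, I_mul_const, I_sub_fun, hX.I_const, hX.I_const, ← hm, sub_self,
    zero_mul, add_zero, ← Real.cosh_eq] at h1
  refine h1.trans ?_
  rw [Real.exp_add]
  refine mul_le_mul_of_nonneg_left ((Real.cosh_le_exp_half_sq _).trans (le_of_eq ?_))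
    (Real.exp_pos _).le
  congr 1; ring

/-- Concentration with `n` independent factors. -/
def Cn (c K : ℝ) (X : Ms (S → ℝ)) (n : ℕ) : Prop :=
  X.Prob ∧ X.Supp Pos ∧ ∀ φ : (S → ℝ) → ℝ, Osc c K φ → ∀ x, Pos x → ∀ y : ℝ,
    I X (fun z => Real.exp (y * φ (x * z))) ≤
      Real.exp (y * I X (fun z => φ (x * z)) + n * ((2 * K + 1) ^ 2 / 2 * y ^ 2))

theorem cn_one (c K : ℝ) : Cn c K (1 : Ms (S → ℝ)) 0 :=
  ⟨prob_one, supp_one pos_one, fun φ _ x _ y => by simp⟩

theorem cn_single {c K : ℝ} (hc : 0 < c) (hK : 0 ≤ K) {X : Ms (S → ℝ)} (hX : X.Prob)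
    (hP : X.Supp (Inc c)) : Cn c K X 1 := by
  refine ⟨hX, hP.mono fun _ => pos_of_inc hc, fun φ hφ x hx y => ?_⟩
  rw [Nat.cast_one, one_mul]
  refine hoeffding hX hP (by linarith) (fun a ha => ?_) y
  have h1 := hφ x hx a ha
  have h2 : |I X (fun z => φ (x * z)) - I X (fun _ => φ x)| ≤ K :=
    abs_I_sub_le hX hP fun b hb => hφ x hx b hb
  rw [hX.I_const] at h2
  rw [abs_le] at h1 h2 ⊢
  constructor <;> linarith [h1.1, h1.2, h2.1, h2.2]

theorem Cn.mul {c K : ℝ} {X Y : Ms (S → ℝ)} {n m : ℕ} (hX : Cn c K X n) (hY : Cn c K Y m) :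
    Cn c K (X * Y) (n + m) := by
  refine ⟨hX.1.mul hY.1, hX.2.1.mul hY.2.1 fun _ _ => Pos.mul, fun φ hφ x hx y => ?_⟩
  set D := (2 * K + 1) ^ 2 / 2 * y ^ 2
  have h1 := hX.2.2 _ (hφ.int hY.1 hY.2.1) x hx y
  rw [I_mul, I_mul]
  simp only [← mul_assoc]
  calc (I X fun a => I Y fun b => Real.exp (y * φ (x * a * b)))
      ≤ I X fun a => Real.exp (y * I Y (fun b => φ (x * a * b))) * Real.exp (m * D) := by
        refine hX.2.1.I_mono hX.1.1 fun a ha => ?_
        rw [← Real.exp_add]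
        exact hY.2.2 φ hφ _ (hx.mul ha) y
    _ ≤ Real.exp (y * I X (fun a => I Y fun b => φ (x * a * b)) + n * D) * Real.exp (m * D) := by
        rw [I_mul_const]
        exact mul_le_mul_of_nonneg_right h1 (Real.exp_pos _).le
    _ = _ := by
        rw [← Real.exp_add]; congr 1; push_cast; simp only [D]; ring

theorem Cn.pow {c K : ℝ} {X : Ms (S → ℝ)} (hX : Cn c K X 1) (M : ℕ) : Cn c K (X ^ M) M := by
  induction M with
  | zero => rw [pow_zero]; exact cn_one c K
  | succ M ih => rw [pow_succ]; exact ih.mul hX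

theorem cn_prod {c K : ℝ} {ι : Type} (s : Finset ι) {X : ι → Ms (S → ℝ)}
    (hX : ∀ i, Cn c K (X i) 1) : Cn c K (∏ i ∈ s, X i) s.card := by
  classical
  induction s using Finset.induction_on with
  | empty => simpa using cn_one c K
  | insert i s hi ih =>
    rw [Finset.prod_insert hi, Finset.card_insert_of_notMem hi, add_comm]
    exact (hX i).mul ih

theorem sumv_pos [Fintype S] [Nonempty S] {x : S → ℝ} (hx : Pos x) : 0 < sumv x :=
  Finset.sum_pos (fun σ _ => hx σ) Finset.univ_nonempty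

theorem osc_log [Fintype S] [Nonempty S] {c : ℝ} (hc : 0 < c) :
    Osc c |Real.log c| fun x : S → ℝ => Real.log (sumv x) := by
  intro x hx z hz
  have h0 := sumv_pos hx
  have h1 : sumv (x * z) ≤ sumv x :=
    Finset.sum_le_sum fun σ _ => mul_le_of_le_one_right (hx σ).le (hz σ).2
  have h2 : c * sumv x ≤ sumv (x * z) := by
    unfold sumv
    rw [Finset.mul_sum]
    exact Finset.sum_le_sum fun σ _ => by
      rw [mul_comm c]; exact mul_le_mul_of_nonneg_left (hz σ).1 (hx σ).le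
  have h3 := Real.log_le_log (sumv_pos (hx.mul (pos_of_inc hc hz))) h1
  have h4 := Real.log_le_log (mul_pos hc h0) h2
  rw [Real.log_mul hc.ne' h0.ne'] at h4
  rw [abs_le]
  constructor
  · linarith [neg_abs_le (Real.log c)]
  · linarith [abs_nonneg (Real.log c)]

/-! ### The Poisson part -/

theorem abs_sub_le_of_lip {h : ℕ → ℝ} {K : ℝ} (hh : ∀ M, |h (M + 1) - h M| ≤ K) (M d : ℕ) :
    |h (M + d) - h M| ≤ K * d := by
  induction d with
  | zero => simp
  | succ d ih =>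
    have h1 := hh (M + d)
    rw [← add_assoc]
    push_cast
    rw [abs_le] at *
    constructor <;> nlinarith [h1.1, h1.2, ih.1, ih.2]

theorem abs_sub_le_of_lip' {h : ℕ → ℝ} {K : ℝ} (hh : ∀ M, |h (M + 1) - h M| ≤ K) (M M' : ℕ) :
    |h M - h M'| ≤ |K * ((M : ℝ) - M')| := by
  have hK : 0 ≤ K := (abs_nonneg _).trans (hh 0)
  rcases le_total M M' with hl | hl
  · obtain ⟨d, rfl⟩ := Nat.exists_eq_add_of_le hl
    rw [abs_sub_comm]
    refine (abs_sub_le_of_lip hh M d).trans (le_of_eq ?_)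
    push_cast
    rw [show K * ((M : ℝ) - (M + d)) = -(K * d) by ring, abs_neg, abs_of_nonneg (by positivity)]
  · obtain ⟨d, rfl⟩ := Nat.exists_eq_add_of_le hl
    refine (abs_sub_le_of_lip hh M' d).trans (le_of_eq ?_)
    push_cast
    rw [show K * ((M' : ℝ) + d - M') = K * d by ring, abs_of_nonneg (by positivity)]

theorem summable_lip {l : ℝ} (hl : 0 ≤ l) {h : ℕ → ℝ} {K : ℝ}
    (hh : ∀ M, |h (M + 1) - h M| ≤ K) : Summable fun M => poi l M * h M := by
  refine Summable.of_norm_bounded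
    (((hasSum_poi l).summable.mul_right |h 0|).add
      ((hasSum_poi_mul_nat l).summable.mul_right K)) fun M => ?_
  rw [Real.norm_eq_abs, abs_mul, abs_of_nonneg (poi_nonneg hl M)]
  have h1 := abs_sub_le_of_lip hh 0 M
  rw [zero_add] at h1
  have h2 : |h M| ≤ |h 0| + M * K := by
    have := abs_sub_abs_le_abs_sub (h M) (h 0)
    linarith
  calc poi l M * |h M| ≤ poi l M * (|h 0| + M * K) :=
        mul_le_mul_of_nonneg_left h2 (poi_nonneg hl M)
    _ = _ := by ring

theorem summable_exp_lip {l : ℝ} (hl : 0 ≤ l) {h : ℕ → ℝ} {K : ℝ}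
    (hh : ∀ M, |h (M + 1) - h M| ≤ K) : Summable fun M => poi l M * Real.exp (h M) := by
  refine Summable.of_nonneg_of_le (fun M => mul_nonneg (poi_nonneg hl M) (Real.exp_pos _).le)
    (fun M => ?_) ((hasSum_poi_mul_pow l (Real.exp K)).summable.mul_right (Real.exp (h 0)))
  have h1 := abs_sub_le_of_lip hh 0 M
  rw [zero_add] at h1
  rw [mul_assoc, ← Real.exp_nat_mul, ← Real.exp_add]
  refine mul_le_mul_of_nonneg_left (Real.exp_le_exp.2 ?_) (poi_nonneg hl M)
  linarith [(abs_le.1 h1).2]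

theorem jensen_poi {l : ℝ} (hl : 0 ≤ l) {h : ℕ → ℝ} {K : ℝ}
    (hh : ∀ M, |h (M + 1) - h M| ≤ K) :
    Real.exp (∑' M, poi l M * h M) ≤ ∑' M, poi l M * Real.exp (h M) := by
  set m := ∑' M, poi l M * h M with hm
  have h1 : HasSum (fun M => Real.exp m * (poi l M * (1 - m) + poi l M * h M))
      (Real.exp m * (1 * (1 - m) + m)) :=
    (((hasSum_poi l).mul_right (1 - m)).add (summable_lip hl hh).hasSum).mul_left _
  have h2 := hasSum_le (fun M => ?_) h1 (summable_exp_lip hl hh).hasSum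
  · simpa using h2
  · have h2 := Real.add_one_le_exp (h M - m)
    calc Real.exp m * (poi l M * (1 - m) + poi l M * h M)
        = poi l M * (Real.exp m * (h M - m + 1)) := by ring
      _ ≤ poi l M * (Real.exp m * Real.exp (h M - m)) :=
          mul_le_mul_of_nonneg_left (mul_le_mul_of_nonneg_left h2 (Real.exp_pos _).le)
            (poi_nonneg hl M)
      _ = _ := by rw [← Real.exp_add]; congr 2; ring

theorem conc_poi {l : ℝ} (hl : 0 ≤ l) {h : ℕ → ℝ} {t : ℝ}
    (hh : ∀ M, |h (M + 1) - h M| ≤ t) :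
    ∑' M, poi l M * Real.exp (h M) ≤
      Real.exp (∑' M, poi l M * h M + l * (t ^ 2 * Real.exp (t ^ 2 / 2))) := by
  have hh' : ∀ M, |(-h (M + 1)) - (-h M)| ≤ t := fun M => by
    rw [show -h (M + 1) - -h M = -(h (M + 1) - h M) by ring, abs_neg]; exact hh M
  have ha := (summable_exp_lip hl hh).hasSum
  have hb := (summable_exp_lip (h := fun M => -h M) hl hh').hasSum
  have hj := jensen_poi (h := fun M => -h M) hl hh'
  set a := ∑' M, poi l M * Real.exp (h M)
  set b := ∑' M, poi l M * Real.exp (-h M)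
  have ha' := hasSum_poi_mul_pow l (Real.exp t)
  have hb' := hasSum_poi_mul_pow l (Real.exp (-t))
  set a' := Real.exp (-l * (1 - Real.exp t)) with ha'def
  set b' := Real.exp (-l * (1 - Real.exp (-t))) with hb'def
  have key : ∀ M M' : ℕ, Real.exp (h M) * Real.exp (-h M') + Real.exp (-h M) * Real.exp (h M') ≤
      Real.exp t ^ M * Real.exp (-t) ^ M' + Real.exp (-t) ^ M * Real.exp t ^ M' := by
    intro M M'
    have h1 : Real.cosh (h M - h M') ≤ Real.cosh (t * ((M : ℝ) - M')) :=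
      Real.cosh_le_cosh.2 (abs_sub_le_of_lip' hh M M')
    rw [Real.cosh_eq, Real.cosh_eq] at h1
    simp only [← Real.exp_nat_mul, ← Real.exp_add]
    rw [show h M + -h M' = h M - h M' by ring, show -h M + h M' = -(h M - h M') by ring,
      show (M : ℝ) * t + M' * -t = t * ((M : ℝ) - M') by ring,
      show (M : ℝ) * -t + M' * t = -(t * ((M : ℝ) - M')) by ring]
    linarith
  have k1 : ∀ M : ℕ, Real.exp (h M) * b + Real.exp (-h M) * a ≤
      Real.exp t ^ M * b' + Real.exp (-t) ^ M * a' := by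
    intro M
    refine hasSum_le (fun M' => ?_) ((hb.mul_left _).add (ha.mul_left _))
      ((hb'.mul_left _).add (ha'.mul_left _))
    have := mul_le_mul_of_nonneg_left (key M M') (poi_nonneg hl M')
    linarith
  have k2 : a * b + b * a ≤ a' * b' + b' * a' := by
    refine hasSum_le (fun M => ?_) ((ha.mul_right _).add (hb.mul_right _))
      ((ha'.mul_right _).add (hb'.mul_right _))
    have := mul_le_mul_of_nonneg_left (k1 M) (poi_nonneg hl M)
    linarith
  have k3 : a' * b' ≤ Real.exp (l * (t ^ 2 * Real.exp (t ^ 2 / 2))) := by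
    rw [ha'def, hb'def, ← Real.exp_add]
    refine Real.exp_le_exp.2 ?_
    have h1 := Real.cosh_le_exp_half_sq t
    rw [Real.cosh_eq] at h1
    have h2 : Real.exp (t ^ 2 / 2) - 1 ≤ t ^ 2 / 2 * Real.exp (t ^ 2 / 2) := by
      have h3 := Real.add_one_le_exp (-(t ^ 2 / 2))
      have h4 : Real.exp (-(t ^ 2 / 2)) * Real.exp (t ^ 2 / 2) = 1 := by
        rw [← Real.exp_add]; simp
      nlinarith [Real.exp_pos (t ^ 2 / 2)]
    have h5 : Real.exp t + Real.exp (-t) - 2 ≤ t ^ 2 * Real.exp (t ^ 2 / 2) := by linarith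
    nlinarith
  have hm : ∑' M, poi l M * -h M = -∑' M, poi l M * h M := by
    rw [← tsum_neg]; congr 1; ext M; ring
  rw [hm] at hj
  set m := ∑' M, poi l M * h M
  have ha0 : 0 ≤ a := tsum_nonneg fun M => mul_nonneg (poi_nonneg hl M) (Real.exp_pos _).le
  have k4 : a * Real.exp (-m) ≤ Real.exp (l * (t ^ 2 * Real.exp (t ^ 2 / 2))) := by
    have := mul_le_mul_of_nonneg_left hj ha0
    nlinarith
  calc a = a * Real.exp (-m) * Real.exp m := by rw [mul_assoc, ← Real.exp_add]; simp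
    _ ≤ Real.exp (l * (t ^ 2 * Real.exp (t ^ 2 / 2))) * Real.exp m :=
        mul_le_mul_of_nonneg_right k4 (Real.exp_pos _).le
    _ = _ := by rw [← Real.exp_add, add_comm]

/-! ### The model -/

section model
variable {p : ℕ} {c : ℝ} {Γ : Ms (Diluted.Inter p)} {H : Ms (Bool → ℝ)}

/-- The law of one factor. -/
noncomputable def nu (Γ : Ms (Diluted.Inter p)) (N : ℕ) : Ms ((Fin N → Bool) → ℝ) :=
  Ms.bind Γ fun g => avg fun idx : Fin p → Fin N =>
    dirac fun σ : Fin N → Bool => g fun ℓ => σ (idx ℓ)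

theorem prob_nu (hM : Model c Γ H) {N : ℕ} (hN : 1 ≤ N) : (nu Γ N).Prob := by
  have : Nonempty (Fin N) := ⟨⟨0, hN⟩⟩
  exact hM.probΓ.bind fun _ _ => prob_avg fun _ => prob_dirac _

theorem supp_nu (hM : Model c Γ H) (N : ℕ) : (nu Γ N).Supp (Inc c) :=
  hM.suppΓ.bind fun _ hg => supp_avg fun _ => supp_dirac fun _ => hg _

theorem cn_field (hM : Model c Γ H) {N : ℕ} (i : Fin N) :
    Cn c |Real.log c| (Ms.map (fun (w : Bool → ℝ) (σ : Fin N → Bool) => w (σ i)) H) 1 := by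
  have h1 : (Ms.map (fun (w : Bool → ℝ) (σ : Fin N → Bool) => w (σ i)) H).Supp (Inc c) :=
    Supp.map hM.suppH fun w hw σ => hw (σ i)
  exact cn_single hM.pos (abs_nonneg _) (hM.probH.map _) h1

theorem cn_Zm (hM : Model c Γ H) {N : ℕ} (hN : 1 ≤ N) (M : ℕ) :
    Cn c |Real.log c| (Zm Γ H N M) (N + M) := by
  have h1 := cn_prod (Finset.univ : Finset (Fin N)) fun i => cn_field hM i
  rw [Finset.card_univ, Fintype.card_fin] at h1
  exact h1.mul ((cn_single hM.pos (abs_nonneg _) (prob_nu hM hN) (supp_nu hM N)).pow M)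

/-- The mean of `log Z` with `M` factors. -/
noncomputable def gM (Γ : Ms (Diluted.Inter p)) (H : Ms (Bool → ℝ)) (N M : ℕ) : ℝ :=
  I (Zm Γ H N M) fun x => Real.log (sumv x)

theorem gM_lip (hM : Model c Γ H) {N : ℕ} (hN : 1 ≤ N) (M : ℕ) :
    |gM Γ H N (M + 1) - gM Γ H N M| ≤ |Real.log c| := by
  have e : Zm Γ H N (M + 1) = Zm Γ H N M * nu Γ N := by
    unfold Zm nu; rw [pow_succ, mul_assoc]
  unfold gM
  rw [e, I_mul]
  refine abs_I_sub_le (cn_Zm hM hN M).1 (cn_Zm hM hN M).2.1 fun a ha => ?_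
  rw [← (prob_nu hM hN).I_const (Real.log (sumv a))]
  exact abs_I_sub_le (prob_nu hM hN) (supp_nu hM N) fun b hb => osc_log hM.pos a ha b hb

theorem I_rpow (hM : Model c Γ H) {N : ℕ} (hN : 1 ≤ N) (M : ℕ) (y : ℝ) :
    I (Zm Γ H N M) (fun x => sumv x ^ y) =
      I (Zm Γ H N M) fun x => Real.exp (y * Real.log (sumv x)) :=
  (cn_Zm hM hN M).2.1.I_congr fun x hx => by
    rw [Real.rpow_def_of_pos (sumv_pos hx), mul_comm]

theorem lower (hM : Model c Γ H) {N : ℕ} (hN : 1 ≤ N) (M : ℕ) (y : ℝ) :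
    Real.exp (y * gM Γ H N M) ≤ I (Zm Γ H N M) fun x => sumv x ^ y := by
  rw [I_rpow hM hN, gM, ← I_const_mul]
  exact jensen_I (cn_Zm hM hN M).1 _

theorem upper (hM : Model c Γ H) {N : ℕ} (hN : 1 ≤ N) (M : ℕ) (y : ℝ) :
    I (Zm Γ H N M) (fun x => sumv x ^ y) ≤
      Real.exp (y * gM Γ H N M + M * ((2 * |Real.log c| + 1) ^ 2 / 2 * y ^ 2)) *
        Real.exp (N * ((2 * |Real.log c| + 1) ^ 2 / 2 * y ^ 2)) := by
  have h := (cn_Zm hM hN M).2.2 _ (osc_log hM.pos) 1 pos_one y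
  simp only [one_mul] at h
  rw [I_rpow hM hN, ← Real.exp_add]
  refine h.trans (le_of_eq ?_)
  congr 1
  unfold gM
  push_cast
  ring

theorem lip_h (hM : Model c Γ H) {N : ℕ} (hN : 1 ≤ N) {y D : ℝ} (hy : 0 ≤ y) (hD : 0 ≤ D)
    (M : ℕ) : |(y * gM Γ H N (M + 1) + ((M + 1 : ℕ) : ℝ) * D) - (y * gM Γ H N M + M * D)| ≤
      y * |Real.log c| + D := by
  have h := abs_le.1 (gM_lip hM hN M)
  have h1 := mul_le_mul_of_nonneg_left h.1 hy
  have h2 := mul_le_mul_of_nonneg_left h.2 hy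
  push_cast
  rw [abs_le]
  constructor <;> nlinarith

theorem summable_mom (hM : Model c Γ H) {l : ℝ} (hl : 0 ≤ l) {N : ℕ} (hN : 1 ≤ N) {y : ℝ}
    (hy : 0 ≤ y) : Summable fun M => poi l M * I (Zm Γ H N M) fun x => sumv x ^ y := by
  refine Summable.of_nonneg_of_le (fun M => mul_nonneg (poi_nonneg hl M)
    ((Real.exp_pos _).le.trans (lower hM hN M y))) (fun M => ?_)
    ((summable_exp_lip (h := fun M => y * gM Γ H N M +
      M * ((2 * |Real.log c| + 1) ^ 2 / 2 * y ^ 2)) hl (lip_h hM hN hy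
      (D := (2 * |Real.log c| + 1) ^ 2 / 2 * y ^ 2) (by positivity))).mul_right
      (Real.exp (N * ((2 * |Real.log c| + 1) ^ 2 / 2 * y ^ 2))))
  rw [mul_assoc]
  exact mul_le_mul_of_nonneg_left (upper hM hN M y) (poi_nonneg hl M)

theorem press_eq {α : ℝ} {N : ℕ} (hN : 1 ≤ N) (y : ℝ) :
    y * N * press α Γ H N = ∑' M, poi (α * N) M * (y * gM Γ H N M) := by
  have hN' : (N : ℝ) ≠ 0 := by positivity
  have e : ∑' M, poi (α * N) M * (y * gM Γ H N M) = y * ∑' M, poi (α * N) M * gM Γ H N M := by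
    rw [← tsum_mul_left]; congr 1; ext M; ring
  rw [e, press]
  unfold gM
  field_simp

end model

end Conc

open Conc

theorem press_le_mom {p : ℕ} {c α : ℝ} {Γ : Ms (Diluted.Inter p)} {H : Ms (Bool → ℝ)}
    (hM : Model c Γ H) (hα : 0 ≤ α) {y : ℝ} (hy : 0 < y) (N : ℕ) (hN : 1 ≤ N) :
    Real.exp (y * N * press α Γ H N) ≤ mom y α Γ H N := by
  have hl : 0 ≤ α * N := by positivity
  have hlip := lip_h hM hN hy.le (le_refl 0)
  simp only [mul_zero, add_zero] at hlip
  rw [press_eq hN]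
  refine (jensen_poi (h := fun M => y * gM Γ H N M) hl hlip).trans ?_
  exact (summable_exp_lip (h := fun M => y * gM Γ H N M) hl hlip).tsum_le_tsum
    (fun M => mul_le_mul_of_nonneg_left (lower hM hN M y) (poi_nonneg hl M))
    (summable_mom hM hl hN hy.le)

theorem mom_le_press {p : ℕ} {c α : ℝ} {Γ : Ms (Diluted.Inter p)} {H : Ms (Bool → ℝ)}
    (hM : Model c Γ H) (hα : 0 ≤ α) : ∃ C : ℝ, 0 ≤ C ∧ ∀ y : ℝ, 0 < y → y ≤ 1 → ∀ N : ℕ, 1 ≤ N →
      mom y α Γ H N ≤ Real.exp (y * N * press α Γ H N + C * y ^ 2 * N) := by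
  set K := |Real.log c| with hK
  have hK0 : 0 ≤ K := abs_nonneg _
  set D := (2 * K + 1) ^ 2 / 2 with hD
  have hD0 : 0 ≤ D := by positivity
  refine ⟨D + α * D + α * ((K + D) ^ 2 * Real.exp ((K + D) ^ 2 / 2)), by positivity,
    fun y hy hy1 N hN => ?_⟩
  have hl : 0 ≤ α * N := by positivity
  have hlip := lip_h hM hN hy.le (D := D * y ^ 2) (by positivity)
  have hlip0 := lip_h hM hN hy.le (le_refl 0)
  simp only [mul_zero, add_zero] at hlip0
  have h1 : mom y α Γ H N ≤ (∑' M : ℕ, poi (α * N) M *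
      Real.exp (y * gM Γ H N M + M * (D * y ^ 2))) * Real.exp (N * (D * y ^ 2)) := by
    rw [← tsum_mul_right]
    refine (summable_mom hM hl hN hy.le).tsum_le_tsum (fun M => ?_)
      ((summable_exp_lip (h := fun M => y * gM Γ H N M + M * (D * y ^ 2)) hl hlip).mul_right _)
    rw [mul_assoc]
    exact mul_le_mul_of_nonneg_left (upper hM hN M y) (poi_nonneg hl M)
  have h2 := conc_poi (h := fun M => y * gM Γ H N M + M * (D * y ^ 2)) hl hlip
  have h3 : ∑' M : ℕ, poi (α * N) M * (y * gM Γ H N M + M * (D * y ^ 2)) =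
      y * N * press α Γ H N + α * N * (D * y ^ 2) := by
    rw [press_eq hN]
    have := ((summable_lip (h := fun M => y * gM Γ H N M) hl hlip0).hasSum.add
      ((hasSum_poi_mul_nat (α * N)).mul_right (D * y ^ 2))).tsum_eq
    rw [← this]; congr 1; ext M; ring
  rw [h3] at h2
  refine h1.trans ((mul_le_mul_of_nonneg_right h2 (Real.exp_pos _).le).trans ?_)
  rw [← Real.exp_add]
  refine Real.exp_le_exp.2 ?_
  have ht0 : 0 ≤ y * K + D * y ^ 2 := by positivity
  have ht1 : y * K + D * y ^ 2 ≤ y * (K + D) := by nlinarith [mul_nonneg hD0 hy.le]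
  have ht2 : y * (K + D) ≤ K + D := by nlinarith
  have hs1 : (y * K + D * y ^ 2) ^ 2 ≤ (y * (K + D)) ^ 2 := pow_le_pow_left₀ ht0 ht1 2
  have hs2 : (y * K + D * y ^ 2) ^ 2 ≤ (K + D) ^ 2 := pow_le_pow_left₀ ht0 (ht1.trans ht2) 2
  have hs3 : (y * K + D * y ^ 2) ^ 2 * Real.exp ((y * K + D * y ^ 2) ^ 2 / 2) ≤
      (y * (K + D)) ^ 2 * Real.exp ((K + D) ^ 2 / 2) :=
    mul_le_mul hs1 (Real.exp_le_exp.2 (by linarith)) (Real.exp_pos _).le (by positivity)
  have hs4 := mul_le_mul_of_nonneg_left hs3 hl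
  nlinarith

end Crest.Agent.R141
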