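import Crest.Agent.R141.Defs
import Crest.Agent.R153.D

/-!
Row 141: signed versions of the replica representation of row 153.  The truncated expansion `G1P`
only depends on the sums of the two components of the leaves, also after restriction to trees of
given size.
-/

set_option autoImplicit false

namespace Crest.Agent.R141

open Crest.Agent.R153 Crest.Agent.R153.Ms Crest.Agent.R153.Nest
open Crest.ProbabilityR MeasureTheory Filter

variable {S L : Type} {j : ℕ} {θ : ℝ}

theorem ext_pow {X Y : Ms ℕ} (h : ∀ z : ℝ, I X (fun n => z ^ n) = I Y fun n => z ^ n) : X = Y := by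
  classical
  have key : ∀ Z : Ms ℕ, (∀ z : ℝ, I Z (fun n => z ^ n) = 0) → Z = 0 := by
    intro Z hZ
    have h1 : (∑ n ∈ Z.coeff.support, Polynomial.monomial n (Z.coeff n)) = (0 : Polynomial ℝ) := by
      refine Polynomial.funext fun z => ?_
      rw [Polynomial.eval_finsetSum]
      simpa [I_eq_sum] using hZ z
    refine MonoidAlgebra.coeff_injective (Finsupp.ext fun n => ?_)
    have h2 := congrArg (fun q => Polynomial.coeff q n) h1
    simp only [Polynomial.finsetSum_coeff, Polynomial.coeff_monomial, Finset.sum_ite_eq',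
      Polynomial.coeff_zero] at h2
    by_cases hn : n ∈ Z.coeff.support
    · simpa [hn] using h2
    · simpa using hn
  exact sub_eq_zero.1 (key _ fun z => by rw [I_sub, h, sub_self])

section
variable [Fintype S]

theorem supp_mu_of {P : ∀ j, Ch S j → Prop} (h0 : ∀ b σ, P 0 (evCh b σ)) (h1 : ∀ j, P (j + 1) 1)
    (hmul : ∀ j χ χ', P (j + 1) χ → P (j + 1) χ' → P (j + 1) (χ * χ'))
    (hl : ∀ j χ, P j χ → P (j + 1) (liftCh χ)) :
    ∀ {j : ℕ} (t : Tr j) (X : Nest (S → ℝ) j), (mu θ t X).Supp (P j)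
  | 0, _, _ => supp_sum fun _ _ => (supp_dirac (h0 _ _)).smul _
  | j + 1, t, X => by
    rw [mu_succ]
    induction t.kids with
    | nil => exact supp_one (h1 j)
    | cons u ts ih =>
      simp only [List.map_cons, List.prod_cons]
      exact (((supp_true _).bind fun c _ => supp_mu_of h0 h1 hmul hl u c).map (hl j)).mul ih
        (hmul j)

/-- Leaves of absolute value at most one. -/
def NA (w : Bool → S → ℝ) : Prop := ∀ b σ, |w b σ| ≤ 1

theorem supp_muP_abs (t : Tr j) (X : Ms (Nest (S → ℝ) j)) :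
    (muP θ t X).Supp fun χ => ∀ c, Good NA c → |χ c| ≤ 1 := by
  refine (supp_true _).bind fun c _ => supp_mu_of
    (P := fun j χ => ∀ c : Nest (Bool → S → ℝ) j, Good NA c → |χ c| ≤ 1) (fun b σ c hc => hc b σ)
    (fun j c _ => by simp) (fun j χ χ' h h' c hc => ?_) (fun j χ h c hc => ?_) t c
  · rw [MonoidHom.mul_apply, abs_mul]
    exact mul_le_one₀ (h c hc) (abs_nonneg _) (h' c hc)
  · exact abs_I_le_const hc.1 fun d hd => h d (hc.2 d hd)

theorem supp_muP_pow (t : Tr j) (X : Ms (Nest (S → ℝ) j)) :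
    (muP θ t X).Supp fun χ => ∃ n : ℕ, ∀ z : ℝ, χ (det (labf fun _ => z) j) = z ^ n := by
  refine (supp_true _).bind fun c _ => supp_mu_of
    (P := fun j χ => ∃ n : ℕ, ∀ z : ℝ, χ (det (labf fun _ => z) j) = z ^ n) (fun b σ => ?_)
    (fun j => ⟨0, fun z => by simp⟩) ?_ ?_ t c
  · cases b
    · exact ⟨0, fun z => by simp [labf, lab]⟩
    · exact ⟨1, fun z => by simp [labf, lab]⟩
  · rintro j χ χ' ⟨n, h⟩ ⟨n', h'⟩
    exact ⟨n + n', fun z => by rw [MonoidHom.mul_apply, h, h', pow_add]⟩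
  · rintro j χ ⟨n, h⟩
    exact ⟨n, fun z => by simp [h]⟩

theorem supp_muP_cont {T B : Type} [TopologicalSpace T] (t : Tr j) (X : Ms (Nest (S → ℝ) j)) :
    (muP θ t X).Supp fun χ => ∀ F : T → B → Bool → S → ℝ, (∀ x b σ, Continuous fun f => F f x b σ) →
      ∀ c, Continuous fun f => χ (Nest.map (F f) c) := by
  refine (supp_true _).bind fun c _ => supp_mu_of
    (P := fun j χ => ∀ F : T → B → Bool → S → ℝ, (∀ x b σ, Continuous fun f => F f x b σ) →
      ∀ c, Continuous fun f => χ (Nest.map (F f) c)) (fun b σ F hF c => hF _ b σ)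
    (fun j F _ c => continuous_const) (fun j χ χ' h h' F hF c => (h F hF c).mul (h' F hF c))
    (fun j χ h F hF c => ?_) t c
  simp only [liftCh_apply, dn_map, I_mapM]
  simp only [I_eq_sum]
  exact continuous_finsetSum _ fun d _ => continuous_const.mul (h F hF d)

theorem G1_congr {B : Type} {f f' : B → Bool → S → ℝ}
    (h : ∀ a σ, f a true σ + f a false σ = f' a true σ + f' a false σ) (Q' : ℕ) :
    ∀ {j : ℕ} (X : Nest (S → ℝ) j) (V : Nest B j),
      G1 θ Q' X (Nest.map f V) = G1 θ Q' X (Nest.map f' V)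
  | 0, x, v => by
    simp only [G1, I_treeP_zero, I_mu_zero, evCh_apply, Tr.lbl_tip, unleaf_map,
      ← Finset.sum_add_distrib, ← mul_add, h]
  | j + 1, X, V => by
    simp only [G1_succ, G1P_eq, dn_map, I_mapM, G1_congr h Q' (j := j)]

theorem G1P_congr {B : Type} {f f' : B → Bool → S → ℝ}
    (h : ∀ a σ, f a true σ + f a false σ = f' a true σ + f' a false σ) (Q' : ℕ)
    (X : Ms (Nest (S → ℝ) j)) (V : Ms (Nest B j)) :
    G1P θ Q' X (mapM f V) = G1P θ Q' X (mapM f' V) := by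
  simp only [G1P_eq, I_mapM, G1_congr h]

theorem G1P_scal (Q' : ℕ) (X : Ms (Nest (S → ℝ) j)) (U : Ms (Nest (Bool → S → ℝ) j)) (z : ℝ) :
    G1P θ Q' X (mapM (fun w => w * scal z) U) =
      I (treeP θ Q' j) fun t => z ^ t.size * I (muP θ t X) fun χ => I U χ := by
  rw [← mul_dirac_det, G1P]
  congr 1
  funext t
  rw [← I_const_mul]
  refine (supp_muP t X).I_congr fun χ hχ => ?_
  simp only [I_mul_hom _ _ _ χ.map_mul, I_dirac, hχ.det_scal]
  ring

theorem size_congr {B : Type} {f f' : B → Bool → S → ℝ}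
    (h : ∀ a σ, f a true σ + f a false σ = f' a true σ + f' a false σ) (Q' : ℕ)
    (X : Ms (Nest (S → ℝ) j)) (V : Ms (Nest B j)) (g : ℕ → ℝ) :
    (I (treeP θ Q' j) fun t => g t.size * I (muP θ t X) fun χ => I (mapM f V) χ) =
      I (treeP θ Q' j) fun t => g t.size * I (muP θ t X) fun χ => I (mapM f' V) χ := by
  have e : ∀ (U : Ms (Nest (Bool → S → ℝ) j)) (g : ℕ → ℝ),
      (I (treeP θ Q' j) fun t => g t.size * I (muP θ t X) fun χ => I U χ) =
        I (Ms.bind (treeP θ Q' j) fun t => (I (muP θ t X) fun χ => I U χ) • dirac t.size) g := by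
    intro U g
    simp only [I_bind, I_smul, I_dirac, mul_comm]
  rw [e, e]
  congr 1
  refine ext_pow fun z => ?_
  rw [← e, ← e, ← G1P_scal, ← G1P_scal, mapM_mapM, mapM_mapM]
  refine G1P_congr (fun a σ => ?_) Q' X V
  simp only [Pi.mul_apply, scal, ← add_mul, h]

/-- Symmetrisation of a labelled leaf. -/
noncomputable def symL (w : Bool → S → ℝ) : Bool → S → ℝ := fun _ σ => (w true σ + w false σ) / 2

omit [Fintype S] in
theorem PW_symL {w : Bool → S → ℝ} (h : U01 (cl w)) : PW 2 (symL w) := by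
  refine ⟨fun b σ => ?_, fun σ => ?_⟩
  · have := (h σ).2
    simp only [cl, symL] at this ⊢
    linarith
  · have := (h σ).1
    simp only [cl, symL] at this ⊢
    linarith

omit [Fintype S] in
theorem cl_symL (w : Bool → S → ℝ) : cl (symL w) = cl w := by
  funext σ
  simp [cl, symL]

theorem G1P_symL (Q' : ℕ) (X : Ms (Nest (S → ℝ) j)) (U : Ms (Nest (Bool → S → ℝ) j)) :
    G1P θ Q' X (mapM symL U) = G1P θ Q' X U := by
  conv_rhs => rw [← mapM_id U]
  exact G1P_congr (fun a σ => by simp [symL]) Q' X U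

theorem size_symL (Q' : ℕ) (X : Ms (Nest (S → ℝ) j)) (U : Ms (Nest (Bool → S → ℝ) j))
    (g : ℕ → ℝ) :
    (I (treeP θ Q' j) fun t => g t.size * I (muP θ t X) fun χ => I (mapM symL U) χ) =
      I (treeP θ Q' j) fun t => g t.size * I (muP θ t X) fun χ => I U χ := by
  conv_rhs => rw [← mapM_id U]
  exact size_congr (fun a σ => by simp [symL]) Q' X U g

theorem repS (h0 : 0 < θ) (h1 : θ ≤ 1) (Q' : ℕ)
    {X : Ms (Nest (S → ℝ) j)} {W : Ms (Nest (Bool → S → ℝ) j)} (hX : GoodM U01 X)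
    (hp : 0 < pS θ X) (hW : GoodM (fun w => U01 (cl w)) W) :
    G1P θ Q' X W ≤ GP θ X (mapM cl W) ∧ GP θ X (mapM cl W) ≤ G1P θ Q' X W + errR θ Q' j := by
  have h := (repP h0 h1 Q' hX hp (hW.mapM (f := symL) fun _ => PW_symL)).2
  rw [G1P_symL, mapM_mapM] at h
  simpa only [cl_symL] using h

/-- Large trees contribute little (signed version). -/
theorem tail_signed (h0 : 0 < θ) (h1 : θ ≤ 1) (Q' : ℕ) {δ : ℝ} (hδ0 : 0 ≤ δ) (hδ1 : δ ≤ 1)
    {q₀ : ℕ} (hq : (1 - δ) ^ q₀ ≤ 1 / 2)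
    {Y : Ms (Nest (S → ℝ) j)} (hY : GoodM U01 Y) (hp : 0 < pS θ Y)
    {U : Ms (Nest (Bool → S → ℝ) j)} (hU : GoodM (fun w => U01 (cl w)) U) :
    |I (treeP θ Q' j) fun t => (if t.size ≤ q₀ then 0 else 1) * I (muP θ t Y) fun χ => I U χ|
      ≤ 2 * (δ ^ (θ ^ j) + errR θ Q' j) := by
  have hU' : GoodM (PW 2) (mapM symL U) := hU.mapM fun _ => PW_symL
  rw [← size_symL Q' Y U fun n => if n ≤ q₀ then 0 else 1]
  have hNN := NN_treeP h0.le h1 Q' j
  have hH : ∀ t : Tr j, 0 ≤ I (muP θ t Y) fun χ => I (mapM symL U) χ := fun t =>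
    (supp_muP t Y).I_nonneg (prob_muP h0 t hY hp).1 fun χ hχ =>
      hU'.2.I_nonneg hU'.1.1 fun d hd => hχ.nonneg d (hd.mono fun _ h => h.1)
  rw [abs_of_nonneg (I_nonneg hNN fun t _ => mul_nonneg (by split_ifs <;> norm_num) (hH t))]
  refine le_trans ?_ (mul_le_mul_of_nonneg_left (tail_le h0 h1 Q' hδ0 hδ1 hY hp hU') zero_le_two)
  rw [← I_const_mul]
  refine I_mono hNN fun t _ => ?_
  rw [← mul_assoc]
  refine mul_le_mul_of_nonneg_right ?_ (hH t)
  split_ifs with hs
  · have : (1 - δ) ^ t.size ≤ 1 := pow_le_one₀ (by linarith) (by linarith)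
    linarith
  · have : (1 - δ) ^ t.size ≤ (1 - δ) ^ q₀ :=
      pow_le_pow_of_le_one (by linarith) (by linarith) (by omega)
    linarith

end

/-- `labf` as a homomorphism. -/
def labHom (S : Type) : (S → ℝ) →* (Bool → S → ℝ) where
  toFun := labf
  map_one' := by funext b σ; cases b <;> simp [labf, lab]
  map_mul' := labf_mul

end Crest.Agent.R141
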