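import Crest.Agent.R141.Dec_A

/-!
Row 141: small multi-overlap covariances imply decoupling of a random slot in an affine factor.
-/

set_option autoImplicit false

namespace Crest.Agent.R141

open Crest.Agent.R153 Crest.Agent.R153.Ms Crest.Agent.R153.Nest
open Crest.ProbabilityR MeasureTheory Filter

variable {S L : Type} {j : ℕ} {θ : ℝ}

/-- The signed labelled leaf of an affine factor. -/
def wa (u : Bool → S → ℝ) : Bool → S → ℝ :=
  fun b σ => if b then u false σ - u true σ else 1 - u false σ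

theorem NA_wa {u : Bool → S → ℝ} (h : N01 u) : NA (wa u) := fun b σ => by
  have h1 := h true σ
  have h2 := h false σ
  cases b <;> simp only [wa, if_true, Bool.false_eq_true, if_false, abs_le] <;> constructor <;>
    linarith [h1.1, h1.2, h2.1, h2.2]

theorem cl_wa (u : Bool → S → ℝ) (x : S → ℝ) :
    cl (wa u * scal 2 * labf x) = fun σ => u false σ * (1 - x σ) + u true σ * x σ := by
  funext σ
  simp only [cl, wa, scal, labf, lab, Pi.mul_apply, if_true, Bool.false_eq_true, if_false]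
  ring

theorem U_eq (W : Ms (Nest (Bool → S → ℝ) j)) (T : Ms (Nest (S → ℝ) j)) :
    mapM wa W * dirac (det (scal 2) j) * mapM labf T =
      map2M (fun u x => wa u * scal 2 * labf x) W T := by
  rw [mul_dirac_det, mapM_mapM, mul_eq_map2M, map2M_mapM_left, map2M_mapM_right]

theorem comb_eq_cl (W : Ms (Nest (Bool → S → ℝ) j)) (T : Ms (Nest (S → ℝ) j)) :
    comb W T = mapM cl (mapM wa W * dirac (det (scal 2) j) * mapM labf T) := by
  rw [U_eq, mapM_map2M]
  simp only [cl_wa, comb]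

theorem U01_comb_leaf {u : Bool → S → ℝ} {x : S → ℝ} (hu : N01 u) (hx : U01 x) :
    U01 fun σ => u false σ * (1 - x σ) + u true σ * x σ := fun σ => by
  have h1 := hu true σ
  have h2 := hu false σ
  have h3 := hx σ
  constructor <;> nlinarith [h1.1, h1.2, h2.1, h2.2, h3.1, h3.2]

theorem goodM_comb {W : Ms (Nest (Bool → S → ℝ) j)} {T : Ms (Nest (S → ℝ) j)} (hW : GoodM N01 W)
    (hT : GoodM U01 T) : GoodM U01 (comb W T) :=
  GoodM.map2M (fun _ _ hu hx => U01_comb_leaf hu hx) hW hT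

theorem goodM_Ua {W : Ms (Nest (Bool → S → ℝ) j)} {T : Ms (Nest (S → ℝ) j)} (hW : GoodM N01 W)
    (hT : GoodM U01 T) :
    GoodM (fun w => U01 (cl w)) (mapM wa W * dirac (det (scal 2) j) * mapM labf T) := by
  rw [U_eq]
  exact GoodM.map2M (fun u x hu hx => by rw [cl_wa]; exact U01_comb_leaf hu hx) hW hT

/-- The covariance estimate for one tree, signed context. -/
theorem tree_cov' [Fintype S] [Fintype L] [Nonempty L] (h0 : 0 < θ) (β : L → S → ℝ)
    {Y : Ms (Nest (S → ℝ) j)} (hY : GoodM U01 Y)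
    (hp : 0 < pS θ Y) {W : Ms (Nest (Bool → S → ℝ) j)} (hW : GoodM NA W) (t : Tr j) :
    |(I (muP θ t Y) fun χ => I (W * dirac (det (scal 2) j) * mapM labf (slotB β j)) χ) -
      I (muP θ t Y) fun χ =>
        I (W * dirac (det (scal 2) j) * mapM labf (slotE S (xiOf θ β Y))) χ|
      ≤ 2 ^ t.size * Real.sqrt (hs (CP θ t Y β)) := by
  have hμ := prob_muP h0 t hY hp
  have hS := supp_muP (θ := θ) t Y
  have hc : (0 : ℝ) < Fintype.card L := by positivity
  set m : ℝ := (∑ l, mmP θ t Y (β l)) / Fintype.card L with hm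
  set R : Ch S j → ℝ := fun χ => (∑ l, χ (det (labf (β l)) j)) / Fintype.card L with hR
  have e1 : (I (muP θ t Y) fun χ => I (W * dirac (det (scal 2) j) * mapM labf (slotB β j)) χ) -
      (I (muP θ t Y) fun χ =>
        I (W * dirac (det (scal 2) j) * mapM labf (slotE S (xiOf θ β Y))) χ) =
      2 ^ t.size * I (muP θ t Y) fun χ => I W χ * (R χ - m) := by
    rw [← I_sub_fun, ← I_const_mul]
    refine hS.I_congr fun χ hχ => ?_
    simp only [I_mul_hom _ _ _ χ.map_mul, I_dirac, hχ.det_scal, I_labf_slotB,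
      I_labf_slotE h0 β hY hχ]
    ring
  have hmean : I (muP θ t Y) R = m := by
    simp only [hR, hm, I_div_const, I_sum_fun, I_muP_det]
  have hsq : I (muP θ t Y) (fun χ => R χ ^ 2) =
      (∑ l, ∑ l', mmP θ t Y (β l * β l')) / (Fintype.card L : ℝ) ^ 2 := by
    simp only [hR, div_pow, I_div_const]
    congr 1
    simp only [sq, Finset.sum_mul_sum, ← _root_.map_mul, ← det_mul, ← labf_mul, I_sum_fun, I_muP_det]
  have hvar : I (muP θ t Y) (fun χ => (R χ - m) ^ 2) ≤ hs (CP θ t Y β) := by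
    refine le_trans (le_of_eq ?_) (avg_le_hs _)
    have : (fun χ => (R χ - m) ^ 2) = fun χ => R χ ^ 2 - 2 * m * R χ + m ^ 2 := by
      funext χ; ring
    rw [this, I_add_fun, I_sub_fun, I_const_mul, hμ.I_const, hmean, hsq]
    simp only [CP, Finset.sum_sub_distrib, ← Finset.sum_mul_sum, sub_div]
    rw [hm]
    field_simp
    ring
  have hF : I (muP θ t Y) (fun χ => I W χ ^ 2) ≤ 1 := hμ.le_of_le fun χ hχ =>
    (sq_le_one_iff_abs_le_one _).2
      (abs_I_le_const hW.1 fun d hd => supp_muP_abs t Y χ hχ d (hW.2 d hd))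
  have hcs := sq_I_mul_le hμ.1 (fun χ => I W χ) (fun χ => R χ - m)
  have hv0 : 0 ≤ I (muP θ t Y) (fun χ => (R χ - m) ^ 2) := I_nonneg hμ.1 fun _ _ => sq_nonneg _
  rw [e1, abs_mul, abs_of_pos (by positivity)]
  refine mul_le_mul_of_nonneg_left (Real.abs_le_sqrt ?_) (by positivity)
  exact hcs.trans ((mul_le_of_le_one_left hv0 hF).trans hvar)

theorem decouple_comb {η y : ℝ} (hη : 0 < η) (hy : 0 < y) :
    ∃ M : ℝ, 0 ≤ M ∧ ∀ θ : ℝ, 0 < θ → θ ≤ 1 → ∀ j : ℕ, y ≤ θ ^ j → ∃ Q' : ℕ, 1 ≤ Q' ∧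
      ∀ (S L : Type) [Fintype S] [Fintype L] [Nonempty L] (β : L → S → ℝ), (∀ l, U01 (β l)) →
      ∀ (Y : Ms (Nest (S → ℝ) j)) (W : Ms (Nest (Bool → S → ℝ) j)), GoodM U01 Y → GoodM N01 W →
        0 < pS θ Y →
        |pS θ (Y * comb W (slotB β j)) - pS θ (Y * comb W (slotE S (xiOf θ β Y)))|
          ≤ (η + M * Real.sqrt
              (I (treeP θ Q' j) fun t => (1 / 2) ^ t.size * hs (CP θ t Y β))) * pS θ Y := by
  have hb0 : 0 < min (1 / 2 : ℝ) (η / 8) := lt_min (by norm_num) (by linarith)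
  have hb1 : min (1 / 2 : ℝ) (η / 8) < 1 := (min_le_left _ _).trans_lt (by norm_num)
  set δ : ℝ := (min (1 / 2 : ℝ) (η / 8)) ^ y⁻¹ with hδ
  have hδ0 : 0 < δ := Real.rpow_pos_of_pos hb0 _
  have hδ1 : δ < 1 := Real.rpow_lt_one hb0.le hb1 (inv_pos.2 hy)
  have hδy : δ ^ y ≤ η / 8 := by
    rw [hδ, Real.rpow_inv_rpow hb0.le hy.ne']; exact min_le_right _ _
  obtain ⟨q₀, hq₀⟩ := exists_pow_lt_of_lt_one (x := (1 / 2 : ℝ)) (y := 1 - δ) (by norm_num)
    (by linarith)
  refine ⟨4 ^ q₀, by positivity, fun θ h0 h1 j hj => ?_⟩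
  obtain ⟨Q', hQ1, hQ⟩ := exists_errR_le h0 h1 j (η := η / 10) (by linarith)
  refine ⟨Q', hQ1, fun S L _ _ _ β hβ Y W hY hW hp => ?_⟩
  have hδθ : δ ^ (θ ^ j) ≤ η / 8 :=
    (Real.rpow_le_rpow_of_exponent_ge hδ0 hδ1.le hj).trans hδy
  have hT1 : GoodM U01 (slotB β j) := goodM_slotB hβ j
  have hT2 : GoodM U01 (slotE S (xiOf θ β Y)) := (goodM_xiOf h0 hβ hY hp).slotE
  have hU1 := goodM_Ua hW hT1
  have hU2 := goodM_Ua hW hT2
  have hcov := tree_cov' h0 β hY hp (hW.mapM (f := wa) fun _ => NA_wa)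
  have ht1 := tail_signed h0 h1 Q' hδ0.le hδ1.le hq₀.le hY hp hU1
  have ht2 := tail_signed h0 h1 Q' hδ0.le hδ1.le hq₀.le hY hp hU2
  obtain ⟨a1, a2⟩ := repS h0 h1 Q' hY hp hU1
  obtain ⟨b1, b2⟩ := repS h0 h1 Q' hY hp hU2
  rw [comb_eq_cl, comb_eq_cl]
  set U1 := mapM wa W * dirac (det (scal 2) j) * mapM labf (slotB β j)
  set U2 := mapM wa W * dirac (det (scal 2) j) * mapM labf (slotE S (xiOf θ β Y))
  set H1 : Tr j → ℝ := fun t => I (muP θ t Y) fun χ => I U1 χ with hH1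
  set H2 : Tr j → ℝ := fun t => I (muP θ t Y) fun χ => I U2 χ with hH2
  have hNN := NN_treeP h0.le h1 Q' j
  have hpt : ∀ t : Tr j, |(if t.size ≤ q₀ then 1 else 0) * (H1 t - H2 t)| ≤
      4 ^ q₀ * Real.sqrt ((1 / 2) ^ t.size * hs (CP θ t Y β)) := by
    intro t
    split_ifs with hs'
    · rw [one_mul]
      refine (hcov t).trans ?_
      rw [Real.sqrt_mul (by positivity), ← mul_assoc]
      refine mul_le_mul_of_nonneg_right ?_ (Real.sqrt_nonneg _)
      have p6 : (1 / 2 : ℝ) ^ t.size ≤ Real.sqrt ((1 / 2) ^ t.size) := by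
        refine Real.le_sqrt_of_sq_le ?_
        have : (1 / 2 : ℝ) ^ t.size ≤ 1 := pow_le_one₀ (by norm_num) (by norm_num)
        have : (0 : ℝ) ≤ (1 / 2 : ℝ) ^ t.size := by positivity
        nlinarith
      calc (2 : ℝ) ^ t.size = 4 ^ t.size * (1 / 2) ^ t.size := by
            rw [← mul_pow]; norm_num
        _ ≤ 4 ^ q₀ * Real.sqrt ((1 / 2) ^ t.size) :=
            mul_le_mul (pow_le_pow_right₀ (by norm_num) hs') p6 (by positivity) (by positivity)
    · rw [zero_mul, abs_zero]; positivity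
  have hsmall : |I (treeP θ Q' j) fun t => (if t.size ≤ q₀ then 1 else 0) * (H1 t - H2 t)| ≤
      4 ^ q₀ * Real.sqrt (I (treeP θ Q' j) fun t => (1 / 2) ^ t.size * hs (CP θ t Y β)) := by
    refine (abs_I_le hNN _).trans ((I_mono hNN fun t _ => hpt t).trans ?_)
    rw [I_const_mul]
    exact mul_le_mul_of_nonneg_left (I_sqrt_le hNN (mass_treeP_le_one h0.le h1 Q' j)
      (f := fun t => (1 / 2) ^ t.size * hs (CP θ t Y β))
      (fun t _ => mul_nonneg (by positivity) (Real.sqrt_nonneg _))) (by positivity)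
  have hsplit : G1P θ Q' Y U1 - G1P θ Q' Y U2 =
      (I (treeP θ Q' j) fun t => (if t.size ≤ q₀ then 1 else 0) * (H1 t - H2 t)) +
        (I (treeP θ Q' j) fun t => (if t.size ≤ q₀ then 0 else 1) * H1 t) -
        I (treeP θ Q' j) fun t => (if t.size ≤ q₀ then 0 else 1) * H2 t := by
    rw [G1P, G1P, ← I_sub_fun, ← I_add_fun, ← I_sub_fun]
    congr 1
    funext t
    split_ifs <;> simp [hH1, hH2]
  have e : ∀ Z : Ms (Nest (S → ℝ) j), pS θ (Y * Z) = (1 - GP θ Y Z) * pS θ Y := by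
    intro Z; rw [GP]; field_simp; ring
  rw [e, e, ← sub_mul, abs_mul, abs_of_pos hp]
  refine mul_le_mul_of_nonneg_right ?_ hp.le
  rw [abs_le] at hsmall ht1 ht2 ⊢
  constructor <;> linarith [hsmall.1, hsmall.2, ht1.1, ht1.2, ht2.1, ht2.2]

end Crest.Agent.R141
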