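import Crest.Agent.R153.Rep
import Crest.Agent.R153.Poi
import Crest.Prelude.Def_DilutedSpinGlass

/-!
Row 141 (Mezard-Parisi formula for diluted models): finite models in the language of the nests of
`Crest.Agent.R153`, and the dictionary with the measure-theoretic statement.
-/

set_option autoImplicit false

namespace Crest.Agent.R141

open Crest.Agent.R153 Crest.Agent.R153.Ms Crest.Agent.R153.Nest
open Crest.ProbabilityR MeasureTheory

variable {S A ι : Type} {j p : ℕ}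

/-- The law of one spin which is `true` with probability `x`. -/
def qq (x : ℝ) (s : Bool) : ℝ := if s then x else 1 - x

/-- Multi-affine extension of a function of `p` spins. -/
def mlin (g : Diluted.Inter p) (x : Fin p → ℝ) : ℝ := ∑ s, g s * ∏ ℓ, qq (x ℓ) (s ℓ)

/-- Independent product of a finite family of nests. -/
noncomputable def tensN [Fintype ι] [DecidableEq ι] [CommMonoid A] (t : ι → Nest A j) :
    Nest (ι → A) j := ∏ i, Nest.map (fun a => Pi.mulSingle i a) (t i)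

noncomputable def tens [Fintype ι] [DecidableEq ι] [CommMonoid A] (T : ι → Ms (Nest A j)) :
    Ms (Nest (ι → A) j) := ∏ i, mapM (fun a => Pi.mulSingle i a) (T i)

/-- The factor `g` whose `p` slots are filled by the nests `T ℓ` (leaves = probability of `true`). -/
noncomputable def clz (g : Diluted.Inter p) (T : Fin p → Ms (Nest (S → ℝ) j)) :
    Ms (Nest (S → ℝ) j) := mapM (fun x σ => mlin g fun ℓ => x ℓ σ) (tens T)

/-- The same with a random factor of law `Γ`. -/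
noncomputable def CL (Γ : Ms (Diluted.Inter p)) (T : Fin p → Ms (Nest (S → ℝ) j)) :
    Ms (Nest (S → ℝ) j) := Ms.bind Γ fun g => clz g T

/-- `T` in the last slot, `T'` in the others. -/
def lastSlot {B : Type} (p : ℕ) (T T' : B) : Fin p → B := fun ℓ => if ℓ.val < p - 1 then T' else T

/-- An affine function of one slot, with coefficients given by the context `W`. -/
noncomputable def comb (W : Ms (Nest (Bool → S → ℝ) j)) (T : Ms (Nest (S → ℝ) j)) :
    Ms (Nest (S → ℝ) j) := map2M (fun u x σ => u false σ * (1 - x σ) + u true σ * x σ) W T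

def spin (n : ℕ) (i : Fin n) (σ : Fin n → Bool) : ℝ := if σ i then 1 else 0

def spin1 (σ : Bool) : ℝ := if σ then 1 else 0

/-- Independent one-site weights of law `H` at all sites. -/
noncomputable def fieldN (H : Ms (Bool → ℝ)) (n j : ℕ) : Ms (Nest ((Fin n → Bool) → ℝ) j) :=
  ∏ i : Fin n, Ms.map (fun w => det (fun σ : Fin n → Bool => w (σ i)) j) H

/-- One site with its weight and `J` factors, the site being in the last slot. -/
noncomputable def siteN (Γ : Ms (Diluted.Inter p)) (H : Ms (Bool → ℝ)) (ξ : Ms (Nest ℝ j))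
    (J : ℕ) : Ms (Nest (Bool → ℝ) j) :=
  Ms.map (fun w => det w j) H * CL Γ (lastSlot p (dirac (det spin1 j)) (slotE Bool ξ)) ^ J

noncomputable def edgeW (θ : ℝ) (Γ : Ms (Diluted.Inter p)) (ξ : Ms (Nest ℝ j)) : ℝ :=
  I Γ fun g => pre θ (mlin g) (tens fun _ : Fin p => ξ)

/-- The annealed functional. -/
noncomputable def PiG (θ α : ℝ) (Γ : Ms (Diluted.Inter p)) (H : Ms (Bool → ℝ))
    (ξ : Ms (Nest ℝ j)) : ℝ :=
  (∑' J : ℕ, poi (α * p) J * pS θ (siteN Γ H ξ J)) *
    Real.exp (α * ((p : ℝ) - 1) * (1 - edgeW θ Γ ξ))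

/-- `E Z ^ (θ ^ j)` written with nests. -/
noncomputable def ann (θ : ℝ) (j : ℕ) (α : ℝ) (Γ : Ms (Diluted.Inter p)) (H : Ms (Bool → ℝ))
    (N : ℕ) : ℝ :=
  ∑' M : ℕ, poi (α * N) M * pS θ (fieldN H N j * CL Γ (fun _ => slotB (spin N) j) ^ M)

/-- The law of the Boltzmann weight of `N` spins with `M` factors. -/
noncomputable def Zm (Γ : Ms (Diluted.Inter p)) (H : Ms (Bool → ℝ)) (N M : ℕ) :
    Ms ((Fin N → Bool) → ℝ) :=
  (∏ i : Fin N, Ms.map (fun w (σ : Fin N → Bool) => w (σ i)) H) *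
    (Ms.bind Γ fun g => avg fun idx : Fin p → Fin N =>
      dirac fun σ : Fin N → Bool => g fun ℓ => σ (idx ℓ)) ^ M

/-- `E Z ^ y`. -/
noncomputable def mom (y α : ℝ) (Γ : Ms (Diluted.Inter p)) (H : Ms (Bool → ℝ)) (N : ℕ) : ℝ :=
  ∑' M : ℕ, poi (α * N) M * I (Zm Γ H N M) fun x => sumv x ^ y

/-- The pressure of the finite model. -/
noncomputable def press (α : ℝ) (Γ : Ms (Diluted.Inter p)) (H : Ms (Bool → ℝ)) (N : ℕ) : ℝ :=
  (1 / (N : ℝ)) * ∑' M : ℕ, poi (α * N) M * I (Zm Γ H N M) fun x => Real.log (sumv x)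

/-- Nested power means; `m 0` is the exponent of the deepest level. -/
noncomputable def pm (m : ℕ → ℝ) (v : A → ℝ) : {j : ℕ} → Nest A j → ℝ
  | 0, x => v (unleaf x)
  | j + 1, X => (I (dn X) fun c => pm m v c ^ m j) ^ (1 / m j)

/-- The quenched cavity functional of the finite model. -/
noncomputable def BQ (m : ℕ → ℝ) (α : ℝ) (Γ : Ms (Diluted.Inter p)) (H : Ms (Bool → ℝ))
    (ξ : Ms (Nest ℝ j)) : ℝ :=
  (∑' J : ℕ, poi (α * p) J * I (siteN Γ H ξ J) fun c => Real.log (pm m sumv c)) -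
    α * ((p : ℝ) - 1) * I Γ fun g => I (tens fun _ : Fin p => ξ) fun c => Real.log (pm m (mlin g) c)

/-- Values in `[c, 1]`. -/
def Inc (c : ℝ) (g : ι → ℝ) : Prop := ∀ s, c ≤ g s ∧ g s ≤ 1

/-- Numbers in the open unit interval. -/
def O01 (r : ℝ) : Prop := 0 < r ∧ r < 1

/-- A finite model: factors and one-site weights with values in `[c, 1]`. -/
structure Model (c : ℝ) (Γ : Ms (Diluted.Inter p)) (H : Ms (Bool → ℝ)) : Prop where
  pos : 0 < c
  probΓ : Γ.Prob
  suppΓ : Γ.Supp (Inc c)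
  probH : H.Prob
  suppH : H.Supp (Inc c)

/-- The law of the factor is invariant under permutations of the slots. -/
def Symm (Γ : Ms (Diluted.Inter p)) : Prop :=
  ∀ π : Equiv.Perm (Fin p), Ms.map (fun g s => g fun ℓ => s (π ℓ)) Γ = Γ

/-- The one-step interpolation inequality, up to the factor `ρ`. -/
def OneStep (Γ : Ms (Diluted.Inter p)) (ρ : ℝ) : Prop :=
  ∀ θ : ℝ, 0 < θ → θ ≤ 1 → ∀ (j : ℕ) (S : Type) [Fintype S] (X T T' : Ms (Nest (S → ℝ) j)),
    GoodM U01 X → GoodM U01 T → GoodM U01 T' →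
      pS θ (X * ((1 / (p : ℝ)) • CL Γ (fun _ => T) + (((p : ℝ) - 1) / p) • CL Γ fun _ => T')) ≤
        ρ ^ (θ ^ j) * pS θ (X * CL Γ (lastSlot p T T'))

/-- Admissible exponents, listed from the deepest level. -/
def AdmN (r : ℕ) (m : ℕ → ℝ) : Prop :=
  (∀ i, i < r → 0 < m i ∧ m i < 1) ∧ ∀ i i', i < i' → i' < r → m i' < m i

/-- The exponents of a trial listed from the deepest level. -/
noncomputable def revm {r : ℕ} (m : Fin r → ℝ) (i : ℕ) : ℝ :=
  if h : i < r then m (Fin.rev ⟨i, h⟩) else 1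

/-- A finitely supported measure as a measure. -/
noncomputable def toMeas {B : Type} [MeasurableSpace B] (X : Ms B) : Measure B :=
  X.coeff.sum fun a w => ENNReal.ofReal w • Measure.dirac a

noncomputable def expI (Θ : Ms (Diluted.Inter p)) : Ms (Diluted.Inter p) :=
  Ms.map (fun θ s => Real.exp (θ s)) Θ

noncomputable def fieldW (K : ℝ) (H₀ : Ms ℝ) : Ms (Bool → ℝ) :=
  Ms.map (fun h ε => Real.exp (h * Diluted.spinVal ε - K)) H₀

/-- The function `F` of `r` uniform variables is a step function described by the nest `X`. -/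
def RepN : (r : ℕ) → ((Fin r → unitInterval) → ℝ) → Nest ℝ r → Prop
  | 0, F, x => ∀ u, F u = unleaf x
  | r + 1, F, X => ∃ τ : unitInterval → Nest ℝ r, (Set.range τ).Finite ∧
      (∀ c, MeasurableSet (τ ⁻¹' {c})) ∧ (∀ c, (dn X).coeff c = (volume (τ ⁻¹' {c})).toReal) ∧
      ∀ v, RepN r (fun u => F (Fin.cons v u)) (τ v)

/-! ### Elementary properties -/

@[simp] theorem pm_zero (m : ℕ → ℝ) (v : A → ℝ) (x : Nest A 0) : pm m v x = v (unleaf x) := rfl

theorem pm_succ (m : ℕ → ℝ) (v : A → ℝ) (X : Nest A (j + 1)) :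
    pm m v X = (I (dn X) fun c => pm m v c ^ m j) ^ (1 / m j) := rfl

theorem sum_prod_qq (x : Fin p → ℝ) : ∑ s : Fin p → Bool, ∏ ℓ, qq (x ℓ) (s ℓ) = 1 := by
  rw [← Fintype.piFinset_univ, ← Finset.prod_univ_sum]
  simp [qq]

theorem qq_nonneg {x : ℝ} (hx : R01 x) (s : Bool) : 0 ≤ qq x s := by
  unfold qq; split_ifs <;> linarith [hx.1, hx.2]

theorem mlin_mem {c : ℝ} {g : Diluted.Inter p} (hg : Inc c g) {x : Fin p → ℝ}
    (hx : ∀ ℓ, R01 (x ℓ)) : c ≤ mlin g x ∧ mlin g x ≤ 1 := by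
  have h0 : ∀ s : Fin p → Bool, 0 ≤ ∏ ℓ, qq (x ℓ) (s ℓ) := fun s =>
    Finset.prod_nonneg fun ℓ _ => qq_nonneg (hx ℓ) _
  constructor
  · calc c = ∑ s : Fin p → Bool, c * ∏ ℓ, qq (x ℓ) (s ℓ) := by
          rw [← Finset.mul_sum, sum_prod_qq, mul_one]
      _ ≤ _ := Finset.sum_le_sum fun s _ => mul_le_mul_of_nonneg_right (hg s).1 (h0 s)
  · calc mlin g x ≤ ∑ s : Fin p → Bool, ∏ ℓ, qq (x ℓ) (s ℓ) :=
          Finset.sum_le_sum fun s _ => mul_le_of_le_one_left (h0 s) (hg s).2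
      _ = 1 := sum_prod_qq x

theorem mlin_spin (g : Diluted.Inter p) (s : Fin p → Bool) :
    mlin g (fun ℓ => if s ℓ then 1 else 0) = g s := by
  rw [mlin, Finset.sum_eq_single s]
  · rw [Finset.prod_eq_one, mul_one]
    intro ℓ _
    cases s ℓ <;> simp [qq]
  · intro s' _ hs
    obtain ⟨ℓ, hℓ⟩ := Function.ne_iff.1 hs
    rw [Finset.prod_eq_zero (Finset.mem_univ ℓ), mul_zero]
    revert hℓ
    cases s ℓ <;> cases s' ℓ <;> simp [qq]
  · simp

theorem Inc.u01 {c : ℝ} (hc : 0 ≤ c) {g : S → ℝ} (h : Inc c g) : U01 g :=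
  fun s => ⟨hc.trans (h s).1, (h s).2⟩

theorem U01_spin (n : ℕ) (i : Fin n) : U01 (spin n i) := fun σ => by
  unfold spin; split_ifs <;> simp

theorem U01_spin1 : U01 spin1 := fun σ => by
  unfold spin1; split_ifs <;> simp

section tens
variable [Fintype ι] [DecidableEq ι] [CommMonoid A]

theorem dn_prod {κ : Type} (s : Finset κ) (X : κ → Nest A (j + 1)) :
    dn (∏ i ∈ s, X i) = ∏ i ∈ s, dn (X i) := rfl

theorem dn_tensN (t : ι → Nest A (j + 1)) : dn (tensN t) = tens fun i => dn (t i) := rfl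

theorem tensN_up (T : ι → Ms (Nest A j)) : tensN (fun i => up (T i)) = up (tens T) := rfl

theorem unleaf_tensN (t : ι → Nest A 0) : unleaf (tensN t) = fun i => unleaf (t i) :=
  Finset.univ_prod_mulSingle fun i => unleaf (t i)

theorem good_tensN {P : ι → A → Prop} {t : ι → Nest A j} (h : ∀ i, Good (P i) (t i)) :
    Good (fun x => ∀ i, P i (x i)) (tensN t) := by
  have key : ∀ s : Finset ι, Good (fun x : ι → A => (∀ i ∈ s, P i (x i)) ∧ ∀ i ∉ s, x i = 1)
      (∏ i ∈ s, Nest.map (fun a => Pi.mulSingle i a) (t i)) := by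
    intro s
    induction s using Finset.induction_on with
    | empty => exact good_one ⟨by simp, fun _ _ => rfl⟩
    | insert i s hi ih =>
      rw [Finset.prod_insert hi]
      refine Good.mul (P := fun x : ι → A => P i (x i) ∧ ∀ i', i' ≠ i → x i' = 1) ?_
        ((h i).map fun a ha => ⟨by simpa using ha, fun i' hi' => by simp [hi']⟩) ih
      rintro x y ⟨hx1, hx2⟩ ⟨hy1, hy2⟩
      refine ⟨fun i' hi' => ?_, fun i' hi' => ?_⟩
      · rcases Finset.mem_insert.1 hi' with rfl | hi'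
        · simpa [hy2 _ hi] using hx1
        · have : i' ≠ i := fun e => hi (e ▸ hi')
          simpa [hx2 _ this] using hy1 i' hi'
      · simp only [Finset.mem_insert, not_or] at hi'
        simp [hx2 _ hi'.1, hy2 _ hi'.2]
  exact (key Finset.univ).mono fun x hx i => hx.1 i (Finset.mem_univ i)

theorem goodM_tens {P : ι → A → Prop} {T : ι → Ms (Nest A j)} (h : ∀ i, GoodM (P i) (T i)) :
    GoodM (fun x => ∀ i, P i (x i)) (tens T) := good_tensN (t := fun i => up (T i)) h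

end tens

theorem goodM_clz_inc {c : ℝ} {g : Diluted.Inter p} (hg : Inc c g)
    {T : Fin p → Ms (Nest (S → ℝ) j)} (hT : ∀ ℓ, GoodM U01 (T ℓ)) : GoodM (Inc c) (clz g T) :=
  (goodM_tens (P := fun _ => U01) hT).mapM fun _ hx σ => mlin_mem hg fun ℓ => hx ℓ σ

theorem goodM_CL_inc {c : ℝ} {Γ : Ms (Diluted.Inter p)} (hΓ : Γ.Prob) (hs : Γ.Supp (Inc c))
    {T : Fin p → Ms (Nest (S → ℝ) j)} (hT : ∀ ℓ, GoodM U01 (T ℓ)) : GoodM (Inc c) (CL Γ T) :=
  goodM_bind hΓ fun g hg => goodM_clz_inc (hs g hg) hT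

theorem Model.goodM_CL {c : ℝ} {Γ : Ms (Diluted.Inter p)} {H : Ms (Bool → ℝ)} (h : Model c Γ H)
    {T : Fin p → Ms (Nest (S → ℝ) j)} (hT : ∀ ℓ, GoodM U01 (T ℓ)) : GoodM U01 (CL Γ T) :=
  (goodM_CL_inc h.probΓ h.suppΓ hT).mono fun _ => Inc.u01 h.pos.le

theorem lastSlot_prop {B : Type} {P : B → Prop} {T T' : B} (h : P T) (h' : P T') (ℓ : Fin p) :
    P (lastSlot p T T' ℓ) := by
  unfold lastSlot; split_ifs <;> assumption

theorem goodM_prod {κ : Type} {P : A → Prop} [CommMonoid A] (h1 : P 1)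
    (hmul : ∀ a b, P a → P b → P (a * b)) (s : Finset κ) {X : κ → Ms (Nest A j)}
    (h : ∀ i ∈ s, GoodM P (X i)) : GoodM P (∏ i ∈ s, X i) :=
  Finset.prod_induction _ _ (fun _ _ => GoodM.mul hmul) (goodM_one h1) h

theorem Model.goodM_fieldN {c : ℝ} {Γ : Ms (Diluted.Inter p)} {H : Ms (Bool → ℝ)}
    (h : Model c Γ H) (n j : ℕ) : GoodM U01 (fieldN H n j) :=
  goodM_prod U01_one U01_mul _ fun _ _ => ⟨h.probH.map _, h.suppH.map fun _ hw =>
    good_det (fun _ => (hw.u01 h.pos.le) _) j⟩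

theorem Model.goodM_siteN {c : ℝ} {Γ : Ms (Diluted.Inter p)} {H : Ms (Bool → ℝ)}
    (h : Model c Γ H) {ξ : Ms (Nest ℝ j)} (hξ : GoodM R01 ξ) (J : ℕ) : GoodM U01 (siteN Γ H ξ J) :=
  GoodM.mulU ⟨h.probH.map _, h.suppH.map fun _ hw => good_det (hw.u01 h.pos.le) j⟩
    ((h.goodM_CL (lastSlot_prop (goodM_dirac (good_det U01_spin1 j)) hξ.slotE)).powU J)

end Crest.Agent.R141
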