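import Crest.Agent.R141.Defs

/-!
Row 141: finitely supported measures as measures (first part of task R141-Pre; land it first).
-/

set_option autoImplicit false

namespace Crest.Agent.R141

open Crest.Agent.R153 Crest.Agent.R153.Ms Crest.Agent.R153.Nest
open Crest.ProbabilityR MeasureTheory Filter

variable {B : Type} [MeasurableSpace B] [MeasurableSingletonClass B]

theorem integrable_toMeas (X : Ms B) (f : B → ℝ) : Integrable f (toMeas X) := by
  rw [toMeas, Finsupp.sum, integrable_finsetSum_measure]
  exact fun a _ => (integrable_dirac (by simp)).smul_measure ENNReal.ofReal_ne_top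

theorem integral_toMeas {X : Ms B} (hX : X.NN) (f : B → ℝ) : ∫ b, f b ∂(toMeas X) = I X f := by
  rw [toMeas, Finsupp.sum, integral_finsetSum_measure
    fun a _ => (integrable_dirac (by simp)).smul_measure ENNReal.ofReal_ne_top, I_eq_sum]
  refine Finset.sum_congr rfl fun a _ => ?_
  rw [integral_smul_measure, integral_dirac, ENNReal.toReal_ofReal (hX a), smul_eq_mul]

instance isFinite_toMeas (X : Ms B) : IsFiniteMeasure (toMeas X) :=
  (integrable_const_iff.1 (integrable_toMeas X fun _ => (1 : ℝ))).resolve_left one_ne_zero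

theorem real_toMeas {X : Ms B} (hX : X.NN) {s : Set B} (hs : MeasurableSet s) :
    (toMeas X).real s = I X (s.indicator 1) := by
  rw [← integral_toMeas hX, integral_indicator_one hs]

theorem isProb_toMeas {X : Ms B} (hX : X.Prob) : IsProbabilityMeasure (toMeas X) := by
  refine isProbabilityMeasure_iff_real.2 ?_
  rw [real_toMeas hX.1 MeasurableSet.univ, Set.indicator_univ]
  exact hX.2

theorem eq_toMeas {μ : Measure B} [IsFiniteMeasure μ] {X : Ms B} (hX : X.NN)
    (h : ∀ s, MeasurableSet s → μ.real s = I X (s.indicator 1)) : μ = toMeas X :=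
  Measure.ext fun s hs => (measureReal_eq_measureReal_iff (measure_ne_top _ _)
    (measure_ne_top _ _)).1 ((h s hs).trans (real_toMeas hX hs).symm)

theorem toMeas_injective {X Y : Ms B} (hX : X.NN) (hY : Y.NN) (h : toMeas X = toMeas Y) : X = Y := by
  exact ext_I fun f => by rw [← integral_toMeas hX, ← integral_toMeas hY, h]

theorem map_toMeas {B' : Type} [MeasurableSpace B'] [MeasurableSingletonClass B'] {X : Ms B}
    (hX : X.NN) {f : B → B'} (hf : Measurable f) : (toMeas X).map f = toMeas (Ms.map f X) := by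
  refine eq_toMeas (hX.map f) fun s hs => ?_
  rw [map_measureReal_apply hf hs, real_toMeas hX (hf hs), I_map]
  rfl

/-- The law of a measurable function with finite range. -/
theorem exists_map_eq_toMeas {Ω : Type} [MeasurableSpace Ω] (P : Measure Ω) [IsProbabilityMeasure P]
    {f : Ω → B} (hf : Measurable f) (hfin : (Set.range f).Finite) :
    ∃ X : Ms B, X.Prob ∧ X.Supp (· ∈ Set.range f) ∧ P.map f = toMeas X := by
  classical
  have hI : ∀ g : B → ℝ, I (∑ b ∈ hfin.toFinset, P.real (f ⁻¹' {b}) • dirac b) g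
      = ∑ b ∈ hfin.toFinset, P.real (f ⁻¹' {b}) * g b := fun g => by simp [I_sum]
  have hNN : (∑ b ∈ hfin.toFinset, P.real (f ⁻¹' {b}) • dirac b : Ms B).NN :=
    NN_sum fun b _ => (NN_dirac b).smul measureReal_nonneg
  have hs : ∀ s : Set B, P.real (f ⁻¹' s)
      = I (∑ b ∈ hfin.toFinset, P.real (f ⁻¹' {b}) • dirac b) (s.indicator 1) := by
    intro s
    rw [hI]
    simp only [Set.indicator_apply, Pi.one_apply, mul_ite, mul_one, mul_zero, ← Finset.sum_filter]
    rw [sum_measureReal_preimage_singleton _ fun b _ => hf (measurableSet_singleton b)]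
    congr 1
    ext ω
    simp
  refine ⟨_, ⟨hNN, ?_⟩, supp_sum fun b hb => (supp_dirac (by simpa using hb)).smul _,
    eq_toMeas hNN fun s hs' => ?_⟩
  · have := hs Set.univ
    rw [Set.indicator_univ, Set.preimage_univ, probReal_univ] at this
    exact this.symm
  · rw [map_measureReal_apply hf hs', hs]

/-- Independent samples indexed by a finite type. -/
noncomputable def piM {ι : Type} [Fintype ι] [DecidableEq ι] {M : Type} (X : ι → Ms M) :
    Ms (ι → M) :=
  ∑ f ∈ Fintype.piFinset fun i => (X i).coeff.support, (∏ i, (X i).coeff (f i)) • dirac f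

theorem I_piM {ι : Type} [Fintype ι] [DecidableEq ι] {M : Type} (X : ι → Ms M) (g : (ι → M) → ℝ) :
    I (piM X) g = ∑ f ∈ Fintype.piFinset fun i => (X i).coeff.support,
      (∏ i, (X i).coeff (f i)) * g f := by
  simp [piM, I_sum]

theorem I_piM_prod {ι : Type} [Fintype ι] [DecidableEq ι] {M : Type} (X : ι → Ms M)
    (g : ι → M → ℝ) : I (piM X) (fun a => ∏ i, g i (a i)) = ∏ i, I (X i) (g i) := by
  simp only [I_piM, I_eq_sum (X _), Finset.prod_univ_sum, Finset.prod_mul_distrib]

theorem NN_piM {ι : Type} [Fintype ι] [DecidableEq ι] {M : Type} {X : ι → Ms M}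
    (hX : ∀ i, (X i).NN) : (piM X).NN :=
  NN_sum fun f _ => (NN_dirac f).smul (Finset.prod_nonneg fun i _ => hX i _)

theorem supp_piM {ι : Type} [Fintype ι] [DecidableEq ι] {M : Type} {X : ι → Ms M}
    {P : ι → M → Prop} (hX : ∀ i, (X i).Supp (P i)) : (piM X).Supp fun a => ∀ i, P i (a i) :=
  supp_sum fun _ hf => (supp_dirac fun i =>
    hX i _ (Finsupp.mem_support_iff.1 (Fintype.mem_piFinset.1 hf i))).smul _

theorem pi_toMeas {ι : Type} [Fintype ι] [DecidableEq ι] {X : ι → Ms B} (hX : ∀ i, (X i).Prob) :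
    (Measure.pi fun i => toMeas (X i)) = toMeas (piM X) := by
  refine Measure.pi_eq fun s hs => ?_
  rw [← ENNReal.toReal_eq_toReal_iff' (measure_ne_top _ _)
    (ENNReal.prod_ne_top fun i _ => measure_ne_top _ _), ENNReal.toReal_prod]
  have h1 := real_toMeas (NN_piM fun i => (hX i).1) (MeasurableSet.univ_pi hs)
  have h2 : (Set.univ.pi s).indicator (1 : (ι → B) → ℝ)
      = fun a => ∏ i, (s i).indicator 1 (a i) := by
    ext a
    by_cases h : a ∈ Set.univ.pi s
    · rw [Set.indicator_of_mem h, Finset.prod_eq_one fun i _ => Set.indicator_of_mem (h i trivial) _]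
      rfl
    · rw [Set.indicator_of_notMem h]
      obtain ⟨i, hi⟩ : ∃ i, a i ∉ s i := by simpa using h
      exact (Finset.prod_eq_zero (Finset.mem_univ i) (Set.indicator_of_notMem hi _)).symm
  rw [h2, I_piM_prod] at h1
  refine h1.trans (Finset.prod_congr rfl fun i _ => ?_)
  exact (real_toMeas (hX i).1 (hs i)).symm

theorem prob_piM {ι : Type} [Fintype ι] [DecidableEq ι] {M : Type} {X : ι → Ms M}
    (hX : ∀ i, (X i).Prob) : (piM X).Prob := by
  refine ⟨NN_piM fun i => (hX i).1, ?_⟩
  have := I_piM_prod X fun _ _ => (1 : ℝ)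
  rw [Finset.prod_eq_one (f := fun i => I (X i) fun _ => 1) fun i _ => (hX i).2] at this
  simpa [mass] using this

/-- A product in the monoid algebra as an integral against independent samples. -/
theorem I_prod_bind {ι : Type} [Fintype ι] [DecidableEq ι] {M N : Type} [CommMonoid N]
    (X : ι → Ms M) (κ : ι → M → Ms N) (f : N → ℝ) :
    I (∏ i, Ms.bind (X i) (κ i)) f = I (piM X) fun a => I (∏ i, κ i (a i)) f := by
  simp only [Ms.bind, Finsupp.sum, Finset.prod_univ_sum, Finset.prod_smul, I_sum, I_smul, I_piM]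

end Crest.Agent.R141
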