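import Crest.Agent.R141.Fac_A
import Crest.Agent.R141.ToMeas
import Crest.Agent.R141.Dec

/-!
Row 141, task R141-Fac, part B: the one-step inequality from a factorised random clause.
-/

set_option autoImplicit false

namespace Crest.Agent.R141.Fac

open Crest.Agent.R153 Crest.Agent.R153.Ms Crest.Agent.R153.Nest
open Crest.ProbabilityR MeasureTheory

variable {p : ℕ}

theorem integrable_I {M Ω : Type} [MeasurableSpace Ω] {P : Measure Ω} (Λ : Ms M) {f : M → Ω → ℝ}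
    (h : ∀ a, Λ.coeff a ≠ 0 → Integrable (f a) P) :
    Integrable (fun ω => I Λ fun a => f a ω) P ∧
      ∫ ω, (I Λ fun a => f a ω) ∂P = I Λ fun a => ∫ ω, f a ω ∂P := by
  have h' : ∀ a ∈ Λ.coeff.support, Integrable (fun ω => Λ.coeff a * f a ω) P := fun a ha =>
    (h a (Finsupp.mem_support_iff.1 ha)).const_mul _
  simp only [I_eq_sum]
  refine ⟨integrable_finsetSum _ h', ?_⟩
  rw [integral_finsetSum _ h']
  simp only [integral_const_mul]

theorem continuous_I {M T : Type} [TopologicalSpace T] (Λ : Ms M) {f : M → T → ℝ}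
    (h : ∀ a, Continuous (f a)) : Continuous fun t => I Λ fun a => f a t := by
  simp only [I_eq_sum]
  exact continuous_finsetSum _ fun a _ => (h a).const_mul _

theorem oneStep_of_fact (hp : Even p) (hp2 : 2 ≤ p) {Ω : Type} [MeasurableSpace Ω] (P : Measure Ω)
    [IsProbabilityMeasure P] (τ : Ω → ℝ) (F : Ω → Fin p → Bool → ℝ) {θ' : Ω → Diluted.Inter p}
    (hθ' : Measurable θ') {Θ : Ms (Diluted.Inter p)} (hΘ : Θ.Prob) (hmap : P.map θ' = toMeas Θ)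
    {ρ : ℝ} (hρ : 0 ≤ ρ)
    (hae : ∀ᵐ ω ∂P, ∀ s : Fin p → Bool, |τ ω * ∏ ℓ, F ω ℓ (s ℓ)| ≤ 1 ∧
      Real.exp (θ' ω s) ≤ gg (τ ω) (F ω) s ∧ gg (τ ω) (F ω) s ≤ ρ * Real.exp (θ' ω s))
    (m : ℕ → ℝ) (hm : ∀ n, 0 ≤ m n) (E : ((Bool → ℝ) → ℝ) → ℝ)
    (hfact : ∀ (n : ℕ) (φ : Fin p → (Bool → ℝ) → ℝ), (∀ ℓ, Continuous (φ ℓ)) →
      Integrable (fun ω => (-τ ω) ^ n * ∏ ℓ, φ ℓ (F ω ℓ)) P ∧
      ∫ ω, (-τ ω) ^ n * ∏ ℓ, φ ℓ (F ω ℓ) ∂P = m n * ∏ ℓ, E (φ ℓ)) :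
    OneStep (expI Θ) ρ := by
  intro θ h0 h1 j S _ X T T' hX hT hT'
  have hp0 : (0 : ℝ) < p := by positivity
  have hp1 : (0 : ℝ) ≤ (p : ℝ) - 1 := by
    have : (2 : ℝ) ≤ p := by exact_mod_cast hp2
    linarith
  -- the weights as integrals
  set w : (Fin p → Ms (Nest (S → ℝ) j)) → Diluted.Inter p → ℝ :=
    fun U g => pS θ (X * clz (fun s => Real.exp (g s)) U) with hw
  have hint : ∀ U, Integrable (fun ω => w U (θ' ω)) P := fun U =>
    Integrable.comp_measurable (g := w U) (hmap ▸ integrable_toMeas Θ (w U)) hθ'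
  have hW : ∀ U, pS θ (X * CL (expI Θ) U) = ∫ ω, w U (θ' ω) ∂P := fun U => by
    rw [pS_mul_CL, expI, I_map, ← integral_toMeas hΘ.1, ← hmap,
      integral_map hθ'.aemeasurable (hmap ▸ (integrable_toMeas Θ (w U)).aestronglyMeasurable)]
  have hinc : ∀ᵐ ω ∂P, Inc 0 (gg (τ ω) (F ω)) ∧ Inc 0 fun s => Real.exp (θ' ω s) :=
    hae.mono fun ω h => ⟨inc_gg fun s => (h s).1, fun s => ⟨(Real.exp_pos _).le,
      (h s).2.1.trans (inc_gg (fun s => (h s).1) s).2⟩⟩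
  have hgood : ∀ {g : Diluted.Inter p} {U : Fin p → Ms (Nest (S → ℝ) j)}, Inc 0 g →
      (∀ ℓ, GoodM U01 (U ℓ)) → GoodM U01 (clz g U) := fun hg hU =>
    (goodM_clz_inc hg hU).mono fun _ => Inc.u01 le_rfl
  have hL : ∀ ℓ, GoodM U01 (lastSlot p T T' ℓ) := lastSlot_prop hT hT'
  rw [mul_add, mul_smul_comm, mul_smul_comm, pS_add, pS_smul, pS_smul, hW, hW, hW]
  have hρ' : 0 ≤ ρ ^ (θ ^ j) := Real.rpow_nonneg hρ _
  rcases (pS_nonneg (θ := θ) hX).eq_or_lt with hz | hz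
  · have hzero : ∀ U : Fin p → Ms (Nest (S → ℝ) j), (∀ ℓ, GoodM U01 (U ℓ)) →
        ∫ ω, w U (θ' ω) ∂P = 0 := fun U hU => by
      refine integral_eq_zero_of_ae (hinc.mono fun ω h => ?_)
      exact le_antisymm ((pS_mul_le h0.le hX (hgood h.2 hU)).trans hz.ge)
        (pS_nonneg (hX.mulU (hgood h.2 hU)))
    rw [hzero _ fun _ => hT, hzero _ fun _ => hT', hzero _ hL]
    simp
  refine le_of_forall_pos_le_add fun η' hη' => ?_
  set η := η' / (2 * pS θ X) with hη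
  have hη0 : 0 < η := by positivity
  obtain ⟨Λ, hΛ, hsupp, hrep⟩ := rep_signed h0 h1 hη0 hX hz
  set φ : (ℕ × (Nest (S → ℝ) j →* ℝ)) → Ms (Nest (S → ℝ) j) → (Bool → ℝ) → ℝ :=
    fun a U f => I (mapM (aff f) U) a.2 with hφ
  have hφc : ∀ a, Λ.coeff a ≠ 0 → ∀ U, Continuous (φ a U) := fun a ha U => by
    simp only [hφ, I_mapM]
    refine continuous_I U fun c => (hsupp a ha).2 aff (fun x σ => ?_) c
    unfold aff
    fun_prop
  set R : (Fin p → Ms (Nest (S → ℝ) j)) → Ω → ℝ :=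
    fun U ω => I Λ fun a => (-τ ω) ^ a.1 * ∏ ℓ, φ a (U ℓ) (F ω ℓ) with hR
  have hRi : ∀ U, Integrable (R U) P ∧
      ∫ ω, R U ω ∂P = I Λ fun a => m a.1 * ∏ ℓ, E (φ a (U ℓ)) := fun U => by
    have := integrable_I (P := P) Λ
      (f := fun a ω => (-τ ω) ^ a.1 * ∏ ℓ, φ a (U ℓ) (F ω ℓ))
      fun a ha => (hfact a.1 (fun ℓ => φ a (U ℓ)) fun ℓ => hφc a ha _).1
    refine ⟨this.1, this.2.trans (I_congr fun a ha => ?_)⟩
    exact (hfact a.1 (fun ℓ => φ a (U ℓ)) fun ℓ => hφc a ha _).2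
  have hkey : ∀ U : Fin p → Ms (Nest (S → ℝ) j), (∀ ℓ, GoodM U01 (U ℓ)) → ∀ᵐ ω ∂P,
      w U (θ' ω) ≤ pS θ X * (1 + η - R U ω) ∧
        pS θ X * (1 - η - R U ω) ≤ ρ ^ (θ ^ j) * w U (θ' ω) := fun U hU => by
    filter_upwards [hae, hinc] with ω h h'
    have a1 := hrep _ (goodM_VV (fun s => (h s).1) hU)
    rw [← clz_gg, GP] at a1
    have a2 : (I Λ fun a => I (VV (τ ω) (F ω) U) a.2) = R U ω := by
      refine I_congr fun a ha => ?_
      rw [I_VV _ _ hU, (hsupp a ha).1]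
    rw [a2, abs_le] at a1
    have a3 : w U (θ' ω) ≤ 1 ^ (θ ^ j) * pS θ (X * clz (gg (τ ω) (F ω)) U) :=
      pS_clz_le h0.le h'.2 h'.1 zero_le_one (fun s => by rw [one_mul]; exact (h s).2.1) hX hU
    have a4 : pS θ (X * clz (gg (τ ω) (F ω)) U) ≤ ρ ^ (θ ^ j) * w U (θ' ω) :=
      pS_clz_le h0.le h'.1 h'.2 hρ (fun s => (h s).2.2) hX hU
    rw [Real.one_rpow, one_mul] at a3
    constructor
    · refine a3.trans ?_
      rw [← div_le_iff₀' hz]
      linarith [a1.1]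
    · refine le_trans ?_ a4
      rw [← le_div_iff₀' hz]
      linarith [a1.2]
  have hup : ∀ U : Fin p → Ms (Nest (S → ℝ) j), (∀ ℓ, GoodM U01 (U ℓ)) →
      ∫ ω, w U (θ' ω) ∂P ≤ pS θ X * (1 + η - ∫ ω, R U ω ∂P) := fun U hU => by
    refine (integral_mono_ae (hint U) (((integrable_const _).sub (hRi U).1).const_mul _)
      ((hkey U hU).mono fun ω h => h.1)).trans (le_of_eq ?_)
    rw [integral_const_mul]
    simp only [Pi.sub_apply]
    rw [integral_sub (integrable_const _) (hRi U).1]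
    simp
  have hlow : ∀ U : Fin p → Ms (Nest (S → ℝ) j), (∀ ℓ, GoodM U01 (U ℓ)) →
      pS θ X * (1 - η - ∫ ω, R U ω ∂P) ≤ ρ ^ (θ ^ j) * ∫ ω, w U (θ' ω) ∂P := fun U hU => by
    rw [← integral_const_mul]
    refine le_trans (le_of_eq ?_) (integral_mono_ae
      (((integrable_const (1 - η)).sub (hRi U).1).const_mul (pS θ X)) ((hint U).const_mul _)
      ((hkey U hU).mono fun ω h => h.2))
    rw [integral_const_mul]
    simp only [Pi.sub_apply]
    rw [integral_sub (integrable_const _) (hRi U).1]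
    simp
  have hy : ∫ ω, R (lastSlot p T T') ω ∂P ≤
      1 / (p : ℝ) * ∫ ω, R (fun _ => T) ω ∂P + ((p : ℝ) - 1) / p * ∫ ω, R (fun _ => T') ω ∂P := by
    rw [(hRi _).2, (hRi _).2, (hRi _).2, ← I_const_mul, ← I_const_mul, ← I_add_fun]
    refine I_mono hΛ fun a _ => ?_
    have e : ∀ ℓ, E (φ a (lastSlot p T T' ℓ)) = lastSlot p (E (φ a T)) (E (φ a T')) ℓ := fun ℓ => by
      unfold lastSlot; split_ifs <;> rfl
    simp only [e, Finset.prod_const, Finset.card_univ, Fintype.card_fin]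
    have := mul_le_mul_of_nonneg_left (young hp hp2 (E (φ a T)) (E (φ a T'))) (hm a.1)
    linarith
  have b1 := mul_le_mul_of_nonneg_left (hup _ fun _ => hT) (by positivity : 0 ≤ 1 / (p : ℝ))
  have b2 := mul_le_mul_of_nonneg_left (hup _ fun _ => hT') (div_nonneg hp1 hp0.le)
  have b3 := hlow _ hL
  have b4 := mul_le_mul_of_nonneg_left hy hz.le
  have b5 : pS θ X * η = η' / 2 := by rw [hη]; field_simp
  have b6 : ((p : ℝ) - 1) / p = 1 - 1 / p := by field_simp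
  rw [b6] at b2 b4 ⊢
  nlinarith

end Crest.Agent.R141.Fac
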