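import Mathlib

/-!
Row 141, task R141-Fac, part C: consequences of the independence structure.
-/

set_option autoImplicit false

namespace Crest.Agent.R141.Fac

open MeasureTheory ProbabilityTheory Filter

variable {p : ℕ} {Ω : Type} [MeasurableSpace Ω] {P : Measure Ω} [IsProbabilityMeasure P]
  {b : Ω → ℝ} {f : Fin p → Ω → Bool → ℝ} {ν : Measure (Bool → ℝ)}

theorem joint_law (hb : Measurable b) (hf : ∀ ℓ, Measurable (f ℓ)) (hi : iIndepFun f P)
    (hν : ∀ ℓ, P.map (f ℓ) = ν) (hbf : IndepFun b (fun ω ℓ => f ℓ ω) P) :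
    P.map (fun ω => (b ω, fun ℓ => f ℓ ω)) = (P.map b).prod (Measure.pi fun _ : Fin p => ν) := by
  rw [(indepFun_iff_map_prod_eq_prod_map_map hb.aemeasurable
    (measurable_pi_lambda _ hf).aemeasurable).1 hbf,
    (iIndepFun_iff_map_fun_eq_pi_map fun ℓ => (hf ℓ).aemeasurable).1 hi]
  simp only [hν]

theorem joint_law_perm (hb : Measurable b) (hf : ∀ ℓ, Measurable (f ℓ)) (hi : iIndepFun f P)
    (hν : ∀ ℓ, P.map (f ℓ) = ν) (hbf : IndepFun b (fun ω ℓ => f ℓ ω) P) (π : Equiv.Perm (Fin p)) :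
    P.map (fun ω => (b ω, fun ℓ => f (π ℓ) ω)) = P.map (fun ω => (b ω, fun ℓ => f ℓ ω)) := by
  rw [joint_law hb hf hi hν hbf]
  refine joint_law (f := fun ℓ => f (π ℓ)) hb (fun ℓ => hf _) (hi.precomp π.injective)
    (fun ℓ => hν _) ?_
  exact hbf.comp (φ := id) (ψ := fun (F : Fin p → Bool → ℝ) ℓ => F (π ℓ)) measurable_id
    (measurable_pi_lambda _ fun ℓ => measurable_pi_apply _)

/-- Truncation at level `K`. -/
def trunc (K : ℝ) (x : Bool → ℝ) : Bool → ℝ := fun s => max (-K) (min (x s) K)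

theorem continuous_trunc (K : ℝ) : Continuous (trunc K) := by
  unfold trunc; fun_prop

theorem trunc_eq {K : ℝ} {x : Bool → ℝ} (h : ∀ s, |x s| ≤ K) : trunc K x = x := by
  funext s
  have := abs_le.1 (h s)
  rw [trunc, min_eq_left this.2, max_eq_right this.1]

theorem integrable_comp_trunc [IsFiniteMeasure ν] {K : ℝ} (hK : 0 ≤ K) {φ : (Bool → ℝ) → ℝ}
    (hφ : Continuous φ) : Integrable (fun x => φ (trunc K x)) ν := by
  obtain ⟨C, hC⟩ := (isCompact_closedBall (0 : Bool → ℝ) K).exists_bound_of_continuousOn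
    hφ.continuousOn
  refine Integrable.of_bound (hφ.comp (continuous_trunc K)).aestronglyMeasurable C
    (Eventually.of_forall fun x => hC _ ?_)
  rw [mem_closedBall_zero_iff, pi_norm_le_iff_of_nonneg hK]
  intro s
  rw [Real.norm_eq_abs, abs_le, trunc]
  exact ⟨le_max_left _ _, max_le (by linarith) (min_le_right _ _)⟩

theorem exists_trunc (hp : 0 < p) (hb : Measurable b) (hf : ∀ ℓ, Measurable (f ℓ))
    (hi : iIndepFun f P) (hν : ∀ ℓ, P.map (f ℓ) = ν) (hbf : IndepFun b (fun ω ℓ => f ℓ ω) P)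
    (h1 : ∀ᵐ ω ∂P, ∀ s : Fin p → Bool, |b ω * ∏ ℓ, f ℓ ω (s ℓ)| < 1) :
    ∃ K : ℝ, 0 ≤ K ∧ ∀ᵐ ω ∂P, ∀ s : Fin p → Bool,
      b ω * ∏ ℓ, trunc K (f ℓ ω) (s ℓ) = b ω * ∏ ℓ, f ℓ ω (s ℓ) := by
  have hνp : IsProbabilityMeasure ν :=
    hν ⟨0, hp⟩ ▸ Measure.isProbabilityMeasure_map (hf _).aemeasurable
  by_cases h0 : ∀ᵐ β ∂(P.map b), β = 0
  · refine ⟨0, le_rfl, (ae_of_ae_map hb.aemeasurable h0).mono fun ω h s => ?_⟩
    rw [h, zero_mul, zero_mul]
  have hm : MeasurableSet {z : ℝ × (Fin p → Bool → ℝ) |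
      ∀ s : Fin p → Bool, |z.1 * ∏ ℓ, z.2 ℓ (s ℓ)| < 1} := by
    rw [Set.ofPred_forall]
    exact MeasurableSet.iInter fun s => measurableSet_lt (by fun_prop) measurable_const
  have h2 := (ae_map_iff (hb.prodMk (measurable_pi_lambda _ hf)).aemeasurable hm).2 h1
  rw [joint_law hb hf hi hν hbf] at h2
  obtain ⟨β, hβ0, hβ⟩ := ((not_eventually.1 h0).and_eventually
    (Measure.ae_ae_of_ae_prod h2)).exists
  have hβ1 : 0 < |β| := abs_pos.2 hβ0
  set K : ℝ := max 1 (1 / |β|) with hK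
  have hK1 : 1 ≤ K := le_max_left _ _
  have hK2 : 1 ≤ |β| * K ^ p := by
    have a1 : K ≤ K ^ p := le_self_pow₀ hK1 hp.ne'
    have a2 : 1 / |β| ≤ K := le_max_right _ _
    rw [div_le_iff₀ hβ1] at a2
    nlinarith
  set A : Set (Bool → ℝ) := {x | ¬ ∀ s, |x s| ≤ K} with hA
  have hnull : (Measure.pi fun _ : Fin p => ν) (Set.univ.pi fun _ => A) = 0 := by
    refine measure_mono_null (fun F hF => ?_) (ae_iff.1 hβ)
    have a1 : ∀ ℓ, ∃ s, K < |F ℓ s| := fun ℓ => by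
      simpa only [hA, Set.mem_ofPred_eq, not_forall, not_le] using hF ℓ (Set.mem_univ _)
    choose s hs using a1
    intro h
    have a2 := h s
    rw [abs_mul, Finset.abs_prod] at a2
    have a3 : ∏ _ℓ : Fin p, K ≤ ∏ ℓ, |F ℓ (s ℓ)| :=
      Finset.prod_le_prod (fun _ _ => by linarith) fun ℓ _ => (hs ℓ).le
    rw [Finset.prod_const, Finset.card_univ, Fintype.card_fin] at a3
    nlinarith
  rw [Measure.pi_pi, Finset.prod_const, pow_eq_zero_iff (by simpa using hp.ne')] at hnull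
  have h3 : ∀ ℓ, ∀ᵐ ω ∂P, ∀ s, |f ℓ ω s| ≤ K := fun ℓ =>
    ae_of_ae_map (p := fun x : Bool → ℝ => ∀ s, |x s| ≤ K) (hf ℓ).aemeasurable
      (by rw [hν ℓ]; exact ae_iff.2 hnull)
  refine ⟨K, by linarith, (ae_all_iff.2 h3).mono fun ω h s => ?_⟩
  simp only [trunc_eq (h _)]

theorem fact_integral (hp : 0 < p) (hb : Measurable b) (hf : ∀ ℓ, Measurable (f ℓ))
    (hi : iIndepFun f P) (hν : ∀ ℓ, P.map (f ℓ) = ν) (hbf : IndepFun b (fun ω ℓ => f ℓ ω) P)
    {u : ℝ → ℝ} (hu : Measurable u) (hu' : Integrable (fun ω => u (b ω)) P) {K : ℝ} (hK : 0 ≤ K)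
    (φ : Fin p → (Bool → ℝ) → ℝ) (hφ : ∀ ℓ, Continuous (φ ℓ)) :
    Integrable (fun ω => u (b ω) * ∏ ℓ, φ ℓ (trunc K (f ℓ ω))) P ∧
      ∫ ω, u (b ω) * ∏ ℓ, φ ℓ (trunc K (f ℓ ω)) ∂P =
        (∫ ω, u (b ω) ∂P) * ∏ ℓ, ∫ x, φ ℓ (trunc K x) ∂ν := by
  have hνp : IsProbabilityMeasure ν :=
    hν ⟨0, hp⟩ ▸ Measure.isProbabilityMeasure_map (hf _).aemeasurable
  have hm := hb.prodMk (measurable_pi_lambda _ hf)
  have h1 : Integrable u (P.map b) :=
    (integrable_map_measure hu.aestronglyMeasurable hb.aemeasurable).2 hu'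
  have h2 : Integrable (fun z : ℝ × (Fin p → Bool → ℝ) => u z.1 * ∏ ℓ, φ ℓ (trunc K (z.2 ℓ)))
      (P.map fun ω => (b ω, fun ℓ => f ℓ ω)) := by
    rw [joint_law hb hf hi hν hbf]
    exact h1.mul_prod (Integrable.fintype_prod (f := fun ℓ x => φ ℓ (trunc K x))
      fun ℓ => integrable_comp_trunc hK (hφ ℓ))
  refine ⟨h2.comp_measurable hm, ?_⟩
  rw [← integral_map hm.aemeasurable h2.aestronglyMeasurable, joint_law hb hf hi hν hbf,
    integral_prod_mul u fun F : Fin p → Bool → ℝ => ∏ ℓ, φ ℓ (trunc K (F ℓ)),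
    integral_fintype_prod_eq_prod fun ℓ x => φ ℓ (trunc K x),
    integral_map hb.aemeasurable hu.aestronglyMeasurable]

end Crest.Agent.R141.Fac
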