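import Mathlib

/-!
Row 141, task R141-Fac, part D: damping and discretisation.
-/

set_option autoImplicit false

namespace Crest.Agent.R141.Fac

open MeasureTheory Filter Topology

def clamp (x : ℝ) : ℝ := max (-1) (min x 1)

theorem clamp_mem (x : ℝ) : -1 ≤ clamp x ∧ clamp x ≤ 1 :=
  ⟨le_max_left _ _, max_le (by norm_num) (min_le_right _ _)⟩

theorem clamp_eq {x : ℝ} (h : |x| < 1) : clamp x = x := by
  have := abs_lt.1 h
  rw [clamp, min_eq_left this.2.le, max_eq_right this.1.le]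

theorem continuous_clamp : Continuous clamp := by unfold clamp; fun_prop

/-- The damped factor. -/
noncomputable def dmp (t x : ℝ) : ℝ := (1 + t * clamp x) / 2

theorem dmp_mem {t : ℝ} (h0 : 0 ≤ t) (h1 : t ≤ 1) (x : ℝ) : (1 - t) / 2 ≤ dmp t x ∧ dmp t x ≤ 1 := by
  have := clamp_mem x
  unfold dmp
  constructor <;> nlinarith [this.1, this.2]

theorem measurable_dmp (t : ℝ) : Measurable (dmp t) := by
  have := continuous_clamp
  unfold dmp
  fun_prop

theorem mediant {k t x y : ℝ} (hk : 0 ≤ k) (ht : 0 < t) (hx : 0 < x) (hy : 0 < y) :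
    |Real.log ((k + t * x) / 2) - Real.log ((k + t * y) / 2)| ≤ |Real.log x - Real.log y| := by
  wlog h : y ≤ x generalizing x y
  · rw [abs_sub_comm, abs_sub_comm (Real.log x)]
    exact this hy hx (le_of_not_ge h)
  have a1 : 0 < (k + t * x) / 2 := by positivity
  have a2 : 0 < (k + t * y) / 2 := by positivity
  rw [abs_of_nonneg (sub_nonneg.2 (Real.log_le_log a2 (by nlinarith))),
    abs_of_nonneg (sub_nonneg.2 (Real.log_le_log hy h)), sub_le_sub_iff,
    ← Real.log_mul a1.ne' hy.ne', ← Real.log_mul hx.ne' a2.ne']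
  exact Real.log_le_log (by positivity) (by nlinarith)

theorem exists_damp {ι Ω : Type} [Fintype ι] [MeasurableSpace Ω] {P : Measure Ω} (s₀ : ι)
    {θ u : Ω → ι → ℝ} (hθ : Measurable θ) (hu : Measurable u)
    (hint : Integrable (fun ω => ‖θ ω‖) P)
    (hae : ∀ᵐ ω ∂P, ∀ s, |u ω s| < 1 ∧
      θ ω s - θ ω s₀ = Real.log (1 + u ω s) - Real.log (1 + u ω s₀)) {ε : ℝ} (hε : 0 < ε) :
    ∃ t : ℝ, 0 < t ∧ t < 1 ∧
      Integrable (fun ω => ‖fun s => θ ω s - θ ω s₀ -
        (Real.log (dmp t (u ω s)) - Real.log (dmp t (u ω s₀)))‖) P ∧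
      ∫ ω, ‖fun s => θ ω s - θ ω s₀ -
        (Real.log (dmp t (u ω s)) - Real.log (dmp t (u ω s₀)))‖ ∂P ≤ ε := by
  set tt : ℕ → ℝ := fun n => 1 - 1 / ((n : ℝ) + 1) / 2 with htt
  have ht : ∀ n, 0 < tt n ∧ tt n < 1 := fun n => by
    have a1 : 0 < 1 / ((n : ℝ) + 1) := by positivity
    have a2 : 1 / ((n : ℝ) + 1) ≤ 1 := by
      rw [div_le_one (by positivity)]; linarith [(Nat.cast_nonneg n : (0 : ℝ) ≤ n)]
    simp only [htt]
    constructor <;> linarith
  have hlim : Tendsto tt atTop (𝓝 1) := by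
    have := (tendsto_one_div_add_atTop_nhds_zero_nat (𝕜 := ℝ).div_const 2).const_sub 1
    simpa [htt] using this
  set D : ℕ → Ω → ℝ := fun n ω => ‖fun s => θ ω s - θ ω s₀ -
    (Real.log (dmp (tt n) (u ω s)) - Real.log (dmp (tt n) (u ω s₀)))‖ with hD
  have hmeas : ∀ n, AEStronglyMeasurable (D n) P := fun n => by
    have := measurable_dmp (tt n)
    refine Measurable.aestronglyMeasurable (Measurable.norm (measurable_pi_lambda _ fun s => ?_))
    fun_prop
  have hbd : ∀ n, ∀ᵐ ω ∂P, ‖D n ω‖ ≤ 4 * ‖θ ω‖ := fun n => hae.mono fun ω h => by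
    rw [hD, norm_norm, pi_norm_le_iff_of_nonneg (by positivity)]
    intro s
    have e : ∀ s, dmp (tt n) (u ω s) = (1 - tt n + tt n * (1 + u ω s)) / 2 := fun s => by
      rw [dmp, clamp_eq (h s).1]; ring
    have a1 := mediant (sub_nonneg.2 (ht n).2.le) (ht n).1
      (x := 1 + u ω s) (y := 1 + u ω s₀) (by linarith [(abs_lt.1 (h s).1).1])
      (by linarith [(abs_lt.1 (h s₀).1).1])
    rw [← e, ← e, ← (h s).2] at a1
    have a2 : |θ ω s - θ ω s₀| ≤ 2 * ‖θ ω‖ := by
      have b1 : |θ ω s| ≤ ‖θ ω‖ := norm_le_pi_norm (θ ω) s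
      have b2 : |θ ω s₀| ≤ ‖θ ω‖ := norm_le_pi_norm (θ ω) s₀
      linarith [abs_sub (θ ω s) (θ ω s₀)]
    rw [Real.norm_eq_abs]
    linarith [abs_sub (θ ω s - θ ω s₀)
      (Real.log (dmp (tt n) (u ω s)) - Real.log (dmp (tt n) (u ω s₀)))]
  have hconv : ∀ᵐ ω ∂P, Tendsto (fun n => D n ω) atTop (𝓝 0) := hae.mono fun ω h => by
    rw [hD, ← tendsto_zero_iff_norm_tendsto_zero, tendsto_pi_nhds]
    intro s
    have a1 : ∀ s, Tendsto (fun n => Real.log (dmp (tt n) (u ω s))) atTop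
        (𝓝 (Real.log (1 + u ω s) - Real.log 2)) := fun s => by
      have b1 : 0 < 1 + u ω s := by linarith [(abs_lt.1 (h s).1).1]
      rw [← Real.log_div b1.ne' two_ne_zero]
      refine Tendsto.log ?_ (by positivity)
      simp only [dmp, clamp_eq (h s).1]
      simpa using ((hlim.mul_const (u ω s)).const_add 1).div_const 2
    have a2 := ((a1 s).sub (a1 s₀)).const_sub (θ ω s - θ ω s₀)
    rw [(h s).2] at a2 ⊢
    simpa using a2
  have := tendsto_integral_of_dominated_convergence _ hmeas (hint.const_mul 4) hbd hconv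
  rw [integral_zero] at this
  obtain ⟨n, hn⟩ := (this.eventually (ge_mem_nhds hε)).exists
  exact ⟨tt n, (ht n).1, (ht n).2, (hint.const_mul 4).mono' (hmeas n) (hbd n), hn⟩

/-- Rounding down to the grid `δ ℤ`. -/
noncomputable def disc (δ x : ℝ) : ℝ := δ * ⌊x / δ⌋

theorem disc_mem {δ : ℝ} (h : 0 < δ) (x : ℝ) : x - δ ≤ disc δ x ∧ disc δ x ≤ x := by
  have a1 := Int.floor_le (x / δ)
  have a2 := Int.lt_floor_add_one (x / δ)
  rw [le_div_iff₀ h] at a1
  rw [div_lt_iff₀ h] at a2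
  unfold disc
  constructor <;> linarith

theorem measurable_disc (δ : ℝ) : Measurable (disc δ) := by
  unfold disc
  exact measurable_const.mul ((measurable_of_countable fun k : ℤ => (k : ℝ)).comp
    (Int.measurable_floor.comp (measurable_id.div_const δ)))

theorem finite_disc {δ : ℝ} (h : 0 < δ) (a b : ℝ) : (disc δ '' Set.Icc a b).Finite := by
  refine ((Set.finite_Icc ⌊a / δ⌋ ⌊b / δ⌋).image fun k : ℤ => δ * k).subset ?_
  rintro _ ⟨x, hx, rfl⟩
  exact ⟨⌊x / δ⌋, ⟨Int.floor_le_floor (div_le_div_of_nonneg_right hx.1 h.le),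
    Int.floor_le_floor (div_le_div_of_nonneg_right hx.2 h.le)⟩, rfl⟩

end Crest.Agent.R141.Fac
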