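import Crest.Agent.R141.Pre
import Crest.Agent.R141.Fac_B
import Crest.Agent.R141.Fac_C
import Crest.Agent.R141.Fac_D

/-!
Row 141, task R141-Fac: from the factorised law to a finite model.  Uses `rep_signed` (Dec.lean) and ToMeas.lean as
black boxes.  Work files `R141/Fac_*.lean`.

PLAN.  Take `(Ω, P, a, b, f)` from `HasFactorization`; `θ ω s = log (a (1 + b Π f))`.  For `0 < t < 1` let
`g_t ω s = (1 + t * clamp (b Π_ℓ f_ℓ (s ℓ)))/2 ∈ [(1-t)/2, 1]` (clamp to `[-1,1]`, a.s. inactive), `θ' ω s = δ ⌊log (g_t ω s)/δ⌋`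
(finite range, measurable, `e^{-δ} g_t ≤ exp θ' ≤ g_t`), `c ω = θ ω s₀ - log (g_t ω s₀)`.  A.s.
`|log (g_t s) - log (g_t s₀)| ≤ |θ s - θ s₀| ≤ 2 supNorm θ` (`1 + t u = (1-t) + t (1+u)`, mediant inequality) and it
tends to `θ s - θ s₀` as `t → 1`; dominated convergence gives the `L¹` bound.  `Θ` from `exists_map_eq_toMeas`.
`Symm`: `(b, f ∘ π)` has the law of `(b, f)` (`iIndepFun_iff_map_fun_eq_pi_map`, `indepFun_iff_map_prod_eq_prod_map_map`,
`IdentDistrib`), `θ'` is an equivariant measurable function of `(b, f)`; `map_toMeas`, `toMeas_injective`.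
`OneStep` with `e^δ ≤ 1 + ε`: if `pS θ X = 0` trivial.  If `b = 0` a.s. all `g_t = 1/2`.  Otherwise the `f_ℓ` are a.s. bounded
(if `P(|b| ≥ κ) > 0` and `P(‖f‖ > K) > 0` with `κ K^p ≥ 1`, independence gives an event of positive probability
contradicting `|b Π f| < 1`).  For good `ω` and slots `T`: `clz (g_t ω) T = mapM (fun v σ => (1 - v σ)/2) V`,
`V = dirac (det (fun _ => -t b)) * ∏ ℓ, mapM (aff (f ℓ)) (T ℓ)`, `aff f x σ = f true * x σ + f false * (1 - x σ)`, `|leaves of V| ≤ 1`, so by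
`rep_signed` `GP θ X (clz (g_t ω) T)` is within `η` of `I Λ (fun a => (-t b)^n Π_ℓ φ_{a, T ℓ} (f ℓ))`, `φ_{a,T} f = I (mapM (aff f) T) a.2`
continuous in `f`, hence bounded measurable on the essential range.  Expectation: `t^n E(-b)^n Π_ℓ E φ_{a,T ℓ}(f 0)`, and Young's
inequality `p x y^(p-1) ≤ x^p + (p-1) y^p` for all real `x, y` (`p` even).  Compare `exp θ'` with `g_t` pointwise using monotonicity and
homogeneity (`pre_map2M_mono`, `pre_const_mul`); the quantities for `exp θ'` are functions of the finite-range `θ' ω`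
(`integral_toMeas`, `integral_map`), so no measurability of `ω ↦ pS (X * clz (g_t ω) T)` is needed.  Let `η → 0`.
-/

set_option autoImplicit false

namespace Crest.Agent.R141

open Crest.Agent.R153 Crest.Agent.R153.Ms Crest.Agent.R153.Nest
open Crest.ProbabilityR MeasureTheory Filter

theorem exists_finite_model {p : ℕ} (hp : Even p) (hp2 : 2 ≤ p) (μ : Measure (Diluted.Inter p))
    [IsProbabilityMeasure μ] (hμ : Integrable (fun θ => Diluted.supNorm θ) μ)
    (hfac : Diluted.HasFactorization p μ) {ε : ℝ} (hε : 0 < ε) :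
    ∃ (Ω : Type) (_ : MeasurableSpace Ω) (P : Measure Ω) (_ : IsProbabilityMeasure P)
      (θ θ' : Ω → Diluted.Inter p) (c : Ω → ℝ) (Θ : Ms (Diluted.Inter p)) (c₀ : ℝ),
      Measurable θ ∧ Measurable θ' ∧ Measurable c ∧ Integrable c P ∧ P.map θ = μ ∧
      P.map θ' = toMeas Θ ∧ Θ.Prob ∧ 0 < c₀ ∧ (expI Θ).Supp (Inc c₀) ∧ Symm (expI Θ) ∧
      OneStep (expI Θ) (1 + ε) ∧
      ∫ ω, Diluted.supNorm (fun s => θ ω s - θ' ω s - c ω) ∂P ≤ ε := by
  obtain ⟨Ω, mΩ, P, hP, a, b, f, ha, hb, hf, hi, hid, hbf, hae, hmom, hmap⟩ := hfac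
  have hp0 : 0 < p := by omega
  have hν : ∀ ℓ, P.map (f ℓ) = P.map (f ⟨0, hp0⟩) := fun ℓ => (hid ℓ).map_eq
  set u : Ω → Diluted.Inter p := fun ω s => b ω * ∏ ℓ, f ℓ ω (s ℓ) with hu
  have hum : Measurable u := measurable_pi_lambda _ fun s => by fun_prop
  set θ : Ω → Diluted.Inter p := fun ω s => Real.log (a ω * (1 + u ω s)) with hθ
  have hθm : Measurable θ := measurable_pi_lambda _ fun s => by fun_prop
  have hint : Integrable (fun ω => ‖θ ω‖) P := by
    rw [← hmap] at hμ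
    simp only [supNorm_eq_norm] at hμ
    exact hμ.comp_measurable hθm
  obtain ⟨t, ht0, ht1, hD1, hD2⟩ := Fac.exists_damp (fun _ => true) hθm hum hint
    (hae.mono fun ω h s => ⟨h.2 s, by
      have e : ∀ s, θ ω s = Real.log (a ω) + Real.log (1 + u ω s) := fun s =>
        Real.log_mul h.1.ne' (by linarith [(abs_lt.1 (h.2 s)).1] : 0 < 1 + u ω s).ne'
      rw [e, e]; ring⟩) (half_pos hε)
  set δ : ℝ := min (Real.log (1 + ε)) (ε / 2) with hδ
  have hδ0 : 0 < δ := lt_min (Real.log_pos (by linarith)) (half_pos hε)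
  have hδ1 : Real.exp δ ≤ 1 + ε :=
    (Real.le_log_iff_exp_le (by linarith)).1 (min_le_left _ _)
  have hG := Fac.dmp_mem ht0.le ht1.le
  have hG0 : ∀ x, 0 < Fac.dmp t x := fun x => lt_of_lt_of_le (by linarith) (hG x).1
  set ψ : ℝ → ℝ := fun x => Fac.disc δ (Real.log (Fac.dmp t x)) with hψ
  have hψm : Measurable ψ :=
    (Fac.measurable_disc δ).comp (Real.measurable_log.comp (Fac.measurable_dmp t))
  have hψ1 : ∀ x, Real.exp (ψ x) ≤ Fac.dmp t x := fun x =>
    (Real.le_log_iff_exp_le (hG0 x)).1 (Fac.disc_mem hδ0 _).2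
  have hψ2 : ∀ x, Fac.dmp t x ≤ Real.exp δ * Real.exp (ψ x) := fun x => by
    rw [← Real.exp_add, ← Real.log_le_iff_le_exp (hG0 x)]
    linarith [(Fac.disc_mem hδ0 (Real.log (Fac.dmp t x))).1]
  set θ' : Ω → Diluted.Inter p := fun ω s => ψ (u ω s) with hθ'
  have hθ'm : Measurable θ' := measurable_pi_lambda _ fun s => by fun_prop
  have hfin : (Set.range θ').Finite := by
    refine (Set.Finite.pi' fun _ : Fin p → Bool =>
      Fac.finite_disc hδ0 (Real.log ((1 - t) / 2)) 0).subset ?_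
    rintro _ ⟨ω, rfl⟩ s
    exact ⟨_, ⟨Real.log_le_log (by linarith) (hG _).1, Real.log_nonpos (hG0 _).le (hG _).2⟩, rfl⟩
  obtain ⟨Θ, hΘ, hΘs, hΘm⟩ := exists_map_eq_toMeas P hθ'm hfin
  have hlm : Measurable fun ω => Real.log (Fac.dmp t (u ω fun _ => true)) := by
    have := Fac.measurable_dmp t
    fun_prop
  refine ⟨Ω, mΩ, P, hP, θ, θ', fun ω => θ ω (fun _ => true) - Real.log (Fac.dmp t (u ω fun _ => true)),
    Θ, Real.exp (-δ) * ((1 - t) / 2), hθm, hθ'm, by fun_prop, ?_, hmap, hΘm, hΘ,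
    mul_pos (Real.exp_pos _) (by linarith), ?_, ?_, ?_, ?_⟩
  · refine Integrable.sub (hint.mono' (by fun_prop : Measurable _).aestronglyMeasurable
      (Eventually.of_forall fun ω => norm_le_pi_norm (θ ω) _)) ?_
    refine Integrable.of_bound hlm.aestronglyMeasurable (-Real.log ((1 - t) / 2))
      (Eventually.of_forall fun ω => ?_)
    rw [Real.norm_eq_abs, abs_of_nonpos (Real.log_nonpos (hG0 _).le (hG _).2), neg_le_neg_iff]
    exact Real.log_le_log (by linarith) (hG _).1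
  · refine hΘs.map ?_
    rintro _ ⟨ω, rfl⟩ s
    refine ⟨?_, (hψ1 _).trans (hG _).2⟩
    rw [Real.exp_neg, inv_mul_le_iff₀ (Real.exp_pos _)]
    exact (hG _).1.trans (hψ2 _)
  · intro π
    have hσ : Measurable fun (g : Diluted.Inter p) (s : Fin p → Bool) => g fun ℓ => s (π ℓ) :=
      measurable_pi_lambda _ fun s => measurable_pi_apply _
    have key : Ms.map (fun (g : Diluted.Inter p) (s : Fin p → Bool) => g fun ℓ => s (π ℓ)) Θ = Θ := by
      refine toMeas_injective (hΘ.1.map _) hΘ.1 ?_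
      rw [← map_toMeas hΘ.1 hσ, ← hΘm, Measure.map_map hσ hθ'm]
      set Ψ : ℝ × (Fin p → Bool → ℝ) → Diluted.Inter p :=
        fun z s => ψ (z.1 * ∏ ℓ, z.2 ℓ (s ℓ)) with hΨ
      have hΨm : Measurable Ψ := measurable_pi_lambda _ fun s => by fun_prop
      have e1 : θ' = Ψ ∘ fun ω => (b ω, fun ℓ => f ℓ ω) := rfl
      have e2 : ((fun (g : Diluted.Inter p) (s : Fin p → Bool) => g fun ℓ => s (π ℓ)) ∘ θ') =
          Ψ ∘ fun ω => (b ω, fun ℓ => f (π.symm ℓ) ω) := by
        funext ω s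
        simp only [Function.comp, hθ', hu, hΨ]
        rw [← Equiv.prod_comp π fun ℓ => f (π.symm ℓ) ω (s ℓ)]
        simp only [Equiv.symm_apply_apply]
      rw [e2, e1, ← Measure.map_map hΨm (hb.prodMk (measurable_pi_lambda _ fun ℓ => hf _)),
        ← Measure.map_map hΨm (hb.prodMk (measurable_pi_lambda _ fun ℓ => hf _)),
        Fac.joint_law_perm hb hf hi hν hbf π.symm]
    conv_rhs => rw [← key]
    rw [expI, expI, Ms.map_map, Ms.map_map]
  · obtain ⟨K, hK, hKa⟩ := Fac.exists_trunc hp0 hb hf hi hν hbf (hae.mono fun ω h => h.2)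
    have hmom' : ∀ n : ℕ, Integrable (fun ω => (-(t * b ω)) ^ n) P ∧
        0 ≤ ∫ ω, (-(t * b ω)) ^ n ∂P := fun n => by
      rcases Nat.eq_zero_or_pos n with rfl | hn
      · simp
      · simp only [← mul_neg, mul_pow, integral_const_mul]
        exact ⟨(hmom n hn).1.const_mul _, mul_nonneg (by positivity) (hmom n hn).2⟩
    refine Fac.oneStep_of_fact hp hp2 P (fun ω => t * b ω) (fun ω ℓ => Fac.trunc K (f ℓ ω)) hθ'm hΘ
      hΘm (by linarith) ?_ (fun n => ∫ ω, (-(t * b ω)) ^ n ∂P) (fun n => (hmom' n).2)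
      (fun φ => ∫ x, φ (Fac.trunc K x) ∂(P.map (f ⟨0, hp0⟩))) fun n φ hφ =>
      Fac.fact_integral hp0 hb hf hi hν hbf (u := fun β => (-(t * β)) ^ n) (by fun_prop)
        (hmom' n).1 hK φ hφ
    filter_upwards [hae, hKa] with ω h h' s
    have e : Fac.gg (t * b ω) (fun ℓ => Fac.trunc K (f ℓ ω)) s = Fac.dmp t (u ω s) := by
      rw [Fac.gg, Fac.dmp, Fac.clamp_eq (h.2 s), mul_assoc, h' s]
    rw [e, mul_assoc, h' s, abs_mul, abs_of_pos ht0]
    refine ⟨mul_le_one₀ ht1.le (abs_nonneg _) (h.2 s).le, hψ1 _, (hψ2 _).trans ?_⟩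
    exact mul_le_mul_of_nonneg_right hδ1 (Real.exp_pos _).le
  · simp only [supNorm_eq_norm]
    refine (integral_mono_of_nonneg (Eventually.of_forall fun ω => norm_nonneg _)
      (hD1.add (integrable_const δ)) (Eventually.of_forall fun ω => ?_)).trans ?_
    · refine (pi_norm_le_iff_of_nonneg (add_nonneg (norm_nonneg _) hδ0.le)).2 fun s => ?_
      have a1 := norm_le_pi_norm (fun s => θ ω s - θ ω (fun _ => true) -
        (Real.log (Fac.dmp t (u ω s)) - Real.log (Fac.dmp t (u ω fun _ => true)))) s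
      have a2 := Fac.disc_mem hδ0 (Real.log (Fac.dmp t (u ω s)))
      rw [Real.norm_eq_abs, abs_le] at a1 ⊢
      simp only [hθ', hψ]
      constructor <;> linarith [a1.1, a1.2, a2.1, a2.2]
    · simp only [Pi.add_apply]
      rw [integral_add hD1 (integrable_const δ)]
      simp only [integral_const, probReal_univ, one_smul]
      linarith [min_le_right (Real.log (1 + ε)) (ε / 2)]

end Crest.Agent.R141
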