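import Crest.Agent.R141.Defs

/-!
Row 141, task R141-Fac, part A: algebra of factorised clauses.
-/

set_option autoImplicit false

namespace Crest.Agent.R141.Fac

open Crest.Agent.R153 Crest.Agent.R153.Ms Crest.Agent.R153.Nest
open Crest.ProbabilityR

variable {S : Type} {j p : ℕ}

theorem mapM_prod_tens {ι A B : Type} [Fintype ι] [DecidableEq ι] [CommMonoid A] [CommMonoid B]
    (h : ι → A → B) {T : ι → Ms (Nest A j)} (hT : ∀ i, GoodM Any (T i)) :
    mapM (fun x : ι → A => ∏ i, h i (x i)) (tens T) = ∏ i, mapM (h i) (T i) := by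
  have key : ∀ s : Finset ι,
      GoodM (fun x : ι → A => ∀ i ∉ s, x i = 1)
        (∏ i ∈ s, mapM (fun a => (Pi.mulSingle i a : ι → A)) (T i)) ∧
      mapM (fun x : ι → A => ∏ i ∈ s, h i (x i))
        (∏ i ∈ s, mapM (fun a => (Pi.mulSingle i a : ι → A)) (T i)) = ∏ i ∈ s, mapM (h i) (T i) := by
    intro s
    induction s using Finset.induction_on with
    | empty =>
      refine ⟨goodM_one fun _ _ => rfl, ?_⟩
      simp only [Finset.prod_empty]
      exact mapM_one _ rfl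
    | insert i s hi ih =>
      have g1 : GoodM (fun x : ι → A => ∀ i', i' ≠ i → x i' = 1)
          (mapM (fun a => (Pi.mulSingle i a : ι → A)) (T i)) :=
        (hT i).mapM fun a _ i' hi' => by simp [hi']
      rw [Finset.prod_insert hi, Finset.prod_insert hi]
      refine ⟨GoodM.mul ?_ g1 ih.1, ?_⟩
      · intro x y hx hy i' hi'
        simp only [Finset.mem_insert, not_or] at hi'
        simp [hx _ hi'.1, hy _ hi'.2]
      · rw [← ih.2, mul_eq_map2M, mapM_map2M, map2M_mapM_left, mul_eq_map2M, map2M_mapM_left,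
          map2M_mapM_right]
        refine map2M_congr (fun a y _ hy => ?_) (hT i) ih.1
        rw [Finset.prod_insert hi]
        congr 1
        · simp [hy i hi]
        · refine Finset.prod_congr rfl fun i' hi' => ?_
          have : i' ≠ i := fun e => hi (e ▸ hi')
          simp [this]
  exact (key Finset.univ).2

/-- The affine extension of a function of one spin. -/
def aff (f : Bool → ℝ) (x : S → ℝ) : S → ℝ := fun σ => f true * x σ + f false * (1 - x σ)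

/-- The factorised clause. -/
noncomputable def gg (τ : ℝ) (F : Fin p → Bool → ℝ) : Diluted.Inter p :=
  fun s => (1 + τ * ∏ ℓ, F ℓ (s ℓ)) / 2

theorem mlin_gg (τ : ℝ) (F : Fin p → Bool → ℝ) (x : Fin p → ℝ) :
    mlin (gg τ F) x = (1 + τ * ∏ ℓ, (F ℓ true * x ℓ + F ℓ false * (1 - x ℓ))) / 2 := by
  have h1 : ∑ s : Fin p → Bool, ∏ ℓ, (F ℓ (s ℓ) * qq (x ℓ) (s ℓ)) =
      ∏ ℓ, (F ℓ true * x ℓ + F ℓ false * (1 - x ℓ)) := by
    rw [← Fintype.piFinset_univ, ← Finset.prod_univ_sum (fun _ => Finset.univ)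
      fun ℓ b => F ℓ b * qq (x ℓ) b]
    simp [qq]
  rw [← h1, mlin, Finset.mul_sum]
  conv_rhs => rw [← sum_prod_qq x]
  rw [← Finset.sum_add_distrib, Finset.sum_div]
  refine Finset.sum_congr rfl fun s _ => ?_
  rw [Finset.prod_mul_distrib, gg]
  ring

theorem inc_gg {τ : ℝ} {F : Fin p → Bool → ℝ} (h : ∀ s : Fin p → Bool, |τ * ∏ ℓ, F ℓ (s ℓ)| ≤ 1) :
    Inc 0 (gg τ F) := fun s => by
  have := abs_le.1 (h s)
  unfold gg
  constructor <;> linarith [this.1, this.2]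

/-- The signed nest attached to a factorised clause. -/
noncomputable def VV (τ : ℝ) (F : Fin p → Bool → ℝ) (T : Fin p → Ms (Nest (S → ℝ) j)) :
    Ms (Nest (S → ℝ) j) :=
  mapM (fun x : Fin p → S → ℝ => (∏ ℓ, aff (F ℓ) (x ℓ)) * fun _ => -τ) (tens T)

theorem clz_gg (τ : ℝ) (F : Fin p → Bool → ℝ) (T : Fin p → Ms (Nest (S → ℝ) j)) :
    clz (gg τ F) T = mapM (fun v σ => (1 - v σ) / 2) (VV τ F T) := by
  rw [VV, mapM_mapM, clz]
  congr 1
  funext x σ
  rw [mlin_gg]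
  simp only [Pi.mul_apply, Finset.prod_apply, aff]
  ring

theorem goodM_VV {τ : ℝ} {F : Fin p → Bool → ℝ}
    (h : ∀ s : Fin p → Bool, |τ * ∏ ℓ, F ℓ (s ℓ)| ≤ 1) {T : Fin p → Ms (Nest (S → ℝ) j)}
    (hT : ∀ ℓ, GoodM U01 (T ℓ)) : GoodM (fun v => ∀ σ, |v σ| ≤ 1) (VV τ F T) := by
  refine (goodM_tens (P := fun _ => U01) hT).mapM fun x hx σ => ?_
  have := mlin_mem (inc_gg h) (x := fun ℓ => x ℓ σ) fun ℓ => hx ℓ σ
  rw [mlin_gg] at this
  simp only [Pi.mul_apply, Finset.prod_apply, aff]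
  rw [abs_le]
  constructor <;> linarith [this.1, this.2]

theorem I_prod_hom {M ι : Type} [CommMonoid M] (χ : M →* ℝ) (s : Finset ι) (X : ι → Ms M) :
    I (∏ i ∈ s, X i) χ = ∏ i ∈ s, I (X i) χ := by
  classical
  induction s using Finset.induction_on with
  | empty => simp
  | insert i s hi ih =>
    rw [Finset.prod_insert hi, Finset.prod_insert hi, I_mul_hom _ _ _ χ.map_mul, ih]

theorem I_VV (τ : ℝ) (F : Fin p → Bool → ℝ) {T : Fin p → Ms (Nest (S → ℝ) j)}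
    (hT : ∀ ℓ, GoodM U01 (T ℓ)) (χ : Nest (S → ℝ) j →* ℝ) :
    I (VV τ F T) χ = χ (det (fun _ => -τ) j) * ∏ ℓ, I (mapM (aff (F ℓ)) (T ℓ)) χ := by
  have e : VV τ F T = (∏ ℓ, mapM (aff (F ℓ)) (T ℓ)) * dirac (det (fun _ => -τ) j) := by
    rw [mul_dirac_det, ← mapM_prod_tens (fun ℓ => aff (F ℓ)) fun ℓ => (hT ℓ).any, mapM_mapM, VV]
  rw [e, I_mul_hom _ _ _ χ.map_mul, I_prod_hom, I_dirac, mul_comm]

variable [Fintype S] {θ : ℝ}

theorem pS_mul_CL (X : Ms (Nest (S → ℝ) j)) (Γ : Ms (Diluted.Inter p))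
    (T : Fin p → Ms (Nest (S → ℝ) j)) :
    pS θ (X * CL Γ T) = I Γ fun g => pS θ (X * clz g T) := by
  rw [pS_mul_right, CL, I_bind]
  congr 1
  funext g
  rw [pS_mul_right]

theorem mlin_mono {g g' : Diluted.Inter p} {ρ : ℝ} (h : ∀ s, g s ≤ ρ * g' s) {x : Fin p → ℝ}
    (hx : ∀ ℓ, R01 (x ℓ)) : mlin g x ≤ ρ * mlin g' x := by
  rw [mlin, mlin, Finset.mul_sum]
  refine Finset.sum_le_sum fun s _ => ?_
  rw [← mul_assoc]
  exact mul_le_mul_of_nonneg_right (h s) (Finset.prod_nonneg fun ℓ _ => qq_nonneg (hx ℓ) _)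

theorem pS_clz_le (h0 : 0 ≤ θ) {g g' : Diluted.Inter p} (hg : Inc 0 g) (hg' : Inc 0 g') {ρ : ℝ}
    (hρ : 0 ≤ ρ) (h : ∀ s, g s ≤ ρ * g' s) {X : Ms (Nest (S → ℝ) j)} (hX : GoodM U01 X)
    {T : Fin p → Ms (Nest (S → ℝ) j)} (hT : ∀ ℓ, GoodM U01 (T ℓ)) :
    pS θ (X * clz g T) ≤ ρ ^ (θ ^ j) * pS θ (X * clz g' T) := by
  have hW : GoodM U01 (X * clz g' T) :=
    hX.mulU ((goodM_clz_inc hg' hT).mono fun _ => Inc.u01 le_rfl)
  rw [pS, pS, ← pre_const_mul sumv_nonneg hρ hW, clz, clz, mul_eq_map2M, mul_eq_map2M,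
    map2M_mapM_right, map2M_mapM_right]
  refine pre_map2M_mono h0 (fun a x ha hx => ?_) (fun a x ha hx => ?_) hX
    (goodM_tens (P := fun _ => U01) hT)
  · exact Finset.sum_nonneg fun σ _ => mul_nonneg (ha σ).1 (mlin_mem hg fun ℓ => hx ℓ σ).1
  · rw [sumv, sumv, Finset.mul_sum]
    refine Finset.sum_le_sum fun σ _ => ?_
    have := mul_le_mul_of_nonneg_left (mlin_mono h fun ℓ => hx ℓ σ) (ha σ).1
    simp only [Pi.mul_apply]
    linarith

theorem young_aux (n : ℕ) {a b : ℝ} (ha : 0 ≤ a) (hb : 0 ≤ b) :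
    ((n : ℝ) + 1) * (a * b ^ n) ≤ a ^ (n + 1) + n * b ^ (n + 1) := by
  induction n with
  | zero => simp
  | succ n ih =>
    have h1 : 0 ≤ (a ^ (n + 1) - b ^ (n + 1)) * (a - b) := by
      rcases le_total a b with h | h
      · exact mul_nonneg_of_nonpos_of_nonpos (sub_nonpos.2 (pow_le_pow_left₀ ha h _))
          (sub_nonpos.2 h)
      · exact mul_nonneg (sub_nonneg.2 (pow_le_pow_left₀ hb h _)) (sub_nonneg.2 h)
    have h2 := mul_le_mul_of_nonneg_left ih hb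
    push_cast
    simp only [pow_succ] at *
    nlinarith

theorem young (hp : Even p) (hp2 : 2 ≤ p) (x y : ℝ) :
    ∏ ℓ, lastSlot p x y ℓ ≤ 1 / (p : ℝ) * x ^ p + ((p : ℝ) - 1) / p * y ^ p := by
  obtain ⟨n, rfl⟩ : ∃ n, p = n + 1 := ⟨p - 1, by omega⟩
  have e : ∏ ℓ, lastSlot (n + 1) x y ℓ = x * y ^ n := by
    rw [Fin.prod_univ_castSucc, mul_comm]
    congr 1
    · simp [lastSlot]
    · rw [Finset.prod_congr rfl (g := fun _ => y) fun ℓ _ => by simp [lastSlot]]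
      simp
  have h := young_aux n (abs_nonneg x) (abs_nonneg y)
  rw [hp.pow_abs, hp.pow_abs, ← abs_pow, ← abs_mul] at h
  have h2 := le_abs_self (x * y ^ n)
  have h3 : (0 : ℝ) < n + 1 := by positivity
  rw [e]
  push_cast
  rw [add_sub_cancel_right, div_mul_eq_mul_div, div_mul_eq_mul_div, ← add_div, le_div_iff₀ h3]
  nlinarith

end Crest.Agent.R141.Fac
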