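import Crest.Agent.R141.Defs
import Crest.Agent.R153.C

/-!
Row 141, task R141-Gue: interpolation bound for the finite model.  Adapt `R153/C.lean` (do not edit R153).

PLAN.  `ann_eq_mom`: `fieldN H N j * CL Γ (fun _ => slotB (spin N) j)^M = Ms.map (det · j) (Zm Γ H N M)`
(`Ms.map (det · j)` is multiplicative; `tens` of averages of `dirac (det ·)` is the average over index tuples,
`mlin_spin`), and `val_det`.
`guerra'`: `B = slotB (spin N) j`, `E = slotE _ ξ`, `Mix = (1/p) • CL Γ (fun _ => B) + ((p-1)/p) • CL Γ (fun _ => E)`,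
`C₁ = CL Γ (lastSlot p B E)`, `ρ' = ρ^(θ^j)`, `F = fieldN H N j`.  Hybrid: `pS (F * Mix^M) ≤ ρ'^M pS (F * C₁^M)`.  With
`t = α p N`: `Σ' poi t M ρ'^M pS (F C₁^M) = e^{t(ρ'-1)} Σ' poi (tρ') M pS (F C₁^M) ≤ e^{t(ρ'-1)} Σ' poi t M pS (F C₁^M)`
(`poi_split_pS`, `pS_mul_le`).  Left: `poi_split_pS`, `CL Γ (fun _ => E)` acts by scalars
(`pS (X * (CL Γ fun _ => E)^i) = pS X * edgeW^i`, `pre_tensor`), `hasSum_poi_mul_pow`.  Right: `C₁` is linear in the
last slot, so it is the average over sites `v` of the pull-backs of the one-site factor; induction on `N` as in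
`site_factor` (the field of site `v` goes with the factors of site `v`).
-/

set_option autoImplicit false

namespace Crest.Agent.R141

open Crest.Agent.R153 Crest.Agent.R153.Ms Crest.Agent.R153.Nest
open Crest.ProbabilityR MeasureTheory Filter

namespace Gue

open Crest.Agent.R153.PartC

variable {S S' A B L ι : Type} {j p : ℕ} {θ : ℝ}

theorem mapM_prod [CommMonoid A] [CommMonoid B] (f : A → B) (h1 : f 1 = 1)
    (hf : ∀ a b, f (a * b) = f a * f b) (s : Finset ι) (X : ι → Ms (Nest A j)) :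
    mapM f (∏ i ∈ s, X i) = ∏ i ∈ s, mapM f (X i) := by
  classical
  induction s using Finset.induction_on with
  | empty => simpa using mapM_one f h1
  | insert i s hi ih => rw [Finset.prod_insert hi, Finset.prod_insert hi, mapM_mul f hf, ih]

theorem tens_map [Fintype ι] [DecidableEq ι] [CommMonoid A] [CommMonoid B] (f : A → B)
    (h1 : f 1 = 1) (hf : ∀ a b, f (a * b) = f a * f b) (T : ι → Ms (Nest A j)) :
    tens (fun i => mapM f (T i)) = mapM (fun x i => f (x i)) (tens T) := by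
  rw [tens, tens, mapM_prod _ (by funext i; exact h1) (fun a b => by funext i; exact hf _ _)]
  refine Finset.prod_congr rfl fun i _ => ?_
  rw [mapM_mapM, mapM_mapM]
  congr 1
  funext a i'
  by_cases h : i' = i
  · subst h; simp
  · simp [h, h1]

theorem mapM_bind {M : Type} (f : A → B) (ν : Ms M) (κ : M → Ms (Nest A j)) :
    mapM f (Ms.bind ν κ) = Ms.bind ν fun c => mapM f (κ c) := ext_I fun g => by simp

theorem pull_CL (π : S → S') (Γ : Ms (Diluted.Inter p)) (T : Fin p → Ms (Nest (S' → ℝ) j)) :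
    pull π (CL Γ T) = CL Γ fun ℓ => pull π (T ℓ) := by
  rw [CL, CL, pull, mapM_bind]
  congr 1
  funext g
  simp only [clz, pull]
  rw [tens_map (fun (x : S' → ℝ) (σ : S) => x (π σ)) rfl (fun _ _ => rfl), mapM_mapM, mapM_mapM]

theorem pS_mul_edge [Fintype S] {c : ℝ} {Γ : Ms (Diluted.Inter p)} {H : Ms (Bool → ℝ)}
    (hM : Model c Γ H) {X : Ms (Nest (S → ℝ) j)} (hX : GoodM U01 X)
    {ξ : Ms (Nest ℝ j)} (hξ : GoodM R01 ξ) :
    pS θ (X * CL Γ fun _ => slotE S ξ) = pS θ X * edgeW θ Γ ξ := by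
  have e : X * CL Γ (fun _ => slotE S ξ) = Ms.bind Γ fun g => X * clz g fun _ => slotE S ξ :=
    ext_I fun f => by
      simp only [I_mul, CL, I_bind]
      rw [I_comm]
  rw [e, pS, pre_bind, edgeW, ← I_const_mul]
  refine hM.suppΓ.I_congr fun g hg => ?_
  simp only [clz, slotE]
  rw [tens_map (fun (r : ℝ) (_ : S) => r) rfl (fun _ _ => rfl), mapM_mapM, mul_eq_map2M,
    map2M_mapM_right]
  refine pre_tensor (P := U01) (Q := fun x : Fin p → ℝ => ∀ ℓ, R01 (x ℓ)) sumv_nonneg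
    (fun x hx => hM.pos.le.trans (mlin_mem hg hx).1) (fun a x _ _ => ?_) hX
    (goodM_tens fun _ => hξ)
  simp [sumv, Finset.sum_mul]

theorem pS_mul_edge_pow [Fintype S] {c : ℝ} {Γ : Ms (Diluted.Inter p)} {H : Ms (Bool → ℝ)}
    (hM : Model c Γ H) {X : Ms (Nest (S → ℝ) j)} (hX : GoodM U01 X)
    {ξ : Ms (Nest ℝ j)} (hξ : GoodM R01 ξ) (i : ℕ) :
    pS θ (X * (CL Γ fun _ => slotE S ξ) ^ i) = pS θ X * edgeW θ Γ ξ ^ i := by
  induction i with
  | zero => simp
  | succ i ih =>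
    rw [pow_succ, ← mul_assoc,
      pS_mul_edge hM (hX.mulU ((hM.goodM_CL fun _ => hξ.slotE).powU i)) hξ, ih, pow_succ,
      mul_assoc]

theorem tens_avg [Fintype ι] [DecidableEq ι] [CommMonoid A] [Fintype L] (β : L → A) :
    tens (fun _ : ι => avg fun l => dirac (det (β l) j)) =
      avg fun idx : ι → L => dirac (det (fun i => β (idx i)) j) := by
  simp only [tens, mapM_avg, mapM_dirac, map_det]
  simp only [avg, Finset.prod_smul, Fintype.prod_sum, ← dirac_prod, ← det_prod,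
    Finset.prod_const, Finset.card_univ, Fintype.card_fun, Nat.cast_pow, inv_pow]
  congr 2
  funext idx
  rw [Finset.univ_prod_mulSingle fun i => β (idx i)]

theorem mapDet_prod [CommMonoid A] (s : Finset ι) (X : ι → Ms A) :
    Ms.map (fun x => det x j) (∏ i ∈ s, X i) = ∏ i ∈ s, Ms.map (fun x => det x j) (X i) := by
  classical
  induction s using Finset.induction_on with
  | empty => rw [Finset.prod_empty, Finset.prod_empty, ← dirac_one, map_dirac, det_one, dirac_one]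
  | insert i s hi ih =>
    rw [Finset.prod_insert hi, Finset.prod_insert hi, Ms.map_mul _ fun a b => det_mul a b j, ih]

theorem mapDet_pow [CommMonoid A] (X : Ms A) (n : ℕ) :
    Ms.map (fun x => det x j) (X ^ n) = Ms.map (fun x => det x j) X ^ n := by
  simpa using mapDet_prod (j := j) (Finset.range n) fun _ => X

theorem hybrid' [Fintype S] {A C : Ms (Nest (S → ℝ) j)} {r : ℝ} (hr : 0 ≤ r) (hA : GoodM U01 A)
    (hC : GoodM U01 C) (h : ∀ X, GoodM U01 X → pS θ (X * A) ≤ r * pS θ (X * C)) (M : ℕ) :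
    ∀ X, GoodM U01 X → pS θ (X * A ^ M) ≤ r ^ M * pS θ (X * C ^ M) := by
  induction M with
  | zero => intro X _; simp
  | succ M ih =>
    intro X hX
    calc pS θ (X * A ^ (M + 1)) = pS θ ((X * A ^ M) * A) := by rw [pow_succ, mul_assoc]
      _ ≤ r * pS θ ((X * A ^ M) * C) := h _ (hX.mulU (hA.powU M))
      _ = r * pS θ ((X * C) * A ^ M) := by rw [mul_right_comm]
      _ ≤ r * (r ^ M * pS θ ((X * C) * C ^ M)) :=
          mul_le_mul_of_nonneg_left (ih _ (hX.mulU hC)) hr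
      _ = r ^ (M + 1) * pS θ (X * C ^ (M + 1)) := by rw [pow_succ' C, mul_assoc X]; ring

/-- Poissonised value in the presence of the background `X` -/
noncomputable def Psi [Fintype S] (θ x : ℝ) (X A : Ms (Nest (S → ℝ) j)) : ℝ :=
  ∑' M : ℕ, poi x M * pS θ (X * A ^ M)

theorem abs_le_bg [Fintype S] (hθ : 0 ≤ θ) {X A : Ms (Nest (S → ℝ) j)} (hX : GoodM U01 X)
    (hA : GoodM U01 A) (M : ℕ) : |pS θ (X * A ^ M)| ≤ pS θ X := by
  rw [abs_of_nonneg (pS_nonneg (hX.mulU (hA.powU M)))]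
  exact pS_mul_le hθ hX (hA.powU M)

theorem Psi_split [Fintype S] (hθ : 0 ≤ θ) {x y : ℝ} (hx : 0 ≤ x) (hy : 0 ≤ y)
    {X A B C : Ms (Nest (S → ℝ) j)} (hX : GoodM U01 X) (hA : GoodM U01 A) (hB : GoodM U01 B)
    (h : (x + y) • C = x • A + y • B) :
    Psi θ (x + y) X C = ∑' i, poi x i * ∑' i', poi y i' * pS θ (X * A ^ i * B ^ i') := by
  rw [← (poi_split_pS hθ hx hy hX hA hB).tsum_eq, Psi]
  refine tsum_congr fun M => ?_
  rw [← h, smul_pow, mul_smul_comm, pS_smul, poi]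
  ring

theorem Psi_anti [Fintype S] (hθ : 0 ≤ θ) {x y : ℝ} (hx : 0 ≤ x) (hy : 0 ≤ y)
    {X A : Ms (Nest (S → ℝ) j)} (hX : GoodM U01 X) (hA : GoodM U01 A) :
    Psi θ (x + y) X A ≤ Psi θ x X A := by
  rw [Psi_split hθ hx hy hX hA hA (add_smul _ _ _), Psi]
  have b : ∀ i, 0 ≤ ∑' i', poi y i' * pS θ (X * A ^ i * A ^ i') ∧
      ∑' i', poi y i' * pS θ (X * A ^ i * A ^ i') ≤ pS θ (X * A ^ i) := fun i => by
    have g := hX.mulU (hA.powU i)
    refine ⟨tsum_nonneg fun i' => mul_nonneg (poi_nonneg hy _) (pS_nonneg (g.mulU (hA.powU _))), ?_⟩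
    have := hasSum_le (fun i' => mul_le_mul_of_nonneg_left (pS_mul_le hθ g (hA.powU i'))
      (poi_nonneg hy i')) (summable_poi_mul hy (abs_le_bg hθ g hA)).hasSum
      ((hasSum_poi y).mul_right _)
    rwa [one_mul] at this
  refine Summable.tsum_le_tsum (fun i => mul_le_mul_of_nonneg_left (b i).2 (poi_nonneg hx i))
    (summable_poi_mul hx (B := pS θ X) fun i => ?_) (summable_poi_mul hx (abs_le_bg hθ hX hA))
  rw [abs_of_nonneg (b i).1]
  exact (b i).2.trans (pS_mul_le hθ hX (hA.powU i))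

/-- the cavity factor attached to the site `v` -/
noncomputable def cav (Γ : Ms (Diluted.Inter p)) (ξ : Ms (Nest ℝ j)) (n : ℕ) (v : Fin n) :
    Ms (Nest ((Fin n → Bool) → ℝ) j) := CL Γ (lastSlot p (dirac (det (spin n v) j)) (slotE _ ξ))

theorem pull_lastSlot (π : S → S') (Γ : Ms (Diluted.Inter p)) (s : S' → ℝ) (ξ : Ms (Nest ℝ j)) :
    pull π (CL Γ (lastSlot p (dirac (det s j)) (slotE _ ξ))) =
      CL Γ (lastSlot p (dirac (det (fun σ => s (π σ)) j)) (slotE _ ξ)) := by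
  rw [pull_CL]
  congr 1
  funext ℓ
  unfold lastSlot
  split_ifs
  · exact pull_slotE _ _
  · rw [pull, mapM_dirac, map_det]

theorem pull_mapDet (π : S → S') (H : Ms A) (w : A → S' → ℝ) :
    pull π (Ms.map (fun a => det (w a) j) H) = Ms.map (fun a => det (fun σ => w a (π σ)) j) H :=
  ext_I fun f => by simp [pull]

theorem fieldN_succ (H : Ms (Bool → ℝ)) (n : ℕ) :
    fieldN H (n + 1) j = pull (fun σ : Fin (n + 1) → Bool => σ 0) (Ms.map (fun w => det w j) H) *
      pull (fun σ : Fin (n + 1) → Bool => Fin.tail σ) (fieldN H n j) := by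
  rw [fieldN, Fin.prod_univ_succ, pull_mapDet _ H fun w => w, fieldN, pull,
    mapM_prod _ rfl fun _ _ => rfl]
  congr 1
  refine Finset.prod_congr rfl fun i _ => ?_
  rw [← pull, pull_mapDet]
  rfl

theorem site_factor' (hθ : 0 ≤ θ) {c : ℝ} {Γ : Ms (Diluted.Inter p)} {H : Ms (Bool → ℝ)}
    (hM : Model c Γ H) {ξ : Ms (Nest ℝ j)} (hξ : GoodM R01 ξ) {t : ℝ} (ht : 0 ≤ t) (n : ℕ) :
    ∃ A : Ms (Nest ((Fin n → Bool) → ℝ) j), GoodM U01 A ∧ (n : ℝ) • A = ∑ v, cav Γ ξ n v ∧
      Psi θ (t * n) (fieldN H n j) A = (∑' J : ℕ, poi t J * pS θ (siteN Γ H ξ J)) ^ n := by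
  have hs : GoodM U01 (CL Γ (lastSlot p (dirac (det spin1 j)) (slotE Bool ξ))) :=
    hM.goodM_CL (lastSlot_prop (goodM_dirac (good_det U01_spin1 j)) hξ.slotE)
  have hH : GoodM U01 (Ms.map (fun w => det w j) H) :=
    ⟨hM.probH.map _, hM.suppH.map fun _ hw => good_det (hw.u01 hM.pos.le) j⟩
  induction n with
  | zero =>
    refine ⟨1, goodM_one U01_one, by simp, ?_⟩
    have h1 : pS θ (1 : Ms (Nest ((Fin 0 → Bool) → ℝ) j)) = 1 := by
      rw [← dirac_one, ← det_one, pS_dirac, vS, val_det _ (sumv_nonneg _ U01_one)]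
      simp [sumv]
    simp only [Psi, fieldN, Finset.univ_eq_empty, Finset.prod_empty, one_pow, h1, mul_one,
      pow_zero]
    exact (hasSum_poi _).tsum_eq
  | succ n ih =>
    obtain ⟨A, hA, hAe, hAP⟩ := ih
    set K := pull (fun σ : Fin (n + 1) → Bool => σ 0)
      (CL Γ (lastSlot p (dirac (det spin1 j)) (slotE Bool ξ))) with hK
    set T := pull (fun σ : Fin (n + 1) → Bool => Fin.tail σ) A with hT
    have hKg : GoodM U01 K := good_pull _ hs
    have hTg : GoodM U01 T := good_pull _ hA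
    have hn : (0 : ℝ) < (n : ℝ) + 1 := by positivity
    have hmix : GoodM U01 ((1 - 1 / ((n : ℝ) + 1)) • T + (1 / ((n : ℝ) + 1)) • K) :=
      goodM_mix hTg hKg (by positivity)
        (by rw [div_le_one hn]; linarith [Nat.cast_nonneg (α := ℝ) n])
    have e1 : ∀ c : ℝ, (c + c * n) • ((1 - 1 / ((n : ℝ) + 1)) • T + (1 / ((n : ℝ) + 1)) • K) =
        c • K + (c * n) • T := fun c => by
      rw [smul_add, smul_smul, smul_smul, add_comm (_ • T)]
      congr 2 <;> field_simp <;> ring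
    refine ⟨_, hmix, ?_, ?_⟩
    · have e2 := e1 1
      rw [one_mul, one_smul] at e2
      push_cast
      rw [add_comm (n : ℝ) 1] at e2 ⊢
      rw [e2, Fin.sum_univ_succ, hT, pull, ← mapM_smul, hAe, mapM_sum]
      congr 1
      · rw [hK, pull_lastSlot]
        rfl
      · refine Finset.sum_congr rfl fun v _ => ?_
        rw [← pull, cav, pull_lastSlot]
        rfl
    · have e3 : t * ((n + 1 : ℕ) : ℝ) = t + t * n := by push_cast; ring
      rw [e3, Psi_split hθ ht (by positivity) (hM.goodM_fieldN _ j) hKg hTg (e1 t), pow_succ',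
        ← hAP]
      have e4 : ∀ i i' : ℕ, pS θ (fieldN H (n + 1) j * K ^ i * T ^ i') =
          pS θ (siteN Γ H ξ i) * pS θ (fieldN H n j * A ^ i') := fun i i' => by
        rw [← pS_pull_cons n (hM.goodM_siteN hξ i) ((hM.goodM_fieldN n j).mulU (hA.powU i')),
          siteN, pull_mul, pull_mul, pull_pow, pull_pow, fieldN_succ, ← hK, ← hT]
        congr 1
        ring
      simp only [e4, Psi]
      rw [← tsum_mul_right]
      refine tsum_congr fun i => ?_
      rw [mul_assoc, ← tsum_mul_left (a := pS θ _)]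
      congr 1
      refine tsum_congr fun i' => ?_
      ring

theorem tens_lastSlot [CommMonoid A] (m : ℕ) (T T' : Ms (Nest A j)) :
    tens (lastSlot (m + 1) T T') =
      (∏ i : Fin m, mapM (fun a => Pi.mulSingle i.castSucc a) T') *
        mapM (fun a => (Pi.mulSingle (Fin.last m) a : Fin (m + 1) → A)) T := by
  rw [tens, Fin.prod_univ_castSucc]
  congr 1
  · refine Finset.prod_congr rfl fun i _ => ?_
    simp [lastSlot]
  · simp [lastSlot]

theorem sum_cav (m : ℕ) (Γ : Ms (Diluted.Inter (m + 1))) (ξ : Ms (Nest ℝ j)) (n : ℕ)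
    (hn : 1 ≤ n) :
    ∑ v, cav Γ ξ n v = (n : ℝ) • CL Γ (lastSlot (m + 1) (slotB (spin n) j) (slotE _ ξ)) := by
  have hn' : (n : ℝ) ≠ 0 := by positivity
  refine ext_I fun f => ?_
  simp only [cav, CL, clz, I_sum, I_smul, I_bind, tens_lastSlot, slotB, mapM_avg, mul_avg, I_avg,
    Fintype.card_fin, I_div_const, I_sum_fun]
  field_simp

end Gue

open Gue Crest.Agent.R153.PartC

theorem ann_eq_mom {p : ℕ} {c α θ : ℝ} {Γ : Ms (Diluted.Inter p)} {H : Ms (Bool → ℝ)}
    (hM : Model c Γ H) (j N : ℕ) (hN : 1 ≤ N) : ann θ j α Γ H N = mom (θ ^ j) α Γ H N := by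
  refine tsum_congr fun M => ?_
  congr 1
  have e : fieldN H N j * CL Γ (fun _ => slotB (spin N) j) ^ M =
      Ms.map (fun x => det x j) (Zm Γ H N M) := by
    rw [Zm, Ms.map_mul _ fun a b => det_mul a b j, mapDet_prod, mapDet_pow, fieldN]
    congr 2
    · funext i; rw [Ms.map_map]
    · refine ext_I fun f => ?_
      simp only [CL, clz, slotB, tens_avg, I_bind, I_mapM, I_avg, I_dirac, I_map, map_det, spin,
        mlin_spin]
  have hs : (Zm Γ H N M).Supp U01 := by
    refine Supp.mul (P := U01) (Q := U01) ?_ ?_ U01_mul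
    · refine Finset.prod_induction _ (fun X : Ms ((Fin N → Bool) → ℝ) => X.Supp U01)
        (fun _ _ a b => a.mul b U01_mul) (supp_one U01_one) fun i _ => ?_
      exact hM.suppH.map fun w hw σ => hw.u01 hM.pos.le _
    · refine Supp.pow ?_ U01_one U01_mul M
      exact hM.suppΓ.bind fun g hg => supp_avg fun idx =>
        supp_dirac fun σ => hg.u01 hM.pos.le _
  rw [e, pS_eq, I_map]
  exact hs.I_congr fun x hx => val_det _ (sumv_nonneg x hx) j

theorem guerra' {p : ℕ} (hp : 1 ≤ p) {c α θ ρ : ℝ} {Γ : Ms (Diluted.Inter p)} {H : Ms (Bool → ℝ)}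
    (hM : Model c Γ H) (hρ : 1 ≤ ρ) (hO : OneStep Γ ρ) (h0 : 0 < θ) (h1 : θ ≤ 1) (hα : 0 ≤ α)
    {j : ℕ} {ξ : Ms (Nest ℝ j)} (hξ : GoodM R01 ξ) (N : ℕ) (hN : 1 ≤ N) :
    ann θ j α Γ H N ≤ (PiG θ α Γ H ξ * Real.exp (α * p * (ρ ^ (θ ^ j) - 1))) ^ N := by
  obtain ⟨m, rfl⟩ : ∃ m, p = m + 1 := ⟨p - 1, by omega⟩
  have : NeZero N := ⟨by omega⟩
  set B := slotB (spin N) j with hBdef
  set E := slotE (Fin N → Bool) ξ with hEdef
  set F := fieldN H N j with hFdef
  have hB : GoodM U01 B := goodM_slotB (U01_spin N) j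
  have hE : GoodM U01 E := hξ.slotE
  have hF : GoodM U01 F := hM.goodM_fieldN N j
  have g1 : GoodM U01 (CL Γ fun _ => B) := hM.goodM_CL fun _ => hB
  have g2 : GoodM U01 (CL Γ fun _ => E) := hM.goodM_CL fun _ => hE
  have g3 : GoodM U01 (CL Γ (lastSlot (m + 1) B E)) := hM.goodM_CL (lastSlot_prop hB hE)
  have hm : (0 : ℝ) < (m : ℝ) + 1 := by positivity
  have hm0 : (0 : ℝ) ≤ m := Nat.cast_nonneg m
  set Mix := (1 / ((m + 1 : ℕ) : ℝ)) • CL Γ (fun _ => B) +
    ((((m + 1 : ℕ) : ℝ) - 1) / (m + 1 : ℕ)) • CL Γ fun _ => E with hMix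
  have gM : GoodM U01 Mix := by
    have := goodM_mix g2 g1 (a := 1 / ((m : ℝ) + 1)) (by positivity)
      (by rw [div_le_one hm]; linarith)
    convert this using 1
    rw [hMix, add_comm]
    congr 2 <;> push_cast <;> field_simp
  set r := ρ ^ (θ ^ j) with hr
  have hr1 : 1 ≤ r := Real.one_le_rpow hρ (by positivity)
  have hx : 0 ≤ α * N := by positivity
  have hy : 0 ≤ m * (α * N) := by positivity
  set t := α * N + m * (α * N) with ht
  have ht0 : 0 ≤ t := add_nonneg hx hy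
  have hz : 0 ≤ t * (r - 1) := mul_nonneg ht0 (by linarith)
  -- comparison of the two Poissonised values
  have hcmp : Psi θ t F Mix ≤ Real.exp (t * (r - 1)) * Psi θ t F (CL Γ (lastSlot (m + 1) B E)) := by
    refine le_trans ?_ (mul_le_mul_of_nonneg_left (Psi_anti h0.le ht0 hz hF g3) (Real.exp_pos _).le)
    rw [Psi, Psi, ← tsum_mul_left]
    refine Summable.tsum_le_tsum (fun M => ?_) (summable_poi_mul ht0 (abs_le_bg h0.le hF gM))
      ((summable_poi_mul (add_nonneg ht0 hz) (abs_le_bg h0.le hF g3)).mul_left _)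
    have a := hybrid' (by linarith) gM g3 (fun X hX => hO θ h0 h1 j _ X B E hX hB hE) M F hF
    refine (mul_le_mul_of_nonneg_left a (poi_nonneg ht0 M)).trans (le_of_eq ?_)
    rw [← mul_assoc, ← mul_assoc]
    congr 1
    have e : Real.exp (-t) = Real.exp (t * (r - 1)) * Real.exp (-(t + t * (r - 1))) := by
      rw [← Real.exp_add]; congr 1; ring
    rw [poi, poi, e, show t + t * (r - 1) = t * r by ring, mul_pow]
    ring
  -- left side
  have hleft : ann θ j α Γ H N * Real.exp (-(m * (α * N)) * (1 - edgeW θ Γ ξ)) =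
      Psi θ t F Mix := by
    rw [ht, Psi_split h0.le hx hy hF g1 g2 (by
      rw [hMix, smul_add, smul_smul, smul_smul]
      congr 2 <;> push_cast <;> field_simp <;> ring)]
    have e : ∀ i : ℕ, ∑' i', poi (m * (α * N)) i' *
        pS θ (F * (CL Γ fun _ => B) ^ i * (CL Γ fun _ => E) ^ i') =
        pS θ (F * (CL Γ fun _ => B) ^ i) *
          Real.exp (-(m * (α * N)) * (1 - edgeW θ Γ ξ)) := fun i => by
      rw [← (hasSum_poi_mul_pow _ _).tsum_eq, ← tsum_mul_left]
      refine tsum_congr fun i' => ?_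
      rw [hEdef, pS_mul_edge_pow hM (hF.mulU (g1.powU i)) hξ]
      ring
    simp only [e]
    simp only [← mul_assoc (poi _ _)]
    rw [tsum_mul_right]
    rfl
  -- right side
  have hc : 0 ≤ α * ((m + 1 : ℕ) : ℝ) := by positivity
  obtain ⟨A, -, hAe, hAP⟩ := site_factor' h0.le hM hξ hc N
  have hn' : (N : ℝ) ≠ 0 := by positivity
  rw [Gue.sum_cav m Γ ξ N hN, smul_right_inj hn'] at hAe
  have e4 : α * ((m + 1 : ℕ) : ℝ) * N = t := by rw [ht]; push_cast; ring
  rw [hAe, e4] at hAP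
  rw [← hleft, hAP] at hcmp
  have e5 : (PiG θ α Γ H ξ * Real.exp (α * (m + 1 : ℕ) * (r - 1))) ^ N =
      Real.exp (t * (r - 1)) * (∑' J : ℕ, poi (α * (m + 1 : ℕ)) J * pS θ (siteN Γ H ξ J)) ^ N *
        Real.exp ((m * (α * N)) * (1 - edgeW θ Γ ξ)) := by
    have a1 : (N : ℝ) * (α * (m + 1 : ℕ) * (r - 1)) = t * (r - 1) := by rw [← e4]; ring
    have a2 : (N : ℝ) * (α * (((m + 1 : ℕ) : ℝ) - 1) * (1 - edgeW θ Γ ξ)) =
        (m * (α * N)) * (1 - edgeW θ Γ ξ) := by push_cast; ring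
    rw [PiG, mul_pow, mul_pow, ← Real.exp_nat_mul, ← Real.exp_nat_mul, a1, a2]; ring
  rw [e5]
  have e6 := mul_le_mul_of_nonneg_right hcmp
    (Real.exp_pos ((m * (α * N)) * (1 - edgeW θ Γ ξ))).le
  rwa [mul_assoc, ← Real.exp_add, neg_mul, neg_add_cancel, Real.exp_zero, mul_one] at e6

end Crest.Agent.R141
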