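import Crest.Agent.R141.PiB_Pad

/-!
Row 141, task R141-PiB: annealed versus quenched functional, change of exponents.  Work files `R141/PiB_*.lean`.

PLAN.  `val θ v X = pm (θ^·) v X ^ (θ^j)` for positive `v`.  `pm` is monotone, homogeneous of degree one and
between the bounds of the leaves.  Leaves of `siteN Γ H ξ J` are in `Inc (c^(J+1))`, `mlin g ∈ [c,1]`; `K = -log c`.
`piG_BQ`: with `y = θ^j`, `L = log pm - log 2 ∈ [-(J+1)K, 0]`: `e^{y E L} ≤ E e^{yL} ≤ 1 + y E L + y² E L²/2`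
(tangent line; `e^x ≤ 1 + x + x²/2` for `x ≤ 0`; `Σ poi J (J+1)² < ∞`, e.g. `(J+1)² ≤ 4·2^J`), same for the edge term.
Change of exponents: if the values are in `[a, b]`, `0 < m' ≤ m`, then
`(a/b)^(m/m'-1) (E W^m)^(1/m) ≤ (E W^m')^(1/m') ≤ (E W^m)^(1/m)` (Jensen / `W^m' ≥ b^(m'-m) W^m`), hence by induction
`|log (pm m v X) - log (pm m' v X)| ≤ Σ_{i<j} |max/min - 1| log (b/a)`.
`exists_pad`: `Dep n 0 = n 0`, `Dep n (r+1) = Dep n r + 1 + n (r+1)`; `wrapN k : Nest A j → Nest A (j+k)` iterates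
`up ∘ dirac`; `pad n : Nest A r → Nest A (Dep n r)`, `pad x = det x (n 0)`, `pad X = wrapN (n (r+1)) (up (Ms.map pad (dn X)))`.
`pad` is a monoid homomorphism commuting with `map`, `pad (det a r) = det a _`, so `Ms.map pad` commutes with `tens`, `clz`,
`CL`, `slotE`, `siteN`; `pm (θ^·) v (pad X) = pm (fun i => θ^(Dep n i)) v X`.  Choose `θ` close to `1` and
`Dep n i = ⌈log (m i)/log θ⌉` for `i < r`, `n r` large.
`exists_adm`: `m 0 = 1 - η > θ`, `m i = θ^i`; leaves `x ↦ (1-η) x + η/2` (`qq x' s ≥ (1-η) qq x s`, so `mlin g x' ≥ (1-η)^p mlin g x`,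
and `mlin g x' ≤ mlin g x + (1 - (1-η)^p) ≤ (1 + pη/c) mlin g x`); a convenient device is to carry both leaves in one
nest (or to note that `siteN Γ H (mapM f ξ) J` is an image of a nest that does not depend on `f`).
-/

set_option autoImplicit false

namespace Crest.Agent.R141

open Crest.Agent.R153 Crest.Agent.R153.Ms Crest.Agent.R153.Nest
open Crest.ProbabilityR MeasureTheory Filter

namespace PiB

theorem exp_le_quad {u : ℝ} (hu : u ≤ 0) : Real.exp u ≤ 1 + u + u ^ 2 / 2 := by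
  have h1 := Real.quadratic_le_exp_of_nonneg (neg_nonneg.2 hu)
  rw [← neg_neg u, Real.exp_neg, neg_neg, inv_le_iff_one_le_mul₀ (Real.exp_pos _)]
  have h2 : 0 ≤ 1 + u + u ^ 2 / 2 := by nlinarith [sq_nonneg (u + 1)]
  calc (1 : ℝ) ≤ (1 + u + u ^ 2 / 2) * (1 + -u + (-u) ^ 2 / 2) := by nlinarith [sq_nonneg (u ^ 2)]
    _ ≤ _ := mul_le_mul_of_nonneg_left h1 h2

theorem ev_small (a : ℝ) {b : ℝ} (hb : 0 < b) :
    ∀ᶠ η in nhdsWithin (0 : ℝ) (Set.Ioi 0), a * η < b := by
  have : Tendsto (fun η : ℝ => a * η) (nhds 0) (nhds (a * 0)) := tendsto_id.const_mul a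
  rw [mul_zero] at this
  exact (this.eventually_lt_const hb).filter_mono nhdsWithin_le_nhds

theorem exists_theta (s : Finset ℕ) (f : ℕ → ℝ) (hf : ∀ i ∈ s, f i < 1) {t : ℝ} (ht : t < 1) :
    ∃ θ, θ < 1 ∧ t ≤ θ ∧ ∀ i ∈ s, f i ≤ θ := by
  induction s using Finset.induction_on with
  | empty => exact ⟨t, ht, le_rfl, by simp⟩
  | insert a s _ ih =>
    obtain ⟨θ, h1, h2, h3⟩ := ih fun i hi => hf i (Finset.mem_insert_of_mem hi)
    refine ⟨max θ (f a), max_lt h1 (hf a (Finset.mem_insert_self _ _)), le_max_of_le_left h2,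
      fun i hi => ?_⟩
    rcases Finset.mem_insert.1 hi with rfl | hi
    · exact le_max_right _ _
    · exact le_max_of_le_left (h3 i hi)

end PiB

open PiB

theorem piG_BQ {p : ℕ} (hp : 1 ≤ p) {c α : ℝ} {Γ : Ms (Diluted.Inter p)} {H : Ms (Bool → ℝ)}
    (hM : Model c Γ H) (hα : 0 ≤ α) : ∃ C : ℝ, 0 ≤ C ∧ ∀ θ : ℝ, 0 < θ → θ ≤ 1 →
      ∀ (j : ℕ) (ξ : Ms (Nest ℝ j)), GoodM R01 ξ → 0 < PiG θ α Γ H ξ ∧
        |Real.log (PiG θ α Γ H ξ) - θ ^ j * BQ (fun i => θ ^ i) α Γ H ξ| ≤ C * (θ ^ j) ^ 2 := by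
  have hc := hM.pos
  have lc : Real.log c ≤ 0 := Real.log_nonpos hc.le (c_le_one hM)
  have hx : 0 ≤ α * p := by positivity
  have hp' : (0 : ℝ) ≤ α * ((p : ℝ) - 1) :=
    mul_nonneg hα (sub_nonneg.2 (by exact_mod_cast hp))
  have s0 : Summable fun J : ℕ => poi (α * p) J * (((J + 1) * Real.log c) ^ 2 / 2) :=
    summable_poi_sq hx (B := Real.log c ^ 2 / 2) fun J => by
      rw [abs_of_nonneg (by positivity)]; exact le_of_eq (by ring)
  set C1 := ∑' J : ℕ, poi (α * p) J * (((J + 1) * Real.log c) ^ 2 / 2) with hC1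
  have hC1n : 0 ≤ C1 := tsum_nonneg fun J => mul_nonneg (poi_nonneg hx J) (by positivity)
  refine ⟨C1 + α * ((p : ℝ) - 1) * (Real.log c ^ 2 / 2), by positivity, fun θ h0 h1 j ξ hξ => ?_⟩
  set y := θ ^ j with hy
  have hy0 : 0 < y := by positivity
  have hm : ∀ i < j, 0 < θ ^ i := fun i _ => by positivity
  have s1 := summable_site hM hx hm hξ
  set a := ∑' J : ℕ, poi (α * p) J * I (siteN Γ H ξ J) fun c => Real.log (pm (fun i => θ ^ i) sumv c)
    with ha
  have e1 : ∀ J, pS θ (siteN Γ H ξ J) =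
      I (siteN Γ H ξ J) fun c => Real.exp (y * Real.log (pm (fun i => θ ^ i) sumv c)) := fun J => by
    have hg := goodM_siteN_inc hM hξ J
    refine hg.2.I_congr fun X hX => ?_
    rw [val_eq_pm h0 (fun x hx => le_trans (by positivity) (sumv_mem x hx).1) hX,
      Real.rpow_def_of_pos (log_pm_site hM hm hX).1, mul_comm]
  have lo : ∀ J, Real.exp (y * a) * (1 - y * a) + Real.exp (y * a) * y *
      (I (siteN Γ H ξ J) fun c => Real.log (pm (fun i => θ ^ i) sumv c)) ≤
      pS θ (siteN Γ H ξ J) := fun J => by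
    have hg := goodM_siteN_inc hM hξ J
    rw [e1, ← I_const_mul, ← hg.1.I_const (Real.exp (y * a) * (1 - y * a)), ← I_add_fun]
    refine I_mono hg.1.1 fun X _ => ?_
    have := mul_le_mul_of_nonneg_left
      (Real.add_one_le_exp (y * Real.log (pm (fun i => θ ^ i) sumv X) - y * a))
      (Real.exp_pos (y * a)).le
    rw [← Real.exp_add, add_sub_cancel] at this
    linarith
  have up' : ∀ J : ℕ, pS θ (siteN Γ H ξ J) ≤ Real.exp (y * Real.log 2) * (1 - y * Real.log 2) +
      Real.exp (y * Real.log 2) * y *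
        (I (siteN Γ H ξ J) fun c => Real.log (pm (fun i => θ ^ i) sumv c)) +
      Real.exp (y * Real.log 2) * y ^ 2 * (((J + 1) * Real.log c) ^ 2 / 2) := fun J => by
    have hg := goodM_siteN_inc hM hξ J
    rw [e1, ← I_const_mul, ← hg.1.I_const (Real.exp (y * Real.log 2) * (1 - y * Real.log 2)),
      ← I_add_fun, ← hg.1.I_const (Real.exp (y * Real.log 2) * y ^ 2 * _), ← I_add_fun]
    refine hg.2.I_mono hg.1.1 fun X hX => ?_
    obtain ⟨_, b1, b2⟩ := log_pm_site hM hm hX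
    set L := Real.log (pm (fun i => θ ^ i) sumv X)
    have b3 := exp_le_quad (u := y * (L - Real.log 2)) (mul_nonpos_of_nonneg_of_nonpos hy0.le (by linarith))
    have b4 : (L - Real.log 2) ^ 2 ≤ ((J + 1) * Real.log c) ^ 2 := by
      rw [← neg_sq (L - Real.log 2), ← neg_sq ((J + 1) * Real.log c)]
      exact pow_le_pow_left₀ (by linarith) (by linarith) 2
    have b5 := mul_le_mul_of_nonneg_left b4 (sq_nonneg y)
    have b6 : Real.exp (y * (L - Real.log 2)) ≤ (1 - y * Real.log 2) + y * L +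
        y ^ 2 * (((J + 1) * Real.log c) ^ 2 / 2) := by rw [mul_pow] at b3; linarith
    have b7 := mul_le_mul_of_nonneg_left b6 (Real.exp_pos (y * Real.log 2)).le
    rw [← Real.exp_add, show y * Real.log 2 + y * (L - Real.log 2) = y * L by ring] at b7
    linarith
  have s2 : Summable fun J : ℕ => poi (α * p) J * pS θ (siteN Γ H ξ J) :=
    summable_poi_mul hx (B := Real.exp (y * Real.log 2)) fun J => by
      have hg := goodM_siteN_inc hM hξ J
      rw [abs_of_nonneg (pS_nonneg (hM.goodM_siteN hξ J)), e1]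
      exact hg.1.le_of_le fun X hX => Real.exp_le_exp.2
        (mul_le_mul_of_nonneg_left (log_pm_site hM hm (hg.2 X hX)).2.2 hy0.le)
  set Z := ∑' J : ℕ, poi (α * p) J * pS θ (siteN Γ H ξ J) with hZ
  have z1 : Real.exp (y * a) ≤ Z := by
    have := hasSum_le (fun J => ?_) (((hasSum_poi (α * p)).mul_right
      (Real.exp (y * a) * (1 - y * a))).add (s1.hasSum.mul_left (Real.exp (y * a) * y))) s2.hasSum
    · linarith
    · have := mul_le_mul_of_nonneg_left (lo J) (poi_nonneg hx J)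
      linarith
  have z2 : Z ≤ Real.exp (y * a + C1 * y ^ 2) := by
    have b1 := hasSum_le (fun J => ?_) s2.hasSum ((((hasSum_poi (α * p)).mul_right
      (Real.exp (y * Real.log 2) * (1 - y * Real.log 2))).add
      (s1.hasSum.mul_left (Real.exp (y * Real.log 2) * y))).add
      (s0.hasSum.mul_left (Real.exp (y * Real.log 2) * y ^ 2)))
    · have b2 := mul_le_mul_of_nonneg_left
        (Real.add_one_le_exp (y * a + C1 * y ^ 2 - y * Real.log 2))
        (Real.exp_pos (y * Real.log 2)).le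
      rw [← Real.exp_add, add_sub_cancel] at b2
      linarith
    · have := mul_le_mul_of_nonneg_left (up' J) (poi_nonneg hx J)
      linarith
  have z0 : 0 < Z := (Real.exp_pos _).trans_le z1
  have z3 := (Real.le_log_iff_exp_le z0).2 z1
  have z4 := (Real.log_le_iff_le_exp z0).2 z2
  have hT : GoodM (fun x : Fin p → ℝ => ∀ ℓ, R01 (x ℓ)) (tens fun _ : Fin p => ξ) :=
    goodM_tens (P := fun _ => R01) fun _ => hξ
  set b := I Γ fun g => I (tens fun _ : Fin p => ξ) fun c =>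
    Real.log (pm (fun i => θ ^ i) (mlin g) c) with hb
  have e2 : ∀ g, Inc c g → pre θ (mlin g) (tens fun _ : Fin p => ξ) = I (tens fun _ : Fin p => ξ)
      fun c => Real.exp (y * Real.log (pm (fun i => θ ^ i) (mlin g) c)) := fun g hg =>
    hT.2.I_congr fun X hX => by
      rw [val_eq_pm h0 (fun x hx => hc.le.trans (mlin_mem hg hx).1) hX,
        Real.rpow_def_of_pos (log_pm_edge hc hg hm hX).1, mul_comm]
  have w1 : 1 + y * b ≤ edgeW θ Γ ξ := by
    rw [hb, ← I_const_mul, ← hM.probΓ.I_const 1, ← I_add_fun]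
    refine hM.suppΓ.I_mono hM.probΓ.1 fun g hg => ?_
    rw [e2 g hg, ← I_const_mul, ← hT.1.I_const 1, ← I_add_fun]
    exact I_mono hT.1.1 fun X _ => by rw [add_comm]; exact Real.add_one_le_exp _
  have w2 : edgeW θ Γ ξ ≤ 1 + y ^ 2 * (Real.log c ^ 2 / 2) + y * b := by
    rw [hb, ← I_const_mul, ← hM.probΓ.I_const (1 + y ^ 2 * (Real.log c ^ 2 / 2)), ← I_add_fun]
    refine hM.suppΓ.I_mono hM.probΓ.1 fun g hg => ?_
    rw [e2 g hg, ← I_const_mul, ← hT.1.I_const (1 + y ^ 2 * (Real.log c ^ 2 / 2)), ← I_add_fun]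
    refine hT.2.I_mono hT.1.1 fun X hX => ?_
    obtain ⟨_, b1, b2⟩ := log_pm_edge hc hg hm hX
    set L := Real.log (pm (fun i => θ ^ i) (mlin g) X)
    have b3 := exp_le_quad (u := y * L) (mul_nonpos_of_nonneg_of_nonpos hy0.le b2)
    have b4 : L ^ 2 ≤ Real.log c ^ 2 := by
      rw [← neg_sq L, ← neg_sq (Real.log c)]
      exact pow_le_pow_left₀ (by linarith) (by linarith) 2
    have b5 := mul_le_mul_of_nonneg_left b4 (sq_nonneg y)
    rw [mul_pow] at b3
    linarith
  refine ⟨mul_pos z0 (Real.exp_pos _), ?_⟩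
  unfold PiG BQ
  rw [Real.log_mul z0.ne' (Real.exp_pos _).ne', Real.log_exp, abs_le]
  have w3 := mul_le_mul_of_nonneg_left w1 hp'
  have w4 := mul_le_mul_of_nonneg_left w2 hp'
  have w5 := mul_nonneg hC1n (sq_nonneg y)
  have w6 : 0 ≤ α * ((p : ℝ) - 1) * (Real.log c ^ 2 / 2) * y ^ 2 := by positivity
  constructor <;> linarith

theorem exists_pad {p : ℕ} (hp : 1 ≤ p) {c α : ℝ} {Γ : Ms (Diluted.Inter p)} {H : Ms (Bool → ℝ)}
    (hM : Model c Γ H) (hα : 0 ≤ α) {r : ℕ} {m : ℕ → ℝ} (hm : AdmN r m) {ξ : Ms (Nest ℝ r)}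
    (hξ : GoodM R01 ξ) {ε y : ℝ} (hε : 0 < ε) (hy : 0 < y) :
    ∃ (θ : ℝ) (j : ℕ) (ξ' : Ms (Nest ℝ j)), 0 < θ ∧ θ ≤ 1 ∧ θ ^ j ≤ y ∧ GoodM R01 ξ' ∧
      BQ (fun i => θ ^ i) α Γ H ξ' ≤ BQ m α Γ H ξ + ε := by
  have hc := hM.pos
  have lc : Real.log c ≤ 0 := Real.log_nonpos hc.le (c_le_one hM)
  have hp' : (0 : ℝ) ≤ α * ((p : ℝ) - 1) :=
    mul_nonneg hα (sub_nonneg.2 (by exact_mod_cast hp))
  set Cst := α * p + 1 + α * ((p : ℝ) - 1) with hCst
  have hC : 0 < Cst := by positivity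
  obtain ⟨d, hd, hd0⟩ := ((ev_small (Cst * (r * -Real.log c)) hε).and self_mem_nhdsWithin).exists
  have hd0 : 0 < d := hd0
  obtain ⟨θ, h1, ht, hf⟩ := exists_theta (Finset.range (r - 1)) (fun i => m (i + 1) / m i)
    (fun i hi => by
      have hi := Finset.mem_range.1 hi
      rw [div_lt_one (hm.1 i (by omega)).1]
      exact hm.2 i (i + 1) (by omega) (by omega))
    (t := 1 / (1 + d)) (by rw [div_lt_one (by positivity)]; linarith)
  have h0 : 0 < θ := lt_of_lt_of_le (by positivity) ht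
  have hex : ∀ i, ∃ k, i < r → θ ^ k ≤ m i := fun i => by
    by_cases hi : i < r
    · obtain ⟨k, hk⟩ := exists_pow_lt_of_lt_one (hm.1 i hi).1 h1
      exact ⟨k, fun _ => hk.le⟩
    · exact ⟨0, fun h => absurd h hi⟩
  classical
  set D0 : ℕ → ℕ := fun i => Nat.find (hex i) with hD0
  have d1 : ∀ i < r, θ ^ D0 i ≤ m i := fun i hi => Nat.find_spec (hex i) hi
  have d2 : ∀ i < r, θ * m i < θ ^ D0 i := fun i hi => by
    rcases h : D0 i with _ | k
    · have := d1 i hi
      rw [h, pow_zero] at this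
      linarith [(hm.1 i hi).2]
    · have := Nat.find_min (hex i) (m := k) (by change k < D0 i; omega)
      push Not at this
      rw [pow_succ']
      exact mul_lt_mul_of_pos_left this.2 h0
  obtain ⟨N, hN⟩ := exists_pow_lt_of_lt_one hy h1
  set D : ℕ → ℕ := fun i => if i < r then D0 i else N + ∑ i ∈ Finset.range r, D0 i + 1 with hD
  have d3 : ∀ i < r, D i < D (i + 1) := fun i hi => by
    simp only [hD, if_pos hi]
    split_ifs with h
    · have a1 := hf i (Finset.mem_range.2 (by omega))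
      rw [div_le_iff₀ (hm.1 i hi).1] at a1
      exact (pow_lt_pow_iff_right_of_lt_one₀ h0 h1).1 (((d1 _ h).trans a1).trans_lt (d2 i hi))
    · have := Finset.single_le_sum (f := D0) (fun _ _ => Nat.zero_le _) (Finset.mem_range.2 hi)
      omega
  set n : ℕ → ℕ := fun i => match i with
    | 0 => D 0
    | i + 1 => D (i + 1) - D i - 1 with hn
  have d4 : ∀ i ≤ r, Dep n i = D i := fun i hi => by
    induction i with
    | zero => exact Nat.zero_add _
    | succ i ih =>
      change Dep n i + 1 + (D (i + 1) - D i - 1) = _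
      have := d3 i (by omega)
      rw [ih (by omega)]; omega
  have d5 : ∀ i < r, Dep n i = D0 i := fun i hi => by rw [d4 i hi.le]; exact if_pos hi
  have hθp : ∀ i : ℕ, 0 < θ ^ i := fun i => by positivity
  have hξ' : GoodM R01 (Ms.map (pad n) ξ) := ⟨hξ.1.map _, hξ.2.map fun _ h => good_pad h⟩
  refine ⟨θ, Dep n r, Ms.map (pad n) ξ, h0, h1.le, ?_, hξ', ?_⟩
  · rw [d4 r le_rfl]
    refine le_trans (pow_le_pow_of_le_one h0.le h1.le ?_) hN.le
    simp only [hD, lt_irrefl, if_false]; omega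
  have hδ : 0 ≤ r * d * -Real.log c := mul_nonneg (by positivity) (by linarith)
  refine (BQ_le hp hM hα (fun i hi => (hm.1 i hi).1) (fun i _ => hθp i) hξ hξ'
    (δ := r * d * -Real.log c) (fun J => ?_) fun g hg => ?_).trans (by linarith)
  · have hg := goodM_siteN_inc hM hξ J
    rw [pad_siteN, I_map, ← hg.1.I_const ((J + 1) * _), ← I_add_fun]
    refine hg.2.I_mono hg.1.1 fun X hX => ?_
    rw [pm_pad hθp (fun x hx => le_trans (by positivity) (sumv_mem x hx).1) hX]
    have := pm_cmp (m := fun i => θ ^ Dep n i) (m' := m) (d := fun _ => 0) (κ := 0)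
      (by positivity) sumv_mem sumv_mem (fun x _ => by simp) (fun i _ => hθp _)
      (fun i hi => (hm.1 i hi).1) (fun i hi => ⟨le_rfl, by simpa [d5 i hi] using d1 i hi⟩) hX
    have : 0 ≤ ((J : ℝ) + 1) * (r * d * -Real.log c) := by positivity
    simp only [Finset.sum_const_zero, zero_mul, add_zero] at *
    linarith
  · have hT : GoodM (fun x : Fin p → ℝ => ∀ ℓ, R01 (x ℓ)) (tens fun _ : Fin p => ξ) :=
      goodM_tens (P := fun _ => R01) fun _ => hξ
    rw [← pad_tens, I_map, ← hT.1.I_const (r * d * _), ← I_add_fun]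
    refine hT.2.I_mono hT.1.1 fun X hX => ?_
    rw [pm_pad hθp (fun x hx => hc.le.trans (mlin_mem hg hx).1) hX]
    have := pm_cmp (m := m) (m' := fun i => θ ^ Dep n i) (d := fun _ => d) (κ := 0) hc
      (fun x hx => mlin_mem hg hx) (fun x hx => mlin_mem hg hx) (fun x _ => by simp)
      (fun i hi => (hm.1 i hi).1) (fun i _ => hθp _) (fun i hi => ⟨hd0.le, by
        rw [d5 i hi]
        have a1 := d2 i hi
        rw [div_le_iff₀ (by positivity)] at ht
        have a2 := mul_le_mul_of_nonneg_right ht (hm.1 i hi).1.le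
        nlinarith⟩) hX
    simpa using this

theorem exists_adm {p : ℕ} (hp : 1 ≤ p) {c α : ℝ} {Γ : Ms (Diluted.Inter p)} {H : Ms (Bool → ℝ)}
    (hM : Model c Γ H) (hα : 0 ≤ α) {θ : ℝ} (h0 : 0 < θ) (h1 : θ < 1) {j : ℕ} {ξ : Ms (Nest ℝ j)}
    (hξ : GoodM R01 ξ) {ε : ℝ} (hε : 0 < ε) :
    ∃ (m : ℕ → ℝ) (ξ' : Ms (Nest ℝ j)), AdmN j m ∧ GoodM O01 ξ' ∧
      BQ m α Γ H ξ' ≤ BQ (fun i => θ ^ i) α Γ H ξ + ε := by
  have hc := hM.pos
  have lc : Real.log c ≤ 0 := Real.log_nonpos hc.le (c_le_one hM)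
  have hp' : (0 : ℝ) ≤ α * ((p : ℝ) - 1) :=
    mul_nonneg hα (sub_nonneg.2 (by exact_mod_cast hp))
  set Cst := α * p + 1 + α * ((p : ℝ) - 1) with hCst
  have hC : 0 < Cst := by positivity
  set δ := ε / (2 * Cst) with hδ
  have hδ0 : 0 < δ := by positivity
  obtain ⟨η, ⟨⟨⟨⟨e1, e2⟩, e3⟩, e4⟩, e5⟩, e0⟩ := ((((((ev_small 1 (b := 1 / 2) (by norm_num)).and
    (ev_small 1 (sub_pos.2 h1))).and (ev_small p (b := 1 - Real.exp (-δ))
      (sub_pos.2 (Real.exp_lt_one_iff.2 (by linarith))))).and (ev_small p (mul_pos hc hδ0))).and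
    (ev_small (2 * -Real.log c) hδ0)).and self_mem_nhdsWithin).exists
  have e0 : 0 < η := e0
  have hτ : 0 ≤ 1 - η := by linarith
  have t1 : 1 - p * η ≤ (1 - η) ^ p := by
    have := one_add_mul_le_pow (a := -η) (by linarith) p
    simpa [sub_eq_add_neg] using this
  have t2 : (1 - η) ^ p ≤ 1 := pow_le_one₀ hτ (by linarith)
  set m : ℕ → ℝ := fun i => if i = 0 then 1 - η else θ ^ i with hm
  have m1 : ∀ i, 0 < m i ∧ m i ≤ θ ^ i := fun i => by
    simp only [hm]; split_ifs with h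
    · subst h; constructor <;> [linarith; (rw [pow_zero]; linarith)]
    · exact ⟨by positivity, le_rfl⟩
  set f : Bool → ℝ → ℝ := fun t r => if t then (1 - η) * r + η / 2 else r with hf
  have f0 : mapM (f false) ξ = ξ := mapM_id ξ
  have f1 : ∀ r, R01 r → O01 (f true r) := fun r hr => by
    simp only [hf, if_true]
    constructor <;> nlinarith [hr.1, hr.2]
  have f2 : ∀ t r, R01 r → R01 (f t r) := fun t r hr => by
    cases t
    · exact hr
    · exact ⟨(f1 r hr).1.le, (f1 r hr).2.le⟩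
  have f3 : ∀ r s, (1 - η) * qq (f false r) s ≤ qq (f true r) s := fun r s => by
    cases s <;> simp [hf, qq] <;> linarith
  have hθp : ∀ i : ℕ, 0 < θ ^ i := fun i => by positivity
  refine ⟨m, mapM (f true) ξ, ⟨fun i _ => ⟨(m1 i).1, ?_⟩, fun i i' h _ => ?_⟩, hξ.mapM f1, ?_⟩
  · simp only [hm]; split_ifs with h
    · linarith
    · exact pow_lt_one₀ h0.le h1 h
  · simp only [hm, if_neg (show i' ≠ 0 by omega)]
    split_ifs with h'
    · exact lt_of_le_of_lt (pow_le_of_le_one h0.le h1.le (by omega)) (by linarith)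
    · exact pow_lt_pow_right_of_lt_one₀ h0 h1 h
  refine (BQ_le hp hM hα (fun i _ => hθp i) (fun i _ => (m1 i).1) hξ (hξ.mapM (f2 true))
    (δ := 2 * δ) (fun J => ?_) fun g hg => ?_).trans
    (add_le_add le_rfl (le_of_eq (by rw [← hCst, hδ]; field_simp)))
  · have hg : GoodM (fun x : Bool × Bool → ℝ => Inc (c ^ (J + 1)) x ∧
        ∀ σ, x (σ, true) ≤ Real.exp (J * δ) * x (σ, false)) (site2 Γ H f ξ J) := by
      refine GoodM.mul (P := fun x : Bool × Bool → ℝ => Inc c x ∧ ∀ σ, x (σ, true) = x (σ, false))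
        (Q := fun x : Bool × Bool → ℝ => Inc (c ^ J) x ∧
          ∀ σ, x (σ, true) ≤ Real.exp (J * δ) * x (σ, false)) (fun a b ha hb => ⟨?_, fun σ => ?_⟩)
        ⟨hM.probH.map _, hM.suppH.map fun w hw => good_det ⟨fun q => hw q.1, fun _ => rfl⟩ j⟩ ?_
      rotate_left
      · rw [pow_succ']; exact inc_mul hc.le (by positivity) a b ha.1 hb.1
      · simp only [Pi.mul_apply, ha.2 σ]
        rw [mul_left_comm]
        exact mul_le_mul_of_nonneg_left (hb.2 σ) (hc.le.trans (ha.1 _).1)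
      refine goodM_pow_idx (Q := fun n (x : Bool × Bool → ℝ) => Inc (c ^ n) x ∧
        ∀ σ, x (σ, true) ≤ Real.exp (n * δ) * x (σ, false)) ⟨fun _ => by simp, fun _ => by simp⟩
        (fun n a b ha hb => ⟨?_, fun σ => ?_⟩) ?_ J
      · rw [pow_add]; exact inc_mul (by positivity) (by positivity) a b ha.1 hb.1
      · simp only [Pi.mul_apply]
        push_cast
        rw [add_mul, Real.exp_add, mul_mul_mul_comm]
        refine mul_le_mul (ha.2 σ) (by simpa using hb.2 σ) (le_trans (by positivity) (hb.1 _).1) ?_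
        exact mul_nonneg (Real.exp_pos _).le (le_trans (by positivity) (ha.1 _).1)
      refine goodM_bind hM.probΓ fun g hg => ?_
      have hg := hM.suppΓ g hg
      refine (goodM_tens (P := fun _ (x : Bool × Bool → ℝ) => U01 x ∧
        ∀ σ s, (1 - η) * qq (x (σ, false)) s ≤ qq (x (σ, true)) s) (lastSlot_prop
          (P := GoodM fun x : Bool × Bool → ℝ => U01 x ∧
            ∀ σ s, (1 - η) * qq (x (σ, false)) s ≤ qq (x (σ, true)) s)
          (goodM_dirac (good_det ⟨fun q => U01_spin1 q.1, fun σ s => ?_⟩ j))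
          (hξ.mapM fun r hr => ⟨fun q => f2 _ r hr, fun _ s => f3 r s⟩))).mapM fun x hx =>
        ⟨fun q => ?_, fun σ => ?_⟩
      · exact mul_le_of_le_one_left (qq_nonneg (U01_spin1 σ) s) (by linarith)
      · rw [pow_one]; exact mlin_mem hg fun ℓ => (hx ℓ).1 q
      · rw [Nat.cast_one, one_mul]
        exact (mlin_cmp hc hg hτ hδ0.le (by linarith) (by linarith) t2
          (fun ℓ => (hx ℓ).1 _) fun ℓ s => (hx ℓ).2 σ s).1
    rw [pre_site2, ← f0, pre_site2, f0, I_mapM, I_mapM, ← hg.1.I_const ((J + 1) * _), ← I_add_fun]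
    refine hg.2.I_mono hg.1.1 fun X hX => ?_
    rw [pm_map, pm_map]
    have := pm_cmp (m := m) (m' := fun i => θ ^ i) (d := fun _ => 0) (κ := J * δ)
      (u := fun x => sumv (preHom (fun σ => (σ, true)) x))
      (v := fun x => sumv (preHom (fun σ => (σ, false)) x))
      (by positivity) (fun x hx => sumv_mem _ fun σ => hx.1 _) (fun x hx => sumv_mem _ fun σ => hx.1 _)
      (fun x hx => by
        rw [sumv, sumv, Finset.mul_sum]; exact Finset.sum_le_sum fun σ _ => hx.2 σ)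
      (fun i _ => (m1 i).1) (fun i _ => hθp i) (fun i _ => ⟨le_rfl, by simpa using (m1 i).2⟩) hX
    have : 0 ≤ (J : ℝ) * δ := by positivity
    simp only [Finset.sum_const_zero, zero_mul, add_zero] at *
    linarith
  · have hT : GoodM (fun x : Fin p → Bool → ℝ => ∀ ℓ, U01 (x ℓ) ∧
        ∀ s, (1 - η) * qq (x ℓ false) s ≤ qq (x ℓ true) s)
        (tens fun _ : Fin p => mapM (fun r (s : Bool) => f s r) ξ) :=
      goodM_tens (P := fun _ (x : Bool → ℝ) => U01 x ∧
        ∀ s, (1 - η) * qq (x false) s ≤ qq (x true) s) fun _ =>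
          hξ.mapM fun r hr => ⟨fun q => f2 _ r hr, fun s => f3 r s⟩
    rw [tens2, ← f0, tens2, f0, I_mapM, I_mapM, ← hT.1.I_const (2 * δ), ← I_add_fun]
    refine hT.2.I_mono hT.1.1 fun X hX => ?_
    rw [pm_map, pm_map]
    have a1 := pm_cmp (m := fun i => θ ^ i) (m' := m) (d := fun i => if i = 0 then 2 * η else 0)
      (κ := δ) (u := fun x : Fin p → Bool → ℝ => mlin g fun ℓ => x ℓ false)
      (v := fun x : Fin p → Bool → ℝ => mlin g fun ℓ => x ℓ true) hc
      (fun x hx => mlin_mem hg fun ℓ => (hx ℓ).1 _) (fun x hx => mlin_mem hg fun ℓ => (hx ℓ).1 _)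
      (fun x hx => (mlin_cmp hc hg hτ hδ0.le (by linarith) (by linarith) t2
          (fun ℓ => (hx ℓ).1 _) fun ℓ s => (hx ℓ).2 s).2)
      (fun i _ => hθp i) (fun i _ => (m1 i).1) (fun i _ => by
        simp only [hm]
        split_ifs with h
        · subst h; constructor <;> [linarith; (rw [pow_zero]; nlinarith)]
        · simp) hX
    have a2 : (∑ i ∈ Finset.range j, if i = 0 then 2 * η else 0) ≤ 2 * η := by
      rw [Finset.sum_ite_eq']; split_ifs <;> linarith
    have a3 := mul_le_mul_of_nonneg_right a2 (neg_nonneg.2 lc)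
    rw [Real.log_one, zero_sub] at a1
    linarith

end Crest.Agent.R141
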