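import Crest.Agent.R141.Ass
import Crest.Agent.R141.Gue
import Crest.Agent.R141.Conc
import Crest.Agent.R141.PiB

/-!
Row 141: the two bounds for the finite model.
-/

set_option autoImplicit false

namespace Crest.Agent.R141

open Crest.Agent.R153 Crest.Agent.R153.Ms Crest.Agent.R153.Nest
open Crest.ProbabilityR MeasureTheory Filter

theorem press_le_BQ {p : ℕ} (hp : 1 ≤ p) {c α ρ : ℝ} {Γ : Ms (Diluted.Inter p)}
    {H : Ms (Bool → ℝ)} (hM : Model c Γ H) (hα : 0 ≤ α) (hρ : 1 ≤ ρ) (hO : OneStep Γ ρ) {r : ℕ}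
    {m : ℕ → ℝ} (hm : AdmN r m) {ξ : Ms (Nest ℝ r)} (hξ : GoodM R01 ξ) (N : ℕ) (hN : 1 ≤ N) :
    press α Γ H N ≤ BQ m α Γ H ξ + α * p * (ρ - 1) := by
  obtain ⟨C, hC, hB⟩ := piG_BQ hp hM hα
  refine le_of_forall_pos_le_add fun ε hε => ?_
  obtain ⟨θ, j, ξ', h0, h1, hy, hξ', hBQ⟩ := exists_pad hp hM hα hm hξ (ε := ε / 2)
    (y := ε / 2 / (C + 1)) (by positivity) (by positivity)
  obtain ⟨hpos, hlog⟩ := hB θ h0 h1 j ξ' hξ'
  have hy0 : 0 < θ ^ j := pow_pos h0 j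
  have hy1 : θ ^ j ≤ 1 := pow_le_one₀ h0.le h1
  have hN' : (0 : ℝ) < N := by exact_mod_cast hN
  have h2 := press_le_mom hM hα hy0 N hN
  rw [← ann_eq_mom hM j N hN] at h2
  have h3 := h2.trans (guerra' hp hM hρ hO h0 h1 hα hξ' N hN)
  rw [← Real.exp_log hpos, ← Real.exp_add, ← Real.exp_nat_mul, Real.exp_le_exp] at h3
  have h4 : ρ ^ (θ ^ j) ≤ 1 + θ ^ j * (ρ - 1) := by
    have := rpow_one_add_le_one_add_mul_self (s := ρ - 1) (by linarith) hy0.le hy1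
    rwa [add_sub_cancel] at this
  obtain ⟨y, hyy⟩ : ∃ y, y = θ ^ j := ⟨_, rfl⟩
  rw [← hyy] at hy hy0 hy1 h3 h4 hlog
  have h5 := (abs_le.1 hlog).2
  have hp0 : (0 : ℝ) ≤ α * p := by positivity
  have h6 : y * press α Γ H N ≤ Real.log (PiG θ α Γ H ξ') + α * p * (ρ ^ y - 1) := by
    refine le_of_mul_le_mul_left ?_ hN'
    linarith
  have h7 : α * p * (ρ ^ y - 1) ≤ α * p * (y * (ρ - 1)) :=
    mul_le_mul_of_nonneg_left (by linarith) hp0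
  have h8 : press α Γ H N ≤ BQ (fun i => θ ^ i) α Γ H ξ' + C * y + α * p * (ρ - 1) := by
    refine le_of_mul_le_mul_left ?_ hy0
    nlinarith
  have h9 : C * y ≤ ε / 2 := by
    rw [le_div_iff₀ (by positivity)] at hy
    nlinarith
  linarith

theorem le_press {p : ℕ} (hp : 1 ≤ p) {c α : ℝ} {Γ : Ms (Diluted.Inter p)} {H : Ms (Bool → ℝ)}
    (hM : Model c Γ H) (hS : Symm Γ) (hα : 0 ≤ α) {β : ℝ}
    (hβ : ∀ (r : ℕ) (m : ℕ → ℝ) (ξ : Ms (Nest ℝ r)), AdmN r m → GoodM O01 ξ → β ≤ BQ m α Γ H ξ)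
    {ε : ℝ} (hε : 0 < ε) : ∀ᶠ N : ℕ in atTop, β - ε ≤ press α Γ H N := by
  obtain ⟨C, hC, hB⟩ := piG_BQ hp hM hα
  obtain ⟨C', hC', hB'⟩ := mom_le_press hM hα
  obtain ⟨Q, j, hQ, hy, hA⟩ := ass' hp hM hS hα (y := ε / 2 / (C + C' + 1)) (ε := ε / 2)
    (by positivity) (by positivity)
  have h0 : 0 < th Q := by linarith [(th_mem hQ).1]
  have h1 : th Q < 1 := (th_mem hQ).2
  have hy0 : 0 < th Q ^ j := pow_pos h0 j
  have hy1 : th Q ^ j ≤ 1 := pow_le_one₀ h0.le h1.le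
  have key := hA (β - C * th Q ^ j) fun ξ hξ => by
    obtain ⟨hpos, hlog⟩ := hB (th Q) h0 h1.le j ξ hξ
    have h2 : β ≤ BQ (fun i => th Q ^ i) α Γ H ξ := by
      refine le_of_forall_pos_le_add fun δ hδ => ?_
      obtain ⟨m, ξ', hm, hξ', h⟩ := exists_adm hp hM hα h0 h1 hξ hδ
      exact (hβ j m ξ' hm hξ').trans h
    rw [← Real.le_log_iff_exp_le hpos]
    have h3 := (abs_le.1 hlog).1
    nlinarith
  filter_upwards [key, eventually_ge_atTop 1] with N h2 hN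
  have hN' : (0 : ℝ) < N := by exact_mod_cast hN
  rw [ann_eq_mom hM j N hN] at h2
  have h3 := h2.trans (hB' _ hy0 hy1 N hN)
  rw [Real.exp_le_exp] at h3
  obtain ⟨y, hyy⟩ : ∃ y, y = th Q ^ j := ⟨_, rfl⟩
  rw [← hyy] at hy hy0 hy1 h3
  have h4 : β - C * y - ε / 2 ≤ press α Γ H N + C' * y := by
    refine le_of_mul_le_mul_left ?_ (mul_pos hy0 hN')
    nlinarith
  have h5 : (C + C') * y ≤ ε / 2 := by
    rw [le_div_iff₀ (by positivity)] at hy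
    nlinarith
  linarith

end Crest.Agent.R141
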