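import Crest.Agent.R141.ToMeas

/-!
Row 141, task R141-Pre: the pressure of finitely supported laws, Lipschitz dependence of the pressure on the laws,
approximation of the field.  Prove `ToMeas.lean` first.  Work files `R141/Pre_*.lean`.

PLAN.  `pressure_eq_press`: `pi_toMeas`, `integral_toMeas`, `I_prod_bind` (`X^M = ∏ _ : Fin M, X`, a product of averages is the
average over tuples); `exp (Σ θ + Σ h σ) = e^{NK} Π exp θ Π exp (h σ - K)`; summability from a bound linear in `M`.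
`pressure_lip`: `Measure.pi (P.map θ) = (Measure.pi P).map (θ ∘ ·)` (`Measure.pi_map_pi`/`measurePreserving_pi`), pointwise
`|logPartition N (θ∘ω) idx hs - logPartition N (θ'∘ω) idx (Ψ∘hs) - Σ_k c (ω k)| ≤ Σ_k supNorm (..(ω k)) + Σ_i |hs i - Ψ (hs i)|`,
`|logPartition| ≤ N log 2 + Σ supNorm + Σ |h|`, continuity (hence measurability) of `logPartition` in `(θs, hs)`,
`Σ' poissonWeight λ M * M = λ` (`poissonWeight = poi`).
`exists_field_approx`: `Ψ h = δ ⌊clamp h / δ⌋` (dominated convergence), or simple-function approximation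
(`SimpleFunc.approxOn`, `tendsto_approxOn_L1_enorm`...), then `exists_map_eq_toMeas`.
-/

set_option autoImplicit false

namespace Crest.Agent.R141

open Crest.Agent.R153 Crest.Agent.R153.Ms Crest.Agent.R153.Nest
open Crest.ProbabilityR MeasureTheory Filter

theorem supNorm_eq_norm {p : ℕ} (θ : Diluted.Inter p) : Diluted.supNorm θ = ‖θ‖ := by
  refine le_antisymm (ciSup_le fun s => norm_le_pi_norm θ s) ?_
  have hb : BddAbove (Set.range fun s : Fin p → Bool => |θ s|) := (Set.finite_range _).bddAbove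
  refine (pi_norm_le_iff_of_nonneg ((abs_nonneg _).trans (le_ciSup hb fun _ => true))).2
    fun s => le_ciSup hb s

theorem abs_log_sum_exp_sub {ι : Type} [Fintype ι] [Nonempty ι] {a b : ι → ℝ} {C D : ℝ}
    (h : ∀ σ, |a σ - b σ - C| ≤ D) :
    |Real.log (∑ σ, Real.exp (a σ)) - Real.log (∑ σ, Real.exp (b σ)) - C| ≤ D := by
  have key : ∀ (a b : ι → ℝ) (E : ℝ), (∀ σ, a σ ≤ b σ + E) →
      Real.log (∑ σ, Real.exp (a σ)) ≤ Real.log (∑ σ, Real.exp (b σ)) + E := by
    intro a b E hE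
    have ha : 0 < ∑ σ, Real.exp (a σ) := Finset.sum_pos (fun _ _ => Real.exp_pos _) Finset.univ_nonempty
    have hb : 0 < ∑ σ, Real.exp (b σ) := Finset.sum_pos (fun _ _ => Real.exp_pos _) Finset.univ_nonempty
    rw [← Real.log_exp E, ← Real.log_mul hb.ne' (Real.exp_pos _).ne', Finset.sum_mul]
    exact Real.log_le_log ha (Finset.sum_le_sum fun σ _ => by
      rw [← Real.exp_add]; exact Real.exp_le_exp.2 (hE σ))
  have h1 := key a b (C + D) fun σ => by linarith [(abs_le.1 (h σ)).2]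
  have h2 := key b a (D - C) fun σ => by linarith [(abs_le.1 (h σ)).1]
  exact abs_le.2 ⟨by linarith, by linarith⟩

theorem abs_spinVal (b : Bool) : |Diluted.spinVal b| = 1 := by
  cases b <;> simp [Diluted.spinVal]

theorem logPartition_lip {N p M : ℕ} (θs θs' : Fin M → Diluted.Inter p) (c : Fin M → ℝ)
    (idx : Fin M → Fin p → Fin N) (hs hs' : Fin N → ℝ) :
    |Diluted.logPartition N θs idx hs - Diluted.logPartition N θs' idx hs' - ∑ k, c k| ≤
      ∑ k, ‖fun s => θs k s - θs' k s - c k‖ + ∑ i, |hs i - hs' i| := by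
  refine abs_log_sum_exp_sub fun σ => ?_
  have e : ((∑ k, θs k fun ℓ => σ (idx k ℓ)) + ∑ i, hs i * Diluted.spinVal (σ i))
      - ((∑ k, θs' k fun ℓ => σ (idx k ℓ)) + ∑ i, hs' i * Diluted.spinVal (σ i)) - ∑ k, c k
      = ∑ k, ((θs k fun ℓ => σ (idx k ℓ)) - (θs' k fun ℓ => σ (idx k ℓ)) - c k)
        + ∑ i, (hs i - hs' i) * Diluted.spinVal (σ i) := by
    simp only [Finset.sum_sub_distrib, sub_mul]; ring
  rw [e]
  refine (abs_add_le _ _).trans (add_le_add ((Finset.abs_sum_le_sum_abs _ _).trans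
    (Finset.sum_le_sum fun k _ => ?_)) ((Finset.abs_sum_le_sum_abs _ _).trans (le_of_eq ?_)))
  · exact norm_le_pi_norm (fun s => θs k s - θs' k s - c k) _
  · simp [abs_mul, abs_spinVal]

/-- The average of `log Z` over the index tuples. -/
noncomputable def avL (N : ℕ) {p M : ℕ} (θs : Fin M → Diluted.Inter p) (hs : Fin N → ℝ) : ℝ :=
  (Fintype.card (Fin M → Fin p → Fin N) : ℝ)⁻¹ *
    ∑ idx : Fin M → Fin p → Fin N, Diluted.logPartition N θs idx hs

theorem continuous_avL (N p M : ℕ) :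
    Continuous fun z : (Fin M → Diluted.Inter p) × (Fin N → ℝ) => avL N z.1 z.2 := by
  unfold avL Diluted.logPartition
  refine continuous_const.mul (continuous_finsetSum _ fun idx _ => Continuous.log (by fun_prop)
    fun z => (Finset.sum_pos (fun _ _ => Real.exp_pos _) Finset.univ_nonempty).ne')

theorem avL_lip {N p M : ℕ} (hN : 1 ≤ N) (θs θs' : Fin M → Diluted.Inter p) (c : Fin M → ℝ)
    (hs hs' : Fin N → ℝ) :
    |avL N θs hs - avL N θs' hs' - ∑ k, c k| ≤
      ∑ k, ‖fun s => θs k s - θs' k s - c k‖ + ∑ i, |hs i - hs' i| := by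
  have : Nonempty (Fin N) := ⟨⟨0, hN⟩⟩
  have hc : (0 : ℝ) < Fintype.card (Fin M → Fin p → Fin N) := by exact_mod_cast Fintype.card_pos
  have e : avL N θs hs - avL N θs' hs' - ∑ k, c k = (Fintype.card (Fin M → Fin p → Fin N) : ℝ)⁻¹ *
      ∑ idx : Fin M → Fin p → Fin N, (Diluted.logPartition N θs idx hs
        - Diluted.logPartition N θs' idx hs' - ∑ k, c k) := by
    simp only [avL, Finset.sum_sub_distrib, Finset.sum_const, Finset.card_univ, nsmul_eq_mul,
      mul_sub]
    rw [← mul_assoc, inv_mul_cancel₀ hc.ne', one_mul]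
  rw [e, abs_mul, abs_of_pos (inv_pos.2 hc), inv_mul_le_iff₀ hc]
  refine (Finset.abs_sum_le_sum_abs _ _).trans ((Finset.sum_le_sum fun idx _ =>
    logPartition_lip θs θs' c idx hs hs').trans (le_of_eq ?_))
  simp [mul_add]

theorem abs_avL_le {N p M : ℕ} (hN : 1 ≤ N) (θs : Fin M → Diluted.Inter p) (hs : Fin N → ℝ) :
    |avL N θs hs| ≤ N * Real.log 2 + (∑ k, ‖θs k‖ + ∑ i, |hs i|) := by
  have : Nonempty (Fin N) := ⟨⟨0, hN⟩⟩
  have hc : (0 : ℝ) < Fintype.card (Fin M → Fin p → Fin N) := by exact_mod_cast Fintype.card_pos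
  have h0 : avL N (0 : Fin M → Diluted.Inter p) 0 = N * Real.log 2 := by
    simp only [avL, Diluted.logPartition, Pi.zero_apply, Finset.sum_const_zero, zero_mul, add_zero,
      Real.exp_zero, Finset.sum_const, Finset.card_univ, nsmul_eq_mul, mul_one]
    rw [← mul_assoc, inv_mul_cancel₀ hc.ne', one_mul]
    simp
  have h := avL_lip hN θs 0 0 hs 0
  simp only [Pi.zero_apply, Finset.sum_const_zero, sub_zero, h0] at h
  have h2 : 0 ≤ N * Real.log 2 := by positivity
  have := abs_add_le (avL N θs hs - N * Real.log 2) (N * Real.log 2)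
  rw [sub_add_cancel, abs_of_nonneg h2] at this
  linarith

/-- The expectation of `log Z` with `M` interactions. -/
noncomputable def EM {p : ℕ} (μ : Measure (Diluted.Inter p)) (ν : Measure ℝ) (N M : ℕ) : ℝ :=
  ∫ θs, ∫ hs, avL N θs hs ∂(Measure.pi fun _ : Fin N => ν) ∂(Measure.pi fun _ : Fin M => μ)

theorem pressure_eq {p : ℕ} (α : ℝ) (μ : Measure (Diluted.Inter p)) (ν : Measure ℝ) (N : ℕ) :
    Diluted.pressure p α μ ν N = (1 / (N : ℝ)) * ∑' M : ℕ, poi (α * N) M * EM μ ν N M := rfl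

theorem mp_integral {X Y : Type} [MeasurableSpace X] [MeasurableSpace Y] {Q : Measure X}
    {P : Measure Y} {φ : X → Y} (h : MeasurePreserving φ Q P) {g : Y → ℝ} (hg : Integrable g P) :
    ∫ x, g (φ x) ∂Q = ∫ y, g y ∂P := by
  rw [← h.map_eq, integral_map h.aemeasurable (by rw [h.map_eq]; exact hg.1)]

section prod
variable {Ω Ω' : Type} [MeasurableSpace Ω] [MeasurableSpace Ω'] (P : Measure Ω) (ν : Measure Ω')
  [IsProbabilityMeasure P] [IsProbabilityMeasure ν] (M N : ℕ)

theorem int_sum {g : Ω → ℝ} {g' : Ω' → ℝ} (hg : Integrable g P) (hg' : Integrable g' ν) :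
    Integrable (fun z : (Fin M → Ω) × (Fin N → Ω') => ∑ k, g (z.1 k) + ∑ i, g' (z.2 i))
      ((Measure.pi fun _ => P).prod (Measure.pi fun _ => ν)) ∧
    ∫ z : (Fin M → Ω) × (Fin N → Ω'), (∑ k, g (z.1 k) + ∑ i, g' (z.2 i))
      ∂((Measure.pi fun _ => P).prod (Measure.pi fun _ => ν))
      = M * ∫ ω, g ω ∂P + N * ∫ h, g' h ∂ν := by
  have m1 : ∀ k : Fin M, MeasurePreserving (fun z : (Fin M → Ω) × (Fin N → Ω') => z.1 k)
      ((Measure.pi fun _ => P).prod (Measure.pi fun _ => ν)) P := fun k =>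
    (measurePreserving_eval (fun _ => P) k).comp measurePreserving_fst
  have m2 : ∀ i : Fin N, MeasurePreserving (fun z : (Fin M → Ω) × (Fin N → Ω') => z.2 i)
      ((Measure.pi fun _ => P).prod (Measure.pi fun _ => ν)) ν := fun i =>
    (measurePreserving_eval (fun _ => ν) i).comp measurePreserving_snd
  have i1 := fun k => (m1 k).integrable_comp_of_integrable hg
  have i2 := fun i => (m2 i).integrable_comp_of_integrable hg'
  have j1 := integrable_finsetSum Finset.univ fun k _ => i1 k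
  have j2 := integrable_finsetSum Finset.univ fun k _ => i2 k
  refine ⟨j1.add j2, ?_⟩
  simp only [Function.comp_def] at i1 i2 j1 j2
  rw [integral_add j1 j2, integral_finsetSum _ fun k _ => i1 k,
    integral_finsetSum _ fun k _ => i2 k]
  simp [mp_integral (m1 _) hg, mp_integral (m2 _) hg']

variable {P ν}

theorem EM_map {p : ℕ} (hN : 1 ≤ N) {θ : Ω → Diluted.Inter p} (hθ : Measurable θ)
    (iθ : Integrable (fun ω => ‖θ ω‖) P) {Ψ : Ω' → ℝ} (hΨ : Measurable Ψ) (iΨ : Integrable Ψ ν) :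
    Integrable (fun z : (Fin M → Ω) × (Fin N → Ω') => avL N (fun k => θ (z.1 k)) fun i => Ψ (z.2 i))
      ((Measure.pi fun _ => P).prod (Measure.pi fun _ => ν)) ∧
    EM (P.map θ) (ν.map Ψ) N M = ∫ z : (Fin M → Ω) × (Fin N → Ω'),
      avL N (fun k => θ (z.1 k)) (fun i => Ψ (z.2 i))
        ∂((Measure.pi fun _ => P).prod (Measure.pi fun _ => ν)) := by
  have := Measure.isProbabilityMeasure_map (μ := P) hθ.aemeasurable
  have := Measure.isProbabilityMeasure_map (μ := ν) hΨ.aemeasurable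
  have hm := (continuous_avL N p M).measurable
  have m1 : Measurable fun (x : Fin M → Ω) k => θ (x k) := by fun_prop
  have m2 : Measurable fun (x : Fin N → Ω') k => Ψ (x k) := by fun_prop
  have hi : Integrable (fun z : (Fin M → Ω) × (Fin N → Ω') =>
      avL N (fun k => θ (z.1 k)) fun i => Ψ (z.2 i))
      ((Measure.pi fun _ => P).prod (Measure.pi fun _ => ν)) := by
    refine Integrable.mono' ((integrable_const (N * Real.log 2)).add
      (int_sum P ν M N iθ iΨ.abs).1) (hm.comp ((m1.comp measurable_fst).prodMk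
        (m2.comp measurable_snd))).aestronglyMeasurable (Eventually.of_forall fun z => ?_)
    exact abs_avL_le hN _ _
  refine ⟨hi, ?_⟩
  rw [integral_prod _ hi, EM, ← Measure.pi_map_pi fun _ => hθ.aemeasurable,
    integral_map m1.aemeasurable
      (hm.stronglyMeasurable.integral_prod_right').aestronglyMeasurable]
  refine integral_congr_ae (Eventually.of_forall fun x => ?_)
  simp only
  rw [← Measure.pi_map_pi fun _ => hΨ.aemeasurable]
  exact integral_map m2.aemeasurable (hm.comp measurable_prodMk_left).aestronglyMeasurable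

theorem abs_EM_map_le {p : ℕ} (hN : 1 ≤ N) {θ : Ω → Diluted.Inter p} (hθ : Measurable θ)
    (iθ : Integrable (fun ω => ‖θ ω‖) P) {Ψ : Ω' → ℝ} (hΨ : Measurable Ψ) (iΨ : Integrable Ψ ν) :
    |EM (P.map θ) (ν.map Ψ) N M| ≤
      (N * Real.log 2 + N * ∫ h, |Ψ h| ∂ν) + (∫ ω, ‖θ ω‖ ∂P) * M := by
  obtain ⟨h1, h2⟩ := EM_map M N hN hθ iθ hΨ iΨ
  obtain ⟨h3, h4⟩ := int_sum P ν M N iθ iΨ.abs
  rw [h2]
  refine abs_integral_le_integral_abs.trans ((integral_mono h1.abs
    ((integrable_const (N * Real.log 2)).add h3) fun z => abs_avL_le hN _ _).trans (le_of_eq ?_))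
  simp only [Pi.add_apply]
  rw [integral_add (integrable_const _) h3, h4]
  simp only [integral_const, probReal_univ, smul_eq_mul]
  ring

end prod

theorem hasSum_poi_affine (x a b : ℝ) : HasSum (fun J : ℕ => poi x J * (a + b * J)) (a + b * x) := by
  have h := ((hasSum_poi x).mul_left a).add ((hasSum_poi_mul_nat x).mul_left b)
  rw [mul_one] at h
  have e : (fun J : ℕ => poi x J * (a + b * J)) = fun J : ℕ => a * poi x J + b * (poi x J * J) :=
    funext fun J => by ring
  rw [e]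
  exact h

theorem summable_poi_affine {x : ℝ} (hx : 0 ≤ x) {f : ℕ → ℝ} {a b : ℝ}
    (hf : ∀ J, |f J| ≤ a + b * J) : Summable fun J => poi x J * f J := by
  refine Summable.of_norm_bounded (hasSum_poi_affine x a b).summable fun J => ?_
  rw [Real.norm_eq_abs, abs_mul, abs_of_nonneg (poi_nonneg hx J)]
  exact mul_le_mul_of_nonneg_left (hf J) (poi_nonneg hx J)

theorem abs_tsum_poi_le {x : ℝ} (hx : 0 ≤ x) {f : ℕ → ℝ} {a b : ℝ}
    (hf : ∀ J, |f J| ≤ a + b * J) : |∑' J, poi x J * f J| ≤ a + b * x := by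
  rw [← Real.norm_eq_abs]
  refine tsum_of_norm_bounded (hasSum_poi_affine x a b) fun J => ?_
  rw [Real.norm_eq_abs, abs_mul, abs_of_nonneg (poi_nonneg hx J)]
  exact mul_le_mul_of_nonneg_left (hf J) (poi_nonneg hx J)

theorem prod_avg {ι κ A : Type} [Fintype ι] [DecidableEq ι] [Fintype κ] [CommMonoid A]
    (F : ι → κ → Ms A) : ∏ i, avg (F i) = avg fun f : ι → κ => ∏ i, F i (f i) := by
  simp only [avg, Finset.prod_smul, Finset.prod_const, Finset.card_univ, Fintype.card_fun,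
    Nat.cast_pow, inv_pow, Fintype.prod_sum]

theorem EM_toMeas {p : ℕ} {Θ : Ms (Diluted.Inter p)} (hΘ : Θ.Prob) {H₀ : Ms ℝ} (hH : H₀.Prob)
    (K : ℝ) {N : ℕ} (hN : 1 ≤ N) (M : ℕ) :
    EM (toMeas Θ) (toMeas H₀) N M
      = I (Zm (expI Θ) (fieldW K H₀) N M) (fun x => Real.log (sumv x)) + N * K := by
  have : Nonempty (Fin N) := ⟨⟨0, hN⟩⟩
  have hc : (0 : ℝ) < Fintype.card (Fin M → Fin p → Fin N) := by exact_mod_cast Fintype.card_pos
  have p1 := prob_piM (X := fun _ : Fin M => Θ) fun _ => hΘ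
  have p2 := prob_piM (X := fun _ : Fin N => H₀) fun _ => hH
  have e1 : ∀ i : Fin N, Ms.map (fun w (σ : Fin N → Bool) => w (σ i)) (fieldW K H₀)
      = Ms.bind H₀ fun h => dirac fun σ : Fin N → Bool =>
        Real.exp (h * Diluted.spinVal (σ i) - K) := fun i => ext_I fun f => by simp [fieldW]
  have e2 : (Ms.bind (expI Θ) fun g => avg fun idx : Fin p → Fin N =>
      dirac fun σ : Fin N → Bool => g fun ℓ => σ (idx ℓ)) ^ M
      = ∏ _k : Fin M, Ms.bind Θ fun θ => avg fun idx : Fin p → Fin N =>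
        dirac fun σ : Fin N → Bool => Real.exp (θ fun ℓ => σ (idx ℓ)) := by
    rw [Finset.prod_const, Finset.card_univ, Fintype.card_fin]
    congr 1
    exact ext_I fun f => by simp [expI]
  rw [EM, pi_toMeas fun _ => hΘ, pi_toMeas fun _ => hH, integral_toMeas p1.1, Zm, I_mul]
  simp only [integral_toMeas p2.1, e1, e2, I_prod_bind, ← dirac_prod, I_dirac, prod_avg, I_avg]
  rw [I_comm, ← p2.I_const (N * K), ← I_add_fun]
  refine I_congr fun hs _ => ?_
  rw [← p1.I_const (N * K), ← I_add_fun]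
  refine I_congr fun θs _ => ?_
  rw [avL, div_add' _ _ _ hc.ne', div_eq_inv_mul]
  congr 1
  rw [mul_comm, ← nsmul_eq_mul, ← Finset.card_univ, ← Finset.sum_const, ← Finset.sum_add_distrib]
  refine Finset.sum_congr rfl fun idx _ => ?_
  have e3 : sumv ((∏ i : Fin N, fun σ : Fin N → Bool => Real.exp (hs i * Diluted.spinVal (σ i) - K))
      * ∏ k : Fin M, fun σ : Fin N → Bool => Real.exp (θs k fun ℓ => σ (idx k ℓ)))
      = (∑ σ : Fin N → Bool, Real.exp ((∑ k : Fin M, θs k (fun ℓ => σ (idx k ℓ)))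
        + ∑ i : Fin N, hs i * Diluted.spinVal (σ i))) * Real.exp (-(N * K)) := by
    simp only [sumv, Pi.mul_apply, Finset.prod_apply, ← Real.exp_sum, ← Real.exp_add,
      Finset.sum_mul, Finset.sum_sub_distrib, Finset.sum_const, Finset.card_univ, Fintype.card_fin,
      nsmul_eq_mul]
    exact Finset.sum_congr rfl fun σ _ => by congr 1; ring
  rw [e3, Real.log_mul (Finset.sum_pos (fun _ _ => Real.exp_pos _) Finset.univ_nonempty).ne'
    (Real.exp_pos _).ne', Real.log_exp, Diluted.logPartition]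
  ring

theorem pressure_eq_press {p : ℕ} {α : ℝ} (hα : 0 ≤ α) {Θ : Ms (Diluted.Inter p)} (hΘ : Θ.Prob)
    {H₀ : Ms ℝ} (hH : H₀.Prob) (K : ℝ) (N : ℕ) (hN : 1 ≤ N) :
    Diluted.pressure p α (toMeas Θ) (toMeas H₀) N = press α (expI Θ) (fieldW K H₀) N + K := by
  have hN' : (0 : ℝ) < N := by exact_mod_cast hN
  have := isProb_toMeas hΘ
  have := isProb_toMeas hH
  have hb := fun M => abs_EM_map_le (P := toMeas Θ) (ν := toMeas H₀) M N hN measurable_id
    (integrable_toMeas _ _) measurable_id (integrable_toMeas _ _)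
  simp only [Measure.map_id] at hb
  have hs := summable_poi_affine (x := α * N) (by positivity) hb
  have h2 := hs.tsum_sub ((hasSum_poi (α * N)).mul_right (N * K)).summable
  rw [((hasSum_poi (α * N)).mul_right (N * K)).tsum_eq] at h2
  simp only [← mul_sub, EM_toMeas hΘ hH K hN, add_sub_cancel_right] at h2
  rw [pressure_eq, press, h2]
  simp only [EM_toMeas hΘ hH K hN]
  field_simp
  ring

theorem pressure_lip {p : ℕ} {α : ℝ} (hα : 0 ≤ α) {Ω : Type} [MeasurableSpace Ω] (P : Measure Ω)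
    [IsProbabilityMeasure P] {θ θ' : Ω → Diluted.Inter p} {c : Ω → ℝ} (hθ : Measurable θ)
    (hθ' : Measurable θ') (hc : Measurable c)
    (iθ : Integrable (fun ω => Diluted.supNorm (θ ω)) P)
    (iθ' : Integrable (fun ω => Diluted.supNorm (θ' ω)) P) (ic : Integrable c P)
    (ν : Measure ℝ) [IsProbabilityMeasure ν] (hν : Integrable (fun x : ℝ => x) ν) {Ψ : ℝ → ℝ}
    (hΨ : Measurable Ψ) (iΨ : Integrable Ψ ν) (N : ℕ) (hN : 1 ≤ N) :
    |Diluted.pressure p α (P.map θ) ν N - Diluted.pressure p α (P.map θ') (ν.map Ψ) N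
        - α * ∫ ω, c ω ∂P| ≤
      α * ∫ ω, Diluted.supNorm (fun s => θ ω s - θ' ω s - c ω) ∂P + ∫ h, |h - Ψ h| ∂ν := by
  have hN' : (0 : ℝ) < N := by exact_mod_cast hN
  have hx : 0 ≤ α * N := by positivity
  simp only [supNorm_eq_norm] at iθ iθ' ⊢
  have iD : Integrable (fun ω => ‖fun s => θ ω s - θ' ω s - c ω‖) P := by
    refine Integrable.mono' ((iθ.add iθ').add ic.abs)
      (Measurable.norm (by fun_prop)).aestronglyMeasurable (Eventually.of_forall fun ω => ?_)
    rw [norm_norm]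
    refine (pi_norm_le_iff_of_nonneg (by simp only [Pi.add_apply]; positivity)).2 fun s => ?_
    refine (norm_sub_le _ _).trans (add_le_add ((norm_sub_le _ _).trans
      (add_le_add (norm_le_pi_norm _ s) (norm_le_pi_norm _ s))) le_rfl)
  have iH : Integrable (fun h => |h - Ψ h|) ν := (hν.sub iΨ).abs
  have hb := fun M => abs_EM_map_le (ν := ν) M N hN hθ iθ measurable_id hν
  have hb' := fun M => abs_EM_map_le (ν := ν) M N hN hθ' iθ' hΨ iΨ
  simp only [Measure.map_id] at hb
  have hd : ∀ M, |EM (P.map θ) ν N M - EM (P.map θ') (ν.map Ψ) N M - (0 + (∫ ω, c ω ∂P) * M)|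
      ≤ N * ∫ h, |h - Ψ h| ∂ν + (∫ ω, ‖fun s => θ ω s - θ' ω s - c ω‖ ∂P) * M := by
    intro M
    obtain ⟨h1, h2⟩ := EM_map (ν := ν) M N hN hθ iθ measurable_id hν
    obtain ⟨h3, h4⟩ := EM_map (ν := ν) M N hN hθ' iθ' hΨ iΨ
    obtain ⟨h5, h6⟩ := int_sum P ν M N ic (integrable_zero ℝ ℝ ν)
    obtain ⟨h7, h8⟩ := int_sum P ν M N iD iH
    simp only [Pi.zero_apply, Finset.sum_const_zero, add_zero, integral_zero, mul_zero] at h5 h6
    rw [Measure.map_id] at h2
    have h13 : Integrable (fun z : (Fin M → Ω) × (Fin N → ℝ) =>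
        avL N (fun k => θ (z.1 k)) (fun i => id (z.2 i)) - avL N (fun k => θ' (z.1 k)) fun i => Ψ (z.2 i))
        ((Measure.pi fun _ => P).prod (Measure.pi fun _ => ν)) := h1.sub h3
    rw [h2, h4, zero_add, mul_comm, ← h6, ← integral_sub h1 h3, ← integral_sub h13 h5,
      add_comm, mul_comm _ (M : ℝ), ← h8]
    exact abs_integral_le_integral_abs.trans (integral_mono (h13.sub h5).abs h7
      fun z => avL_lip hN _ _ (fun k => c (z.1 k)) _ _)
  have h := abs_tsum_poi_le hx hd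
  simp only [mul_sub] at h
  rw [((summable_poi_affine hx hb).sub (summable_poi_affine hx hb')).tsum_sub
    (hasSum_poi_affine _ _ _).summable, (hasSum_poi_affine _ _ _).tsum_eq,
    (summable_poi_affine hx hb).tsum_sub (summable_poi_affine hx hb')] at h
  rw [pressure_eq, pressure_eq]
  generalize ∑' M : ℕ, poi (α * N) M * EM (P.map θ) ν N M = u,
    ∑' M : ℕ, poi (α * N) M * EM (P.map θ') (ν.map Ψ) N M = u' at h ⊢
  have e : 1 / (N : ℝ) * u - 1 / (N : ℝ) * u' - α * ∫ ω, c ω ∂P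
      = (u - u' - (0 + (∫ ω, c ω ∂P) * (α * N))) / N := by field_simp; ring
  rw [e, abs_div, abs_of_pos hN', div_le_iff₀ hN']
  refine h.trans (le_of_eq ?_)
  ring

theorem exists_field_approx (ν : Measure ℝ) [IsProbabilityMeasure ν]
    (hν : Integrable (fun x : ℝ => x) ν) {ε : ℝ} (hε : 0 < ε) :
    ∃ (Ψ : ℝ → ℝ) (H₀ : Ms ℝ) (K : ℝ), Measurable Ψ ∧ Integrable Ψ ν ∧ H₀.Prob ∧
      H₀.Supp (fun h => |h| ≤ K) ∧ ν.map Ψ = toMeas H₀ ∧ ∫ h, |h - Ψ h| ∂ν ≤ ε := by
  obtain ⟨g, hg, hg'⟩ := (memLp_one_iff_integrable.2 hν).exists_simpleFunc_eLpNorm_sub_lt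
    ENNReal.one_ne_top (ε := ENNReal.ofReal ε) (by simpa using hε)
  have ig := memLp_one_iff_integrable.1 hg'
  obtain ⟨H₀, h1, h2, h3⟩ := exists_map_eq_toMeas ν g.measurable g.finite_range
  obtain ⟨K, hK⟩ := (g.finite_range.image abs).bddAbove
  refine ⟨g, H₀, K, g.measurable, ig, h1, h2.mono fun h hh => hK ⟨h, hh, rfl⟩, h3, ?_⟩
  rw [eLpNorm_one_eq_lintegral_enorm, ← ofReal_integral_norm_eq_lintegral_enorm (hν.sub ig),
    ENNReal.ofReal_lt_ofReal_iff hε] at hg
  exact hg.le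

end Crest.Agent.R141
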