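import Crest.Agent.R141.TLip_PM

/-!
Row 141: elementary bounds on the edge and site terms.
-/

set_option autoImplicit false

namespace Crest.Agent.R141.TL

open Crest.ProbabilityR Crest.ProbabilityR.Diluted MeasureTheory Filter Topology

variable {p k : ℕ}

theorem abs_le_supNorm (θ : Inter p) (s : Fin p → Bool) : |θ s| ≤ supNorm θ :=
  le_ciSup (f := fun s => |θ s|) (Set.finite_range _).bddAbove s

theorem supNorm_nonneg (θ : Inter p) : 0 ≤ supNorm θ :=
  (abs_nonneg _).trans (abs_le_supNorm θ fun _ => true)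

theorem supNorm_le {θ : Inter p} {a : ℝ} (h : ∀ s, |θ s| ≤ a) : supNorm θ ≤ a := ciSup_le h

theorem measurable_supNorm : Measurable (supNorm : Inter p → ℝ) :=
  Measurable.iSup fun s => (measurable_pi_apply s).abs

theorem tilt_pos (x : ℝ) (s : Bool) : 0 < tilt x s :=
  div_pos (Real.exp_pos _) (mul_pos two_pos (Real.cosh_pos x))

theorem continuous_tilt (s : Bool) : Continuous fun x => tilt x s :=
  Continuous.div (by fun_prop) (by fun_prop) fun x => (mul_pos two_pos (Real.cosh_pos x)).ne'

theorem sum_tilt (x : ℝ) : ∑ s, tilt x s = 1 := by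
  have := Real.cosh_pos x
  simp only [Fintype.sum_bool, tilt, spinVal]
  field_simp
  simp [Real.cosh_eq]
  ring

/-- a weighted sum of exponentials -/
noncomputable def wse {n : ℕ} (a : (Fin n → Bool) → ℝ) (x : Fin n → ℝ) : ℝ :=
  ∑ s : Fin n → Bool, Real.exp (a s) * ∏ ℓ, tilt (x ℓ) (s ℓ)

theorem wse_pos {n : ℕ} (a : (Fin n → Bool) → ℝ) (x : Fin n → ℝ) : 0 < wse a x :=
  Finset.sum_pos (fun _ _ => mul_pos (Real.exp_pos _) (Finset.prod_pos fun _ _ => tilt_pos _ _))
    Finset.univ_nonempty

theorem wse_zero {n : ℕ} (x : Fin n → ℝ) : wse (fun _ => 0) x = 1 := by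
  simp only [wse, Real.exp_zero, one_mul]
  rw [← Fintype.piFinset_univ, ← Finset.prod_univ_sum (fun _ => Finset.univ)
    fun ℓ s => tilt (x ℓ) s]
  simp only [sum_tilt, Finset.prod_const_one]

theorem wse_le {n : ℕ} {a b : (Fin n → Bool) → ℝ} {d : ℝ} (h : ∀ s, a s ≤ d + b s)
    (x : Fin n → ℝ) : wse a x ≤ Real.exp d * wse b x := by
  rw [wse, wse, Finset.mul_sum]
  refine Finset.sum_le_sum fun s _ => ?_
  rw [← mul_assoc, ← Real.exp_add]
  exact mul_le_mul_of_nonneg_right (Real.exp_le_exp.2 (h s))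
    (Finset.prod_pos fun _ _ => tilt_pos _ _).le

theorem continuous_wse {n : ℕ} :
    Continuous fun q : ((Fin n → Bool) → ℝ) × (Fin n → ℝ) => wse q.1 q.2 := by
  refine continuous_finsetSum _ fun s _ => Continuous.mul (by fun_prop) ?_
  exact continuous_finsetProd _ fun ℓ _ => (continuous_tilt _).comp (by fun_prop)

theorem ct_of_le {L : Type} [Fintype L] {T : (L → ℝ) → ℝ} {B : ℝ} (hc : Continuous T)
    (h1 : ∀ x, T x ≤ Real.exp B * 1) (h2 : ∀ x, 1 ≤ Real.exp B * T x) : Ct B T :=
  ⟨hc, fun x => by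
    rw [Real.exp_neg, inv_le_iff_one_le_mul₀' (Real.exp_pos B)]
    exact h2 x, fun x => by simpa using h1 x⟩

theorem ct_edge (θ : Inter p) : Ct (supNorm θ) (edgeTerm θ) :=
  ct_of_le (continuous_wse.comp (continuous_const.prodMk continuous_id))
    (fun x => by
      rw [← wse_zero x]
      exact wse_le (fun s => by simpa using (abs_le.1 (abs_le_supNorm θ s)).2) x)
    fun x => by
      rw [← wse_zero x]
      exact wse_le (fun s => by linarith [(abs_le.1 (abs_le_supNorm θ s)).1]) x

theorem siteMessage_le {θ θ' : Inter p} {d : ℝ} (h : ∀ s, θ s ≤ d + θ' s) (x : Fin (p - 1) → ℝ)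
    (ε : Bool) : siteMessage θ x ε ≤ d + siteMessage θ' x ε := by
  have h1 := Real.log_le_log (wse_pos _ x) (wse_le
    (a := fun s' => θ fun ℓ => if h : ℓ.val < p - 1 then s' ⟨ℓ.val, h⟩ else ε)
    (b := fun s' => θ' fun ℓ => if h : ℓ.val < p - 1 then s' ⟨ℓ.val, h⟩ else ε)
    (fun _ => h _) x)
  rwa [Real.log_mul (Real.exp_pos d).ne' (wse_pos _ x).ne', Real.log_exp] at h1

theorem siteMessage_zero (x : Fin (p - 1) → ℝ) (ε : Bool) :
    siteMessage (fun _ => 0) x ε = 0 := by
  have := congrArg Real.log (wse_zero x)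
  rwa [Real.log_one] at this

theorem continuous_siteMessage (ε : Bool) :
    Continuous fun q : Inter p × (Fin (p - 1) → ℝ) => siteMessage q.1 q.2 ε := by
  have : Continuous fun q : Inter p × (Fin (p - 1) → ℝ) =>
      wse (fun s' => q.1 fun ℓ => if h : ℓ.val < p - 1 then s' ⟨ℓ.val, h⟩ else ε) q.2 :=
    continuous_wse.comp (Continuous.prodMk (by fun_prop) continuous_snd)
  exact this.log fun q => (wse_pos _ _).ne'

/-- the site term as a function of the messages of the labels -/
noncomputable def site (h : ℝ) (θs : Fin k → Inter p) (x : Fin k × Fin (p - 1) → ℝ) : ℝ :=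
  siteTerm h θs fun j ℓ => x (j, ℓ)

theorem site_le {h h' : ℝ} {θs θs' : Fin k → Inter p} {d : Fin k → ℝ}
    (hd : ∀ j s, θs j s ≤ d j + θs' j s) (x : Fin k × Fin (p - 1) → ℝ) :
    site h θs x ≤ Real.exp (|h - h'| + ∑ j, d j) * site h' θs' x := by
  rw [site, site, siteTerm, siteTerm, mul_left_comm, Finset.mul_sum _ _ (Real.exp _)]
  refine mul_le_mul_of_nonneg_left (Finset.sum_le_sum fun ε _ => ?_) (by norm_num)
  rw [← Real.exp_add, Real.exp_le_exp]
  have h1 := Finset.sum_le_sum fun j (_ : j ∈ Finset.univ) =>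
    siteMessage_le (hd j) (fun ℓ => x (j, ℓ)) ε
  rw [Finset.sum_add_distrib] at h1
  have h2 : h * spinVal ε ≤ |h - h'| + h' * spinVal ε := by
    cases ε <;> simp only [spinVal] <;> simp <;>
      linarith [le_abs_self (h - h'), neg_abs_le (h - h')]
  linarith

theorem site_zero (x : Fin k × Fin (p - 1) → ℝ) : site 0 (fun _ _ => 0) x = 1 := by
  simp [site, siteTerm, siteMessage_zero]

theorem continuous_site :
    Continuous fun q : ((Fin k → Inter p) × ℝ) × (Fin k × Fin (p - 1) → ℝ) =>
      site q.1.2 q.1.1 q.2 := by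
  refine continuous_const.mul (continuous_finsetSum _ fun ε _ => Real.continuous_exp.comp
    (Continuous.add (by fun_prop) (continuous_finsetSum _ fun j _ => ?_)))
  exact (continuous_siteMessage ε).comp
    (f := fun q : ((Fin k → Inter p) × ℝ) × (Fin k × Fin (p - 1) → ℝ) =>
      (q.1.1 j, fun ℓ => q.2 (j, ℓ))) (by fun_prop)

theorem ct_site (h : ℝ) (θs : Fin k → Inter p) : Ct (|h| + ∑ j, supNorm (θs j)) (site h θs) :=
  ct_of_le (continuous_site.comp (f := fun x => ((θs, h), x)) (by fun_prop))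
    (fun x => by
      have := site_le (h := h) (h' := 0) (θs := θs) (θs' := fun _ _ => 0)
        (d := fun j => supNorm (θs j))
        (fun j s => by simpa using (abs_le.1 (abs_le_supNorm (θs j) s)).2) x
      rwa [site_zero, sub_zero] at this)
    fun x => by
      have := site_le (h := 0) (h' := h) (θs := fun _ _ => 0) (θs' := θs)
        (d := fun j => supNorm (θs j))
        (fun j s => by linarith [(abs_le.1 (abs_le_supNorm (θs j) s)).1]) x
      rwa [site_zero, zero_sub, abs_neg] at this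

variable {r : ℕ} {m : Fin r → ℝ} {X : (Fin (r + 1) → unitInterval) → ℝ}

theorem measurable_G_site (hX : Measurable X) :
    Measurable fun z : (Fin k → Inter p) × ℝ => G m X (site z.2 z.1) :=
  measurable_G hX continuous_site.measurable

theorem measurable_G_edge (hX : Measurable X) :
    Measurable fun θ : Inter p => G m X (edgeTerm θ) :=
  measurable_G hX continuous_wse.measurable

theorem G_site_lip (hm : ∀ d, 0 < m d) (hX : Measurable X) (h h' : ℝ) (θs θs' : Fin k → Inter p)
    (c : Fin k → ℝ) :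
    |G m X (site h θs) - G m X (site h' θs') - ∑ j, c j| ≤
      |h - h'| + ∑ j, supNorm fun s => θs j s - θs' j s - c j := by
  have a := fun j s => abs_le.1 (abs_le_supNorm (fun s => θs j s - θs' j s - c j) s)
  have h1 := (ct_site h θs).G_le (ct_site h' θs') (site_le
    (d := fun j => (supNorm fun s => θs j s - θs' j s - c j) + c j)
    fun j s => by linarith [(a j s).2]) hm hX
  have h2 := (ct_site h' θs').G_le (ct_site h θs) (site_le
    (d := fun j => (supNorm fun s => θs j s - θs' j s - c j) - c j)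
    fun j s => by linarith [(a j s).1]) hm hX
  rw [Finset.sum_add_distrib] at h1
  rw [Finset.sum_sub_distrib, abs_sub_comm] at h2
  rw [abs_le]
  constructor <;> linarith

theorem G_edge_lip (hm : ∀ d, 0 < m d) (hX : Measurable X) (θ θ' : Inter p) (c : ℝ) :
    |G m X (edgeTerm θ) - G m X (edgeTerm θ') - c| ≤ supNorm fun s => θ s - θ' s - c := by
  have a := fun s => abs_le.1 (abs_le_supNorm (fun s => θ s - θ' s - c) s)
  have h1 := (ct_edge θ).G_le (ct_edge θ') (wse_le
    (d := (supNorm fun s => θ s - θ' s - c) + c) fun s => by linarith [(a s).2]) hm hX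
  have h2 := (ct_edge θ').G_le (ct_edge θ) (wse_le
    (d := (supNorm fun s => θ s - θ' s - c) - c) fun s => by linarith [(a s).1]) hm hX
  rw [abs_le]
  constructor <;> linarith

/-- the site contribution with `k` interactions -/
noncomputable def SK (μ : Measure (Inter p)) (ν : Measure ℝ) (m : Fin r → ℝ)
    (X : (Fin (r + 1) → unitInterval) → ℝ) (k : ℕ) : ℝ :=
  ∫ θs, ∫ h, G m X (site h θs) ∂ν ∂(Measure.pi fun _ : Fin k => μ)

theorem trial_eq (α : ℝ) (μ : Measure (Inter p)) (ν : Measure ℝ) :
    trialFunctional p α μ ν r m X = Real.log 2 +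
      (∑' k : ℕ, poissonWeight (α * p) k * SK μ ν m X k) -
      α * (p - 1 : ℝ) * ∫ θ, G m X (edgeTerm θ) ∂μ := rfl

theorem int_G_site (hm : ∀ d, 0 < m d) (hX : Measurable X) {ν : Measure ℝ} [IsProbabilityMeasure ν]
    {Ψ : ℝ → ℝ} (hΨ : Measurable Ψ) (iΨ : Integrable Ψ ν) (θs : Fin k → Inter p) :
    Integrable (fun h => G m X (site (Ψ h) θs)) ν :=
  (iΨ.abs.add (integrable_const (∑ j, supNorm (θs j)))).mono'
    ((measurable_G_site hX).comp (measurable_const.prodMk hΨ)).aestronglyMeasurable
    (Eventually.of_forall fun h => (ct_site (Ψ h) θs).abs_G hm hX)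

theorem abs_inner_le (hm : ∀ d, 0 < m d) (hX : Measurable X) {ν : Measure ℝ}
    [IsProbabilityMeasure ν] (hν : Integrable (fun x : ℝ => x) ν) (θs : Fin k → Inter p) :
    |∫ h, G m X (site h θs) ∂ν| ≤ ∫ h, |h| ∂ν + ∑ j, supNorm (θs j) := by
  have := norm_integral_le_of_norm_le (f := fun h => G m X (site h θs))
    (hν.abs.add (integrable_const (∑ j, supNorm (θs j))))
    (Eventually.of_forall fun h => (ct_site h θs).abs_G hm hX)
  simp only [Pi.add_apply] at this
  rwa [integral_add hν.abs (integrable_const _), integral_const, probReal_univ, one_smul] at this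

theorem measurable_inner (hX : Measurable X) (ν : Measure ℝ) [IsProbabilityMeasure ν] :
    Measurable fun θs : Fin k → Inter p => ∫ h, G m X (site h θs) ∂ν :=
  ((measurable_G_site hX).stronglyMeasurable.integral_prod_right' (ν := ν)).measurable

theorem int_sum_pi {Ω : Type} [MeasurableSpace Ω] {P : Measure Ω} [IsProbabilityMeasure P]
    {f : Ω → ℝ} (hf : Integrable f P) (k : ℕ) :
    Integrable (fun ω : Fin k → Ω => ∑ j, f (ω j)) (Measure.pi fun _ => P) :=
  integrable_finsetSum _ fun j _ => integrable_comp_eval (μ := fun _ => P) (i := j) hf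

theorem integral_sum_pi {Ω : Type} [MeasurableSpace Ω] {P : Measure Ω} [IsProbabilityMeasure P]
    {f : Ω → ℝ} (hf : Integrable f P) (k : ℕ) :
    ∫ ω : Fin k → Ω, ∑ j, f (ω j) ∂(Measure.pi fun _ => P) = k * ∫ ω, f ω ∂P := by
  rw [integral_finsetSum _ fun j _ => integrable_comp_eval (μ := fun _ => P) (i := j) hf]
  simp only [integral_comp_eval (μ := fun _ : Fin k => P) hf.aestronglyMeasurable]
  simp

theorem abs_SK_le (hm : ∀ d, 0 < m d) (hX : Measurable X) {μ : Measure (Inter p)}
    [IsProbabilityMeasure μ] (hμ : Integrable supNorm μ) {ν : Measure ℝ}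
    [IsProbabilityMeasure ν] (hν : Integrable (fun x : ℝ => x) ν) (k : ℕ) :
    |SK μ ν m X k| ≤ ∫ h, |h| ∂ν + k * ∫ θ, supNorm θ ∂μ := by
  have := norm_integral_le_of_norm_le (f := fun θs : Fin k → Inter p => ∫ h, G m X (site h θs) ∂ν)
    ((integrable_const (∫ h, |h| ∂ν)).add (int_sum_pi hμ k))
    (Eventually.of_forall fun θs => abs_inner_le hm hX hν θs)
  simp only [Pi.add_apply] at this
  rwa [integral_add (integrable_const _) (int_sum_pi hμ k), integral_const, probReal_univ, one_smul,
    integral_sum_pi hμ] at this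

end Crest.Agent.R141.TL
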