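import Crest.Agent.R141.ToMeas
import Crest.Agent.R141.TLip_T

/-!
Row 141, task R141-TLip: regularity of the trial functional.  Work files `R141/TLip_*.lean`.

PLAN.  General facts on `pmStep`/`powerMeans` (induction on the list of levels, exponents in `(0,1)`), for
`W : Z → (L → Fin (r+1) → I) → ℝ` jointly measurable with `0 < lo z ≤ W z u ≤ hi z`:
(a) `(z,u) ↦ powerMeans m (W z) u` is measurable with the same bounds (`StronglyMeasurable.integral_prod_right`);
(b) `W ≤ C W'` pointwise implies `powerMeans m W ≤ C powerMeans m W'`;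
(c) `∫ |powerMeans m W u - powerMeans m W' u| du ≤ C(m, lo, hi) ∫ |W - W'| du`; for `exists_step_trial` it is more convenient to
get a bound linear in the number `k` of interactions: change the labels one at a time, or use (b) with the
truncation argument; alternatively use dominated convergence level by level along a sequence `X_n → X` a.e. and
dominated convergence for the Poisson series (`|log powerMeans siteTerm| ≤ |h| + Σ supNorm θ_j`).
`trial_lip`: `e^{-d} siteTerm' e^{Σ c} ≤ siteTerm ≤ e^{d} siteTerm' e^{Σ c}` with `d = Σ_j supNorm (θ_j - θ'_j - c_j) + |h - Ψ h|`,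
homogeneity and (b); `Measure.pi_map_pi`; `Σ' poi λ k * k = λ`.
`exists_step_trial`: approximate the bounded measurable function `q = tilt (X ·) true` in `L¹` of the cube by a continuous
function (`Integrable.exists_boundedContinuous_integral_sub_le` or similar), clamp into `[η, 1-η]`, then by its
values on a grid `u ↦ x (π ∘ u)` with `π : I → I` measurable of finite range (uniform continuity), and take
`X'` = the message with that probability; every function `u ↦ x (π ∘ u)` satisfies `RepN` for some nest (induction on `r`;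
`τ v` = the nest of `u ↦ x (π ∘ cons v u)`, chosen as a function of `π v`).
-/

set_option autoImplicit false

namespace Crest.Agent.R141

open Crest.Agent.R153 Crest.Agent.R153.Ms Crest.Agent.R153.Nest
open Crest.ProbabilityR MeasureTheory Filter

namespace TL

open Crest.ProbabilityR.Diluted Topology

variable {p r : ℕ} {m : Fin r → ℝ} {X : (Fin (r + 1) → unitInterval) → ℝ}

theorem hasSum_poi_aff (x a b : ℝ) :
    HasSum (fun k : ℕ => poi x k * (a + k * b)) (a + x * b) := by
  have := ((hasSum_poi x).mul_right a).add ((hasSum_poi_mul_nat x).mul_right b)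
  have e : (fun k : ℕ => poi x k * (a + k * b)) = fun k => poi x k * a + poi x k * k * b := by
    funext k; ring
  rw [one_mul] at this
  rwa [e]

theorem summable_aff {x : ℝ} (hx : 0 ≤ x) {f : ℕ → ℝ} {a b : ℝ} (hf : ∀ k, |f k| ≤ a + k * b) :
    Summable fun k => poi x k * f k := by
  refine Summable.of_norm_bounded (hasSum_poi_aff x a b).summable fun k => ?_
  rw [Real.norm_eq_abs, abs_mul, abs_of_nonneg (poi_nonneg hx k)]
  exact mul_le_mul_of_nonneg_left (hf k) (poi_nonneg hx k)

theorem abs_integral_sub_le {Z : Type} [MeasurableSpace Z] {P : Measure Z} {f g c d : Z → ℝ}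
    (hf : Integrable f P) (hg : Integrable g P) (hc : Integrable c P) (hd : Integrable d P)
    (h : ∀ z, |f z - g z - c z| ≤ d z) :
    |∫ z, f z ∂P - ∫ z, g z ∂P - ∫ z, c z ∂P| ≤ ∫ z, d z ∂P := by
  rw [← integral_sub hf hg, ← integral_sub (f := fun z => f z - g z) (hf.sub hg) hc]
  exact norm_integral_le_of_norm_le (f := fun z => f z - g z - c z) hd (Eventually.of_forall h)

theorem int_inner (hm : ∀ d, 0 < m d) (hX : Measurable X) {ν : Measure ℝ}
    [IsProbabilityMeasure ν] (hν : Integrable (fun x : ℝ => x) ν) {Ω : Type} [MeasurableSpace Ω]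
    {P : Measure Ω} [IsProbabilityMeasure P] {θ : Ω → Inter p} (hθ : Measurable θ)
    (iθ : Integrable (fun ω => supNorm (θ ω)) P) (k : ℕ) :
    Integrable (fun ω : Fin k → Ω => ∫ h, G m X (site h fun j => θ (ω j)) ∂ν)
      (Measure.pi fun _ => P) :=
  ((integrable_const (∫ h, |h| ∂ν)).add (int_sum_pi iθ k)).mono'
    ((measurable_inner hX ν).comp
      (measurable_pi_iff.2 fun j => hθ.comp (measurable_pi_apply j))).aestronglyMeasurable
    (Eventually.of_forall fun _ => abs_inner_le hm hX hν _)

theorem SK_map (hX : Measurable X) (ν : Measure ℝ) [IsProbabilityMeasure ν] {Ω : Type}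
    [MeasurableSpace Ω] (P : Measure Ω) [IsProbabilityMeasure P] {θ : Ω → Inter p}
    (hθ : Measurable θ) (k : ℕ) :
    SK (P.map θ) ν m X k =
      ∫ ω : Fin k → Ω, ∫ h, G m X (site h fun j => θ (ω j)) ∂ν ∂(Measure.pi fun _ => P) := by
  haveI := Measure.isProbabilityMeasure_map (μ := P) hθ.aemeasurable
  rw [SK, ← Measure.pi_map_pi (f := fun _ : Fin k => θ) fun _ => hθ.aemeasurable]
  exact integral_map (measurable_pi_iff.2 fun j => hθ.comp (measurable_pi_apply j)).aemeasurable
    (measurable_inner hX ν).aestronglyMeasurable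

theorem tendsto_trial {α : ℝ} (hα : 0 ≤ α) {μ : Measure (Inter p)} [IsProbabilityMeasure μ]
    (hμ : Integrable supNorm μ) {ν : Measure ℝ} [IsProbabilityMeasure ν]
    (hν : Integrable (fun x : ℝ => x) ν) (hm : ∀ d, 0 < m d) (hX : Measurable X)
    {Y : ℕ → (Fin (r + 1) → unitInterval) → ℝ} (hY : ∀ n, Measurable (Y n))
    (hl : ∀ᵐ a ∂volL (Fin (r + 1)), Tendsto (fun n => Y n a) atTop (𝓝 (X a))) :
    Tendsto (fun n => trialFunctional p α μ ν r m (Y n)) atTop
      (𝓝 (trialFunctional p α μ ν r m X)) := by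
  have hx : 0 ≤ α * p := by positivity
  simp only [trial_eq]
  refine (Tendsto.const_add _ ?_).sub (Tendsto.const_mul _ ?_)
  · refine tendsto_tsum_of_dominated_convergence
      (hasSum_poi_aff (α * p) (∫ h, |h| ∂ν) (∫ θ, supNorm θ ∂μ)).summable (fun k => ?_)
      (Eventually.of_forall fun n k => ?_)
    · refine Tendsto.const_mul _ (tendsto_integral_of_dominated_convergence
        (fun θs => ∫ h, |h| ∂ν + ∑ j, supNorm (θs j))
        (fun n => (measurable_inner (hY n) ν).aestronglyMeasurable)
        ((integrable_const _).add (int_sum_pi hμ k))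
        (fun n => Eventually.of_forall fun θs => abs_inner_le hm (hY n) hν θs)
        (Eventually.of_forall fun θs => ?_))
      exact tendsto_integral_of_dominated_convergence (fun h => |h| + ∑ j, supNorm (θs j))
        (fun n => (int_G_site hm (hY n) measurable_id hν θs).aestronglyMeasurable)
        (hν.abs.add (integrable_const _))
        (fun n => Eventually.of_forall fun h => (ct_site h θs).abs_G hm (hY n))
        (Eventually.of_forall fun h => (ct_site h θs).G_tendsto hm hX hY hl)
    · change |poi (α * p) k * _| ≤ _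
      rw [abs_mul, abs_of_nonneg (poi_nonneg hx k)]
      exact mul_le_mul_of_nonneg_left (abs_SK_le hm (hY n) hμ hν k) (poi_nonneg hx k)
  · exact tendsto_integral_of_dominated_convergence supNorm
      (fun n => (measurable_G_edge (hY n)).aestronglyMeasurable) hμ
      (fun n => Eventually.of_forall fun θ => (ct_edge θ).abs_G hm (hY n))
      (Eventually.of_forall fun θ => (ct_edge θ).G_tendsto hm hX hY hl)

theorem exists_grid {δ : ℝ} (hδ : 0 < δ) : ∃ π : unitInterval → unitInterval, Measurable π ∧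
    (Set.range π).Finite ∧ ∀ t, dist (π t) t ≤ δ := by
  obtain ⟨N, hN⟩ := exists_nat_one_div_lt hδ
  have hN0 : (0 : ℝ) < N + 1 := by positivity
  have h1 : ∀ t : unitInterval, ((⌊((N : ℝ) + 1) * t⌋₊ : ℝ)) ≤ (N + 1) * t := fun t =>
    Nat.floor_le (mul_nonneg hN0.le t.2.1)
  let g : ℕ → unitInterval := fun j => Set.projIcc 0 1 zero_le_one ((j : ℝ) / (N + 1))
  refine ⟨fun t => g ⌊((N : ℝ) + 1) * t⌋₊, (measurable_from_nat (f := g)).comp
    (Measurable.nat_floor (by fun_prop)), ?_, fun t => ?_⟩
  · refine ((Set.finite_Iic (N + 1)).image g).subset ?_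
    rintro _ ⟨t, rfl⟩
    refine ⟨_, ?_, rfl⟩
    have : ((⌊((N : ℝ) + 1) * t⌋₊ : ℝ)) ≤ ((N + 1 : ℕ) : ℝ) := by
      push_cast
      exact (h1 t).trans (mul_le_of_le_one_right hN0.le t.2.2)
    exact_mod_cast this
  · have h2 : ((⌊((N : ℝ) + 1) * t⌋₊ : ℝ)) / (N + 1) ≤ t := by
      rw [div_le_iff₀' hN0]; exact h1 t
    have h3 : (t : ℝ) ≤ ((⌊((N : ℝ) + 1) * t⌋₊ : ℝ)) / (N + 1) + 1 / (N + 1) := by
      rw [← add_div, le_div_iff₀' hN0]; exact (Nat.lt_floor_add_one _).le
    rw [Subtype.dist_eq]
    simp only [g]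
    rw [Set.projIcc_of_mem _ ⟨by positivity, h2.trans t.2.2⟩, Real.dist_eq, abs_le]
    constructor <;> linarith

theorem exists_repN_step {π : unitInterval → unitInterval} (hπ : Measurable π)
    (hf : (Set.range π).Finite) : ∀ (r : ℕ) (x : (Fin r → unitInterval) → ℝ),
      ∃ t : Nest ℝ r, RepN r (fun u => x (π ∘ u)) t
  | 0, x => ⟨leaf (x default), fun u => congrArg x (Subsingleton.elim _ _)⟩
  | r + 1, x => by
    classical
    choose t ht using fun a : unitInterval => exists_repN_step hπ hf r fun u => x (Fin.cons a u)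
    have hfin : (Set.range (t ∘ π)).Finite := by
      rw [Set.range_comp]; exact hf.image t
    refine ⟨up (MonoidAlgebra.ofCoeff (Finsupp.onFinset hfin.toFinset
      (fun c => (volume ((t ∘ π) ⁻¹' {c})).toReal) fun c hc => ?_)), t ∘ π, hfin, fun c => ?_,
      fun c => rfl, fun v => ?_⟩
    · by_contra hne
      rw [Set.Finite.mem_toFinset] at hne
      rw [Set.preimage_singleton_eq_empty.2 hne] at hc
      simp at hc
    · have : (t ∘ π) ⁻¹' {c} = π ⁻¹' (t ⁻¹' {c} ∩ Set.range π) := by
        ext v; simp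
      rw [this]
      exact hπ (hf.inter_of_right _).measurableSet
    · simp only [Fin.comp_cons]
      exact ht (π v)

theorem exists_step_seq (hX : Measurable X) :
    ∃ Y : ℕ → (Fin (r + 1) → unitInterval) → ℝ, (∀ n, Measurable (Y n)) ∧
      (∀ n, ∃ t : Nest ℝ (r + 1), RepN (r + 1) (Y n) t) ∧
      ∀ᵐ a ∂volL (Fin (r + 1)), Tendsto (fun n => Y n a) atTop (𝓝 (X a)) := by
  let q : (Fin (r + 1) → unitInterval) → ℝ := fun a => Real.arctan (X a)
  have hq : Measurable q := Real.continuous_arctan.measurable.comp hX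
  have hqi : MemLp q 1 (volL (Fin (r + 1))) :=
    MemLp.of_bound hq.aestronglyMeasurable (Real.pi / 2) (Eventually.of_forall fun a =>
      abs_le.2 ⟨(Real.neg_pi_div_two_lt_arctan _).le, (Real.arctan_lt_pi_div_two _).le⟩)
  have key : ∀ n : ℕ, ∃ (g : (Fin (r + 1) → unitInterval) → ℝ) (π : unitInterval → unitInterval),
      Measurable g ∧ Measurable π ∧ (Set.range π).Finite ∧
      eLpNorm ((fun u => g (π ∘ u)) - q) 1 (volL (Fin (r + 1))) ≤
        ENNReal.ofReal (1 / (n + 1)) + ENNReal.ofReal (1 / (n + 1)) := by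
    intro n
    have hn : (0 : ℝ) < 1 / (n + 1) := by positivity
    obtain ⟨g, hg, -⟩ := hqi.exists_boundedContinuous_eLpNorm_sub_le ENNReal.one_ne_top
      (ε := ENNReal.ofReal (1 / (n + 1))) (by simpa using hn)
    obtain ⟨δ, hδ, hδ'⟩ := Metric.uniformContinuous_iff_le.1
      (CompactSpace.uniformContinuous_of_continuous g.continuous) _ hn
    obtain ⟨π, h1, h2, h3⟩ := exists_grid hδ
    have hm : Measurable fun u : Fin (r + 1) → unitInterval => g (π ∘ u) :=
      g.continuous.measurable.comp (measurable_pi_iff.2 fun j => h1.comp (measurable_pi_apply j))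
    refine ⟨g, π, g.continuous.measurable, h1, h2, ?_⟩
    have e : (fun u => g (π ∘ u)) - q = ((fun u => g (π ∘ u)) - ⇑g) - (q - ⇑g) := by abel
    rw [e]
    refine (eLpNorm_sub_le (hm.sub g.continuous.measurable).aestronglyMeasurable
      (hq.sub g.continuous.measurable).aestronglyMeasurable le_rfl).trans (add_le_add ?_ hg)
    have := eLpNorm_le_of_ae_bound (μ := volL (Fin (r + 1))) (p := 1)
      (f := (fun u => g (π ∘ u)) - ⇑g) (C := 1 / (n + 1)) (Eventually.of_forall fun u => by
        rw [Pi.sub_apply, ← dist_eq_norm]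
        exact hδ' ((dist_pi_le_iff hδ.le).2 fun j => h3 _))
    simpa using this
  choose g π hg hπ hf hle using key
  have hm : ∀ n, Measurable fun u : Fin (r + 1) → unitInterval => g n (π n ∘ u) := fun n =>
    (hg n).comp (measurable_pi_iff.2 fun j => (hπ n).comp (measurable_pi_apply j))
  have h0 : Tendsto (fun n : ℕ => ENNReal.ofReal (1 / ((n : ℝ) + 1))) atTop (𝓝 0) := by
    simpa using ENNReal.tendsto_ofReal (tendsto_one_div_add_atTop_nhds_zero_nat (𝕜 := ℝ))
  obtain ⟨ns, -, hns⟩ := (tendstoInMeasure_of_tendsto_eLpNorm one_ne_zero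
    (fun n => (hm n).aestronglyMeasurable) hq.aestronglyMeasurable
    (tendsto_of_tendsto_of_tendsto_of_le_of_le tendsto_const_nhds (by simpa using h0.add h0)
      (fun _ => zero_le) hle)).exists_seq_tendsto_ae
  have htan : Measurable Real.tan := by
    have : Real.tan = fun x => Real.sin x / Real.cos x := funext Real.tan_eq_sin_div_cos
    rw [this]; fun_prop
  refine ⟨fun n u => Real.tan (g (ns n) (π (ns n) ∘ u)), fun n => htan.comp (hm _),
    fun n => exists_repN_step (hπ _) (hf _) _ fun u => Real.tan (g (ns n) u), ?_⟩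
  filter_upwards [hns] with a ha
  have := (Real.continuousAt_tan.2 (Real.cos_arctan_pos (X a)).ne').tendsto.comp ha
  rwa [Real.tan_arctan] at this

end TL

open TL in
theorem trial_lip {p : ℕ} (hp : 1 ≤ p) {α : ℝ} (hα : 0 ≤ α) {Ω : Type} [MeasurableSpace Ω]
    (P : Measure Ω) [IsProbabilityMeasure P] {θ θ' : Ω → Diluted.Inter p} {c : Ω → ℝ}
    (hθ : Measurable θ) (hθ' : Measurable θ') (hc : Measurable c)
    (iθ : Integrable (fun ω => Diluted.supNorm (θ ω)) P)
    (iθ' : Integrable (fun ω => Diluted.supNorm (θ' ω)) P) (ic : Integrable c P)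
    (ν : Measure ℝ) [IsProbabilityMeasure ν] (hν : Integrable (fun x : ℝ => x) ν) {Ψ : ℝ → ℝ}
    (hΨ : Measurable Ψ) (iΨ : Integrable Ψ ν) {r : ℕ} {m : Fin r → ℝ}
    (hm : Diluted.AdmissibleExponents m) {X : (Fin (r + 1) → unitInterval) → ℝ} (hX : Measurable X) :
    |Diluted.trialFunctional p α (P.map θ) ν r m X -
        Diluted.trialFunctional p α (P.map θ') (ν.map Ψ) r m X - α * ∫ ω, c ω ∂P| ≤
      α * (2 * p) * ∫ ω, Diluted.supNorm (fun s => θ ω s - θ' ω s - c ω) ∂P +
        ∫ h, |h - Ψ h| ∂ν := by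
  have hm0 : ∀ d, 0 < m d := fun d => (hm.2 d).1
  have hx : 0 ≤ α * p := by positivity
  haveI := Measure.isProbabilityMeasure_map (μ := P) hθ.aemeasurable
  haveI := Measure.isProbabilityMeasure_map (μ := P) hθ'.aemeasurable
  haveI := Measure.isProbabilityMeasure_map (μ := ν) hΨ.aemeasurable
  have hν' : Integrable (fun x : ℝ => x) (ν.map Ψ) :=
    (integrable_map_measure measurable_id.aestronglyMeasurable hΨ.aemeasurable).2 iΨ
  have jθ : Integrable Diluted.supNorm (P.map θ) :=
    (integrable_map_measure measurable_supNorm.aestronglyMeasurable hθ.aemeasurable).2 iθ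
  have jθ' : Integrable Diluted.supNorm (P.map θ') :=
    (integrable_map_measure measurable_supNorm.aestronglyMeasurable hθ'.aemeasurable).2 iθ'
  have iD : Integrable (fun ω => Diluted.supNorm fun s => θ ω s - θ' ω s - c ω) P := by
    refine ((iθ.add iθ').add ic.abs).mono' (measurable_supNorm.comp (by fun_prop)
      (f := fun ω s => θ ω s - θ' ω s - c ω)).aestronglyMeasurable
      (Eventually.of_forall fun ω => ?_)
    rw [Real.norm_of_nonneg (supNorm_nonneg _)]
    refine supNorm_le fun s => ?_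
    have a := abs_le.1 (abs_le_supNorm (θ ω) s)
    have b := abs_le.1 (abs_le_supNorm (θ' ω) s)
    simp only [Pi.add_apply]
    rw [abs_le]
    constructor <;> linarith [le_abs_self (c ω), neg_abs_le (c ω)]
  set D := ∫ ω, Diluted.supNorm (fun s => θ ω s - θ' ω s - c ω) ∂P with hD
  set H := ∫ h, |h - Ψ h| ∂ν with hH
  set C := ∫ ω, c ω ∂P with hC
  have hD0 : 0 ≤ D := integral_nonneg fun _ => supNorm_nonneg _
  have iH : Integrable (fun h => |h - Ψ h|) ν := (hν.sub iΨ).abs
  have h1 : ∀ k : ℕ, |SK (P.map θ) ν m X k - SK (P.map θ') (ν.map Ψ) m X k - (0 + k * C)|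
      ≤ H + k * D := by
    intro k
    rw [SK_map hX ν P hθ, SK_map hX _ P hθ', zero_add, ← integral_sum_pi ic]
    refine (abs_integral_sub_le (int_inner hm0 hX hν hθ iθ k) (int_inner hm0 hX hν' hθ' iθ' k)
      (int_sum_pi ic k) ((integrable_const H).add (int_sum_pi iD k)) fun ω => ?_).trans_eq ?_
    · rw [integral_map hΨ.aemeasurable
        (int_G_site hm0 hX measurable_id' hν' fun j => θ' (ω j)).aestronglyMeasurable]
      have := abs_integral_sub_le (int_G_site hm0 hX measurable_id hν fun j => θ (ω j))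
        (int_G_site hm0 hX hΨ iΨ fun j => θ' (ω j)) (integrable_const (∑ j, c (ω j)))
        (iH.add (integrable_const _)) fun h => G_site_lip hm0 hX h (Ψ h) _ _ fun j => c (ω j)
      simp only [Pi.add_apply] at this
      rw [integral_add iH (integrable_const _), integral_const, integral_const, probReal_univ,
        one_smul, one_smul] at this
      exact this
    · simp only [Pi.add_apply]
      rw [integral_add (integrable_const _) (int_sum_pi iD k), integral_const, probReal_univ,
        one_smul, integral_sum_pi iD]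
  have s1 := summable_aff hx (abs_SK_le hm0 hX jθ hν)
  have s2 := summable_aff hx (abs_SK_le hm0 hX jθ' hν')
  have s3 := hasSum_poi_aff (α * p) 0 C
  have h2 : |∑' k, poi (α * p) k * SK (P.map θ) ν m X k
      - ∑' k, poi (α * p) k * SK (P.map θ') (ν.map Ψ) m X k - (0 + α * p * C)|
      ≤ H + α * p * D := by
    refine ((s1.hasSum.sub s2.hasSum).sub s3).norm_le_of_bounded
      (hasSum_poi_aff (α * p) H D) fun k => ?_
    rw [← mul_sub, ← mul_sub, Real.norm_eq_abs, abs_mul, abs_of_nonneg (poi_nonneg hx k)]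
    exact mul_le_mul_of_nonneg_left (h1 k) (poi_nonneg hx k)
  have iE : ∀ {θ : Ω → Diluted.Inter p}, Measurable θ →
      Integrable (fun ω => Diluted.supNorm (θ ω)) P →
      Integrable (fun ω => G m X (Diluted.edgeTerm (θ ω))) P := fun hθ iθ =>
    iθ.mono' ((measurable_G_edge hX).comp hθ).aestronglyMeasurable
      (Eventually.of_forall fun ω => (ct_edge _).abs_G hm0 hX)
  have h3 := abs_integral_sub_le (iE hθ iθ) (iE hθ' iθ') ic iD
    fun ω => G_edge_lip hm0 hX (θ ω) (θ' ω) (c ω)
  rw [trial_eq, trial_eq, integral_map hθ.aemeasurable (measurable_G_edge hX).aestronglyMeasurable,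
    integral_map hθ'.aemeasurable (measurable_G_edge hX).aestronglyMeasurable]
  change |Real.log 2 + ∑' k, poi (α * p) k * SK (P.map θ) ν m X k - _ -
    (Real.log 2 + ∑' k, poi (α * p) k * SK (P.map θ') (ν.map Ψ) m X k - _) - _| ≤ _
  have hp1 : 0 ≤ α * ((p : ℝ) - 1) := mul_nonneg hα (sub_nonneg.2 (by exact_mod_cast hp))
  rw [← hD, ← hC] at h3
  have h4 := mul_le_mul_of_nonneg_left (abs_le.1 h3).1 hp1
  have h5 := mul_le_mul_of_nonneg_left (abs_le.1 h3).2 hp1
  have h6 := mul_nonneg hα hD0
  rw [abs_le] at h2 ⊢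
  constructor <;> linarith [h2.1, h2.2]

open TL in
theorem exists_step_trial {p : ℕ} (hp : 1 ≤ p) {α : ℝ} (hα : 0 ≤ α) {Θ : Ms (Diluted.Inter p)}
    (hΘ : Θ.Prob) {H₀ : Ms ℝ} (hH : H₀.Prob) {r : ℕ} {m : Fin r → ℝ}
    (hm : Diluted.AdmissibleExponents m) {X : (Fin (r + 1) → unitInterval) → ℝ} (hX : Measurable X)
    {ε : ℝ} (hε : 0 < ε) :
    ∃ (X' : (Fin (r + 1) → unitInterval) → ℝ) (ξ₀ : Ms (Nest ℝ r)), RepN (r + 1) X' (up ξ₀) ∧
      |Diluted.trialFunctional p α (toMeas Θ) (toMeas H₀) r m X -
        Diluted.trialFunctional p α (toMeas Θ) (toMeas H₀) r m X'| ≤ ε := by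
  haveI := isProb_toMeas hΘ
  haveI := isProb_toMeas hH
  obtain ⟨Y, h1, h2, h3⟩ := exists_step_seq hX
  obtain ⟨n, hn⟩ := (Metric.tendsto_atTop.1 (tendsto_trial hα (integrable_toMeas Θ _)
    (integrable_toMeas H₀ _) (fun d => (hm.2 d).1) hX h1 h3) ε hε)
  obtain ⟨t, ht⟩ := h2 n
  refine ⟨Y n, dn t, ht, ?_⟩
  rw [abs_sub_comm]
  exact (hn n le_rfl).le

end Crest.Agent.R141
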