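import Crest.Agent.R141.TRep_A

/-!
Row 141, task R141-TRep: the trial functional of a step trial is the nest functional.  Work files `R141/TRep_*.lean`.

PLAN.  Define `PM : (r : ℕ) → (Fin r → ℝ) → ((L → Fin r → I) → ℝ) → ℝ`, `PM 0 _ F = F default`,
`PM (r+1) m F = (∫ v : L → I, PM r (m ∘ succ) (fun u => F (fun ω => Fin.cons (v ω) (u ω))) ^ m 0) ^ (1 / m 0)`; formally
`powerMeans m W u = PM r m (fun u' => W (fun ω => Fin.cons (u ω 0) (u' ω)))` (induction on `r`, `List.finRange_succ`,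
`List.foldr_map`; generalise over the already fixed levels; no measurability needed).  If `RepN r (F ω) (t ω)` for all labels
`ω` then `PM r m (fun u => w (fun ω => F ω (u ω))) = pm (revm m) w (tensN t)`, because for finite-range `τ ω` with measurable
fibres `∫ v, f (fun ω => τ ω (v ω)) d(pi volume) = I (piM (laws)) f` (put the discrete σ-algebra `⊤` on the nests or sum
over the finitely many boxes, `Measure.pi_pi`) and `tens T = Ms.map tensN (piM T)` (`I_prod_bind`).
For the site term identify `siteN`: `CL Γ T ^ k = ∏ _ : Fin k, ..`, `I_prod_bind`; for fixed `w, g_1..g_k` the nest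
`dirac (det w) * ∏_j clz (g j) (lastSlot p (dirac (det spin1)) (slotE Bool ξ))` is the image of
`tens (fun _ : Fin k × Fin (p-1) => ξ)` under the leaf map `x ↦ ε ↦ w ε * Π_j mlin (g j) (x (j,·), ε)` (all maps between
product monoids involved are homomorphisms; `mapM_mul`, `mapM_mapM`), `pm m v (map f X) = pm m (v ∘ f) X`,
`exp (siteMessage θ x ε) = mlin (exp ∘ θ) (tilt x true, ε)`, `tilt x s = qq (tilt x true) s`; homogeneity of `pm`
gives the constants `log 2` and `K`; the Poisson series is summable by a bound linear in `k`.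
`exists_repN`: induction on `r`; a probability `Ms` is the law of a finite-range measurable `τ : I → Nest`
(`Measure.exists_measurable_map_eq` applied to the finite support type, or intervals of cumulative weights);
`F u = F_{τ (u 0)} (tail u)`.
-/

set_option autoImplicit false

namespace Crest.Agent.R141

open Crest.Agent.R153 Crest.Agent.R153.Ms Crest.Agent.R153.Nest
open Crest.ProbabilityR MeasureTheory Filter

namespace TRep

/-- The probability of `true` under the message `x`. -/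
noncomputable abbrev tl (x : ℝ) : ℝ := Diluted.tilt x true

theorem tilt_pos (x : ℝ) (s : Bool) : 0 < Diluted.tilt x s :=
  div_pos (Real.exp_pos _) (mul_pos two_pos (Real.cosh_pos x))

theorem qq_tl (x : ℝ) (s : Bool) : qq (tl x) s = Diluted.tilt x s := by
  cases s
  · have := Real.cosh_pos x
    simp only [qq, tl, Diluted.tilt, Diluted.spinVal, Bool.false_eq_true, if_false, if_true]
    field_simp
    rw [Real.cosh_eq]
    ring
  · rfl

theorem r01_tl (x : ℝ) : R01 (tl x) := by
  have h := tilt_pos x false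
  rw [← qq_tl] at h
  exact ⟨(tilt_pos x true).le, by simpa [qq] using h.le⟩

theorem edge_eq {p : ℕ} (θ : Diluted.Inter p) (x : Fin p → ℝ) :
    Diluted.edgeTerm θ x = mlin (fun s => Real.exp (θ s)) fun ℓ => tl (x ℓ) := by
  simp only [Diluted.edgeTerm, mlin, qq_tl]

theorem mlin_exp_mem {p : ℕ} {θ : Diluted.Inter p} {B : ℝ} (hB : ‖θ‖ ≤ B) {x : Fin p → ℝ}
    (hx : ∀ ℓ, R01 (x ℓ)) : Real.exp (-B) ≤ mlin (fun s => Real.exp (θ s)) x ∧
      mlin (fun s => Real.exp (θ s)) x ≤ Real.exp B := by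
  have h0 : ∀ s : Fin p → Bool, 0 ≤ ∏ ℓ, qq (x ℓ) (s ℓ) := fun s =>
    Finset.prod_nonneg fun ℓ _ => qq_nonneg (hx ℓ) _
  have h1 : ∀ s, |θ s| ≤ B := fun s => (norm_le_pi_norm θ s).trans hB
  constructor
  · calc _ = ∑ s : Fin p → Bool, Real.exp (-B) * ∏ ℓ, qq (x ℓ) (s ℓ) := by
          rw [← Finset.mul_sum, sum_prod_qq, mul_one]
      _ ≤ _ := Finset.sum_le_sum fun s _ =>
          mul_le_mul_of_nonneg_right (Real.exp_le_exp.2 (abs_le.1 (h1 s)).1) (h0 s)
  · calc _ ≤ ∑ s : Fin p → Bool, Real.exp B * ∏ ℓ, qq (x ℓ) (s ℓ) := Finset.sum_le_sum fun s _ =>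
          mul_le_mul_of_nonneg_right (Real.exp_le_exp.2 (abs_le.1 (h1 s)).2) (h0 s)
      _ = _ := by rw [← Finset.mul_sum, sum_prod_qq, mul_one]

/-- The slots of a factor at the site: messages in the first slots, the spin in the last. -/
noncomputable def slots {q : ℕ} (x : Fin q → ℝ) (ε : Bool) : Fin (q + 1) → ℝ :=
  Fin.snoc (fun ℓ => tl (x ℓ)) (spin1 ε)

theorem r01_slots {q : ℕ} (x : Fin q → ℝ) (ε : Bool) (ℓ : Fin (q + 1)) : R01 (slots x ε ℓ) := by
  induction ℓ using Fin.lastCases with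
  | last => simpa [slots, R01] using U01_spin1 ε
  | cast i => simpa [slots] using r01_tl _

theorem exp_siteMessage {q : ℕ} (θ : Diluted.Inter (q + 1)) (x : Fin q → ℝ) (ε : Bool) :
    Real.exp (Diluted.siteMessage θ x ε) = mlin (fun s => Real.exp (θ s)) (slots x ε) := by
  have e : mlin (fun s => Real.exp (θ s)) (slots x ε) = ∑ s' : Fin q → Bool,
      Real.exp (θ (fun ℓ => if h : ℓ.val < q then s' ⟨ℓ.val, h⟩ else ε)) *
        ∏ ℓ, Diluted.tilt (x ℓ) (s' ℓ) := by
    rw [mlin, ← (Fin.snocEquiv fun _ => Bool).sum_comp, Fintype.sum_prod_type,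
      Finset.sum_eq_single ε]
    · refine Finset.sum_congr rfl fun s' _ => ?_
      refine congrArg₂ (· * ·) (congrArg (fun s => Real.exp (θ s)) ?_) ?_
      · ext ℓ
        induction ℓ using Fin.lastCases <;> simp [Fin.snocEquiv]
      · rw [Fin.prod_univ_castSucc]
        simp only [Fin.snocEquiv, Equiv.coe_fn_mk, slots, Fin.snoc_castSucc, Fin.snoc_last, qq_tl]
        cases ε <;> simp [spin1, qq]
    · intro b _ hb
      refine Finset.sum_eq_zero fun s' _ => ?_
      revert hb
      cases ε <;> cases b <;> simp [Fin.snocEquiv, Fin.prod_univ_castSucc, slots, spin1, qq]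
    · simp
  rw [Diluted.siteMessage]
  refine Eq.trans (Real.exp_log ?_) e.symm
  exact e ▸ (Real.exp_pos _).trans_le (mlin_exp_mem le_rfl (r01_slots x ε)).1

/-- The Boltzmann weight of the site. -/
noncomputable def siteW {q k : ℕ} (K h : ℝ) (θs : Fin k → Diluted.Inter (q + 1))
    (x : Fin k × Fin q → ℝ) (ε : Bool) : ℝ :=
  (∏ i, mlin (fun s => Real.exp (θs i s)) (slots (fun ℓ => x (i, ℓ)) ε)) *
    Real.exp (h * Diluted.spinVal ε - K)

theorem siteTerm_eq {q k : ℕ} (K h : ℝ) (θs : Fin k → Diluted.Inter (q + 1))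
    (x : Fin k × Fin q → ℝ) :
    Diluted.siteTerm h θs (fun i ℓ => x (i, ℓ)) = Real.exp K / 2 * sumv (siteW K h θs x) := by
  simp only [Diluted.siteTerm, sumv, siteW, ← exp_siteMessage, ← Real.exp_sum, Finset.mul_sum]
  refine Finset.sum_congr rfl fun ε _ => ?_
  rw [Real.exp_add, Real.exp_sub]
  field_simp
  rfl

theorem sumv_siteW_mem {q k : ℕ} (K : ℝ) {h : ℝ} {θs : Fin k → Diluted.Inter (q + 1)} {B B' : ℝ}
    (hB : ∀ i, ‖θs i‖ ≤ B) (hh : |h| ≤ B') (x : Fin k × Fin q → ℝ) :
    Real.exp (-(B' + |K| + 1 + B * k)) ≤ sumv (siteW K h θs x) ∧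
      sumv (siteW K h θs x) ≤ Real.exp (B' + |K| + 1 + B * k) := by
  have key : ∀ ε, Real.exp (-(B' + |K| + B * k)) ≤ siteW K h θs x ε ∧
      siteW K h θs x ε ≤ Real.exp (B' + |K| + B * k) := fun ε => by
    have h1 := fun i => mlin_exp_mem (hB i) (r01_slots (fun ℓ => x (i, ℓ)) ε)
    have h2 : |h * Diluted.spinVal ε| ≤ B' := by rwa [abs_mul, abs_spinVal, mul_one]
    have h3 := Finset.prod_le_prod (s := Finset.univ) (fun i _ => (Real.exp_pos (-B)).le)
      fun i _ => (h1 i).1
    have h4 := Finset.prod_le_prod (s := Finset.univ)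
      (fun i _ => (Real.exp_pos (-B)).le.trans (h1 i).1) fun i _ => (h1 i).2
    rw [Finset.prod_const, Finset.card_univ, Fintype.card_fin, ← Real.exp_nat_mul] at h3 h4
    constructor
    · refine le_trans (b := Real.exp (k * -B) * Real.exp (h * Diluted.spinVal ε - K)) ?_
        (mul_le_mul_of_nonneg_right h3 (Real.exp_pos _).le)
      rw [← Real.exp_add, Real.exp_le_exp]
      linarith [(abs_le.1 h2).1, le_abs_self K]
    · refine le_trans (mul_le_mul_of_nonneg_right h4 (Real.exp_pos _).le) ?_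
      rw [← Real.exp_add, Real.exp_le_exp]
      linarith [(abs_le.1 h2).2, neg_abs_le K]
  have h2 : (2 : ℝ) ≤ Real.exp 1 := by linarith [Real.add_one_le_exp (1 : ℝ)]
  rw [sumv, Fintype.sum_bool]
  constructor
  · have : Real.exp (-(B' + |K| + 1 + B * k)) ≤ Real.exp (-(B' + |K| + B * k)) :=
      Real.exp_le_exp.2 (by linarith)
    linarith [(key true).1, (key false).1, Real.exp_pos (-(B' + |K| + B * k))]
  · have : Real.exp (B' + |K| + 1 + B * k) = Real.exp 1 * Real.exp (B' + |K| + B * k) := by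
      rw [← Real.exp_add]; congr 1; ring
    nlinarith [(key true).2, (key false).2, Real.exp_pos (B' + |K| + B * k)]

theorem site_nest {q k j : ℕ} (K h : ℝ) (θs : Fin k → Diluted.Inter (q + 1)) (ξ : Ms (Nest ℝ j)) :
    dirac (det (fun ε => Real.exp (h * Diluted.spinVal ε - K)) j) *
      ∏ i, clz (fun s => Real.exp (θs i s))
        (lastSlot (q + 1) (dirac (det spin1 j)) (slotE Bool (mapM tl ξ)))
      = mapM (siteW K h θs) (tens fun _ : Fin k × Fin q => ξ) := by
  have e0 : (fun ℓ => up (lastSlot (q + 1) (dirac (det spin1 j)) (slotE Bool (mapM tl ξ)) ℓ))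
      = lastSlot (q + 1) (det spin1 (j + 1)) (Nest.map (fun x _ => tl x) (up ξ)) := by
    ext ℓ
    unfold lastSlot
    split_ifs
    · exact Nest.map_map _ _ (up ξ)
    · rfl
  have e1 : ∀ g : Diluted.Inter (q + 1),
      up (clz g (lastSlot (q + 1) (dirac (det spin1 j)) (slotE Bool (mapM tl ξ))))
      = Nest.map (fun (x : Fin q → ℝ) ε => mlin g (slots x ε)) (tensN fun _ => up ξ) := fun g => by
    rw [clz, ← map_up, ← tensN_up, e0, tensN_lastSlot, tensN_map fun _ : Fin q => fun x (_ : Bool) => tl x,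
      Nest.map_map, Nest.map_map]
    congr 1
    ext x ε
    congr 1
    ext ℓ
    induction ℓ using Fin.lastCases <;> simp [slots]
  have e2 : up (∏ i, clz (fun s => Real.exp (θs i s))
      (lastSlot (q + 1) (dirac (det spin1 j)) (slotE Bool (mapM tl ξ))))
      = ∏ i, up (clz (fun s => Real.exp (θs i s))
        (lastSlot (q + 1) (dirac (det spin1 j)) (slotE Bool (mapM tl ξ)))) := rfl
  have e3 := tensN_tensN fun _ : Fin k × Fin q => up ξ
  rw [mul_comm, mul_dirac_det]
  refine congrArg dn (a₁ := Nest.map _ (up (∏ i, clz (fun s => Real.exp (θs i s))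
      (lastSlot (q + 1) (dirac (det spin1 j)) (slotE Bool (mapM tl ξ))))))
    (a₂ := Nest.map _ (tensN fun _ => up ξ)) ?_
  rw [e2]
  simp only [e1]
  rw [prod_eq_map_tensN, tensN_map fun i (x : Fin q → ℝ) ε =>
    mlin (fun s => Real.exp (θs i s)) (slots x ε), e3]
  simp only [Nest.map_map]
  congr 1
  ext x ε
  simp [siteW]

theorem I_siteN {q k j : ℕ} (Θ : Ms (Diluted.Inter (q + 1))) (H₀ : Ms ℝ) (K : ℝ)
    (ξ : Ms (Nest ℝ j)) (f : Nest (Bool → ℝ) j → ℝ) :
    I (siteN (expI Θ) (fieldW K H₀) (mapM tl ξ) k) f = I (piM fun _ : Fin k => Θ) fun θs =>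
      I H₀ fun h => I (tens fun _ : Fin k × Fin q => ξ) fun c => f (Nest.map (siteW K h θs) c) := by
  have e2 : CL (expI Θ) (lastSlot (q + 1) (dirac (det spin1 j)) (slotE Bool (mapM tl ξ))) ^ k
      = ∏ _i : Fin k, Ms.bind Θ fun θ => clz (fun s => Real.exp (θ s))
        (lastSlot (q + 1) (dirac (det spin1 j)) (slotE Bool (mapM tl ξ))) := by
    rw [Finset.prod_const, Finset.card_univ, Fintype.card_fin]
    congr 1
    exact ext_I fun f => by simp [expI, CL]
  rw [siteN, e2, I_mul, I_comm (piM _), fieldW, I_map, I_map]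
  refine I_congr fun h _ => ?_
  rw [I_prod_bind]
  refine I_congr fun θs _ => ?_
  rw [← I_mapM, ← site_nest, I_dirac_mul]

theorem exists_bound {M : Type} (X : Ms M) (f : M → ℝ) : ∃ B, X.Supp fun c => f c ≤ B := by
  obtain ⟨B, hB⟩ := (X.coeff.support.finite_toSet.image f).bddAbove
  exact ⟨B, fun c hc => hB ⟨c, Finsupp.mem_support_iff.2 hc, rfl⟩⟩

end TRep

open TRep

theorem RepN.good : ∀ {r : ℕ} {F : (Fin r → unitInterval) → ℝ} {X : Nest ℝ r},
    RepN r F X → Good Any X
  | 0, _, _, _ => trivial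
  | _ + 1, _, _, ⟨_, h1, h2, h3, h4⟩ =>
    have h := Law.prob ⟨h1, h2, h3⟩
    ⟨h.1, h.2.mono fun _ ⟨v, hv⟩ => hv ▸ RepN.good (h4 v)⟩

theorem exists_repN : ∀ {r : ℕ} {X : Nest ℝ r}, Good Any X →
    ∃ F : (Fin r → unitInterval) → ℝ, Measurable F ∧ RepN r F X
  | 0, X, _ => ⟨fun _ => unleaf X, measurable_const, fun _ => rfl⟩
  | r + 1, X, hX => by
    obtain ⟨S, _, _, _, e, f, hf, he, hL⟩ := exists_law hX.1
    choose G hG hG' using fun s => exists_repN (hX.2 _ (he s))
    have hm : Measurable fun z : (Fin r → unitInterval) × S => G z.2 z.1 :=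
      measurable_from_prod_countable_left hG
    have ht : Measurable fun u : Fin (r + 1) → unitInterval => (Fin.tail u, f (u 0)) :=
      Measurable.prodMk (measurable_pi_lambda _ fun i => measurable_pi_apply i.succ)
        (hf.comp (measurable_pi_apply 0))
    refine ⟨fun u => G (f (u 0)) (Fin.tail u), hm.comp ht, _, hL.1, hL.2.1, hL.2.2, fun v => ?_⟩
    simpa using hG' (f v)

theorem trial_eq_BQ {p : ℕ} (hp : 1 ≤ p) {α : ℝ} (hα : 0 ≤ α) {Θ : Ms (Diluted.Inter p)}
    (hΘ : Θ.Prob) {H₀ : Ms ℝ} (hH : H₀.Prob) (K : ℝ) {r : ℕ} {m : Fin r → ℝ} (hm : ∀ d, 0 < m d)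
    {X : (Fin (r + 1) → unitInterval) → ℝ} {ξ₀ : Ms (Nest ℝ r)} (hX : RepN (r + 1) X (up ξ₀)) :
    Diluted.trialFunctional p α (toMeas Θ) (toMeas H₀) r m X =
      BQ (revm m) α (expI Θ) (fieldW K H₀) (mapM (fun x => Diluted.tilt x true) ξ₀) + K := by
  obtain ⟨q, rfl⟩ : ∃ q, p = q + 1 := ⟨p - 1, by omega⟩
  have hm' : ∀ i, 0 < revm m i := fun i => by
    unfold revm; split_ifs
    · exact hm _
    · exact one_pos
  have hξ : GoodM Any ξ₀ := hX.good
  obtain ⟨B, hB⟩ := exists_bound Θ fun θ => ‖θ‖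
  obtain ⟨B', hB'⟩ := exists_bound H₀ fun h => |h|
  have hT := fun k : ℕ => goodM_tens (ι := Fin k × Fin q) (P := fun _ => Any) fun _ => hξ
  have hP := fun k : ℕ => prob_piM (ι := Fin k) fun _ => hΘ
  -- the edge term
  have e1 : ∫ θ, ∫ u, Real.log (Diluted.powerMeans m (fun u' : Fin (q + 1) → Fin (r + 1) → unitInterval =>
      Diluted.edgeTerm θ fun ℓ => X (u' ℓ)) u) ∂(Diluted.uniformArrays (Fin (q + 1)) r) ∂(toMeas Θ)
      = I (expI Θ) fun g => I (tens fun _ : Fin (q + 1) => mapM tl ξ₀) fun c =>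
        Real.log (pm (revm m) (mlin g) c) := by
    have e : (tens fun _ : Fin (q + 1) => mapM tl ξ₀)
        = mapM (fun x i => tl (x i)) (tens fun _ : Fin (q + 1) => ξ₀) :=
      tensN_map (fun _ => tl) fun _ => up ξ₀
    rw [integral_toMeas hΘ.1, expI, I_map, e]
    refine I_congr fun θ _ => ?_
    rw [integral_powerMeans m (Diluted.edgeTerm θ) hX, I_mapM]
    simp only [pm_map, ← edge_eq]
  -- the site term
  have e2 : ∀ k : ℕ, ∫ θs, ∫ h, ∫ u, Real.log (Diluted.powerMeans m
      (fun u' : (Fin k × Fin (q + 1 - 1)) → Fin (r + 1) → unitInterval =>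
        Diluted.siteTerm h θs fun j ℓ => X (u' (j, ℓ))) u)
      ∂(Diluted.uniformArrays (Fin k × Fin (q + 1 - 1)) r) ∂(toMeas H₀)
      ∂(Measure.pi fun _ : Fin k => toMeas Θ)
      = (I (siteN (expI Θ) (fieldW K H₀) (mapM tl ξ₀) k) fun c => Real.log (pm (revm m) sumv c))
        + (K - Real.log 2) := fun k => by
    rw [pi_toMeas fun _ => hΘ, integral_toMeas (hP k).1, I_siteN, ← (hP k).I_const (K - Real.log 2),
      ← I_add_fun]
    refine I_congr fun θs _ => ?_
    rw [integral_toMeas hH.1, ← hH.I_const (K - Real.log 2), ← I_add_fun]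
    refine I_congr fun h _ => ?_
    refine (integral_powerMeans (L := Fin k × Fin q) m
      (fun x => Diluted.siteTerm h θs fun j ℓ => x (j, ℓ)) hX).trans ?_
    rw [← (hT k).1.I_const (K - Real.log 2), ← I_add_fun]
    refine (hT k).2.I_congr fun c hc => ?_
    have hb := fun x => sumv_siteW_mem K (fun i => Finset.single_le_sum (f := fun i => ‖θs i‖)
      (fun _ _ => norm_nonneg _) (Finset.mem_univ i)) (le_refl |h|) x
    simp only [siteTerm_eq K, pm_map]
    rw [pm_const_mul hm' (fun x _ => (Real.exp_pos _).le.trans (hb x).1) (by positivity) hc,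
      Real.log_mul (by positivity) ((Real.exp_pos _).trans_le
        (pm_mem hm' (Real.exp_pos _) (fun x _ => hb x) hc).1).ne',
      Real.log_div (by positivity) two_ne_zero, Real.log_exp, add_comm]
  have hb : ∀ k : ℕ, |I (siteN (expI Θ) (fieldW K H₀) (mapM tl ξ₀) k) fun c =>
      Real.log (pm (revm m) sumv c)| ≤ (B' + |K| + 1) + B * k := fun k => by
    rw [I_siteN]
    refine (abs_I_le (hP k).1 _).trans ((hP k).le_of_le fun θs hθ => (abs_I_le hH.1 _).trans
      (hH.le_of_le fun h hh => (abs_I_le (hT k).1.1 _).trans ((hT k).1.le_of_le fun c hc => ?_)))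
    have := pm_mem hm' (Real.exp_pos _) (fun x _ => sumv_siteW_mem K
      (supp_piM (fun _ => hB) θs hθ) (hB' h hh) x) ((hT k).2 c hc)
    rw [pm_map, abs_le, Real.le_log_iff_exp_le ((Real.exp_pos _).trans_le this.1),
      Real.log_le_iff_le_exp ((Real.exp_pos _).trans_le this.1)]
    exact this
  have hs := summable_poi_affine (x := α * (q + 1 : ℕ)) (by positivity) hb
  have h2 := hs.tsum_add ((hasSum_poi (α * (q + 1 : ℕ))).mul_right (K - Real.log 2)).summable
  rw [((hasSum_poi (α * (q + 1 : ℕ))).mul_right (K - Real.log 2)).tsum_eq] at h2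
  simp only [← mul_add, ← e2] at h2
  rw [Diluted.trialFunctional, BQ, e1]
  change Real.log 2 + (∑' k : ℕ, poi _ k * _) - _ = _
  rw [h2]
  ring

end Crest.Agent.R141
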