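import Crest.Agent.R141.Fin
import Crest.Agent.R141.Pre
import Crest.Agent.R141.TLip
import Crest.Agent.R141.TRep
import Crest.Agent.R141.Fac

/-!
Row 141: reduction of the general model to finite models, and the final assembly.
-/

set_option autoImplicit false

namespace Crest.Agent.R141

open Crest.Agent.R153 Crest.Agent.R153.Ms Crest.Agent.R153.Nest
open Crest.ProbabilityR MeasureTheory Filter

theorem pm_congr {A : Type} {m m' : ℕ → ℝ} (v : A → ℝ) : ∀ {j : ℕ}, (∀ i, i < j → m i = m' i) →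
    ∀ X : Nest A j, pm m v X = pm m' v X
  | 0, _, _ => rfl
  | j + 1, h, X => by
    have ih : ∀ c : Nest A j, pm m v c = pm m' v c :=
      pm_congr v fun i hi => h i (Nat.lt_succ_of_lt hi)
    simp only [pm_succ, ih, h j (Nat.lt_succ_self j)]

theorem BQ_congr {p j : ℕ} {m m' : ℕ → ℝ} (h : ∀ i, i < j → m i = m' i) (α : ℝ)
    (Γ : Ms (Diluted.Inter p)) (H : Ms (Bool → ℝ)) (ξ : Ms (Nest ℝ j)) :
    BQ m α Γ H ξ = BQ m' α Γ H ξ := by
  simp only [BQ, pm_congr _ h]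

theorem admN_revm {r : ℕ} {m : Fin r → ℝ} (hm : Diluted.AdmissibleExponents m) :
    AdmN r (revm m) := by
  refine ⟨fun i hi => ?_, fun i i' h hi' => ?_⟩
  · simp only [revm, dif_pos hi]; exact hm.2 _
  · simp only [revm, dif_pos hi', dif_pos (h.trans hi')]
    exact hm.1 (Fin.rev_lt_rev.2 (Fin.mk_lt_mk.2 h))

theorem adm_of_admN {r : ℕ} {m : ℕ → ℝ} (hm : AdmN r m) :
    Diluted.AdmissibleExponents fun d : Fin r => m (Fin.rev d) :=
  ⟨fun _ _ h => hm.2 _ _ (Fin.rev_lt_rev.2 h) (Fin.is_lt _), fun d => hm.1 _ (Fin.is_lt _)⟩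

theorem tilt_mem (x : ℝ) : R01 (Diluted.tilt x true) := by
  have h1 : 0 < Real.cosh x := Real.cosh_pos x
  refine ⟨by unfold Diluted.tilt; positivity, ?_⟩
  unfold Diluted.tilt
  rw [div_le_one (by positivity), Real.cosh_eq]
  simp only [Diluted.spinVal, if_true, mul_one]
  linarith [Real.exp_pos (-x)]

theorem tilt_msg {r : ℝ} (hr : O01 r) : Diluted.tilt (Real.log (r / (1 - r)) / 2) true = r := by
  have h1 : 0 < 1 - r := by linarith [hr.2]
  have h0 := hr.1
  obtain ⟨x, hx⟩ : ∃ x, x = Real.log (r / (1 - r)) / 2 := ⟨_, rfl⟩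
  rw [← hx]
  have h2 : Real.exp x * Real.exp x = r / (1 - r) := by
    rw [← Real.exp_add, hx, add_halves, Real.exp_log (by positivity)]
  have h3 : Real.exp (-x) * Real.exp x = 1 := by rw [← Real.exp_add]; simp
  have h4 := Real.exp_pos x
  have h5 := Real.exp_pos (-x)
  unfold Diluted.tilt
  rw [Real.cosh_eq]
  simp only [Diluted.spinVal, if_true, mul_one]
  rw [eq_div_iff h1.ne'] at h2
  rw [div_eq_iff (by positivity)]
  refine mul_right_cancel₀ h4.ne' ?_
  linear_combination h2 - r * h3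

/-- Everything we need to know about an approximating finite model. -/
theorem exists_model {p : ℕ} (hp : Even p) (hp2 : 2 ≤ p) {α : ℝ} (hα : 0 ≤ α)
    (μ : Measure (Diluted.Inter p)) [IsProbabilityMeasure μ] (ν : Measure ℝ)
    [IsProbabilityMeasure ν] (hμ : Integrable (fun θ => Diluted.supNorm θ) μ)
    (hν : Integrable (fun x : ℝ => x) ν) (hfac : Diluted.HasFactorization p μ) {ε : ℝ}
    (hε : 0 < ε) :
    ∃ (Θ : Ms (Diluted.Inter p)) (H₀ : Ms ℝ) (K c a : ℝ), Θ.Prob ∧ H₀.Prob ∧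
      Model c (expI Θ) (fieldW K H₀) ∧ Symm (expI Θ) ∧ OneStep (expI Θ) (1 + ε) ∧
      (∀ N, 1 ≤ N → |Diluted.pressure p α μ ν N -
        Diluted.pressure p α (toMeas Θ) (toMeas H₀) N - a| ≤ α * ε + ε) ∧
      ∀ (r : ℕ) (m : Fin r → ℝ) (X : (Fin (r + 1) → unitInterval) → ℝ),
        Diluted.AdmissibleExponents m → Measurable X →
        |Diluted.trialFunctional p α μ ν r m X -
          Diluted.trialFunctional p α (toMeas Θ) (toMeas H₀) r m X - a| ≤ α * (2 * p) * ε + ε := by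
  obtain ⟨Ω, _, P, _, θ, θ', c, Θ, c₀, hθ, hθ', hc, ic, e1, e2, hΘ, hc₀, hs, hS, hO, hD⟩ :=
    exists_finite_model hp hp2 μ hμ hfac hε
  obtain ⟨Ψ, H₀, K, hΨ, iΨ, hH, hK, e3, hD'⟩ := exists_field_approx ν hν hε
  have iθ : Integrable (fun ω => Diluted.supNorm (θ ω)) P := by
    rw [← e1] at hμ
    exact (integrable_map_measure hμ.aestronglyMeasurable hθ.aemeasurable).1 hμ
  have iθ' : Integrable (fun ω => Diluted.supNorm (θ' ω)) P := by
    have h := integrable_toMeas Θ fun θ => Diluted.supNorm θ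
    rw [← e2] at h
    exact (integrable_map_measure h.aestronglyMeasurable hθ'.aemeasurable).1 h
  refine ⟨Θ, H₀, K, min c₀ (Real.exp (-(2 * K))), α * ∫ ω, c ω ∂P, hΘ, hH,
    ⟨lt_min hc₀ (Real.exp_pos _), hΘ.map _, hs.mono fun g hg s =>
      ⟨(min_le_left _ _).trans (hg s).1, (hg s).2⟩, hH.map _, hK.map fun h hh s => ?_⟩,
    hS, hO, fun N hN => ?_, fun r m X hm hX => ?_⟩
  · have h1 : |h * Diluted.spinVal s| ≤ K := by
      cases s <;> simpa [Diluted.spinVal] using hh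
    rw [abs_le] at h1
    exact ⟨(min_le_right _ _).trans (Real.exp_le_exp.2 (by linarith)),
      Real.exp_le_one_iff.2 (by linarith)⟩
  · have h := pressure_lip hα P hθ hθ' hc iθ iθ' ic ν hν hΨ iΨ N hN
    rw [e1, e2, e3] at h
    exact h.trans (add_le_add (mul_le_mul_of_nonneg_left hD hα) hD')
  · have h := trial_lip (by omega) hα P hθ hθ' hc iθ iθ' ic ν hν hΨ iΨ hm hX
    rw [e1, e2, e3] at h
    exact h.trans (add_le_add (mul_le_mul_of_nonneg_left hD (by positivity)) hD')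

theorem pressure_le_trial {p : ℕ} (hp : Even p) (hp2 : 2 ≤ p) {α : ℝ} (hα : 0 ≤ α)
    (μ : Measure (Diluted.Inter p)) [IsProbabilityMeasure μ] (ν : Measure ℝ)
    [IsProbabilityMeasure ν] (hμ : Integrable (fun θ => Diluted.supNorm θ) μ)
    (hν : Integrable (fun x : ℝ => x) ν) (hfac : Diluted.HasFactorization p μ) {N : ℕ} (hN : 1 ≤ N)
    {r : ℕ} {m : Fin r → ℝ} {X : (Fin (r + 1) → unitInterval) → ℝ}
    (hm : Diluted.AdmissibleExponents m) (hX : Measurable X) :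
    Diluted.pressure p α μ ν N ≤ Diluted.trialFunctional p α μ ν r m X := by
  refine le_of_forall_pos_le_add fun δ hδ => ?_
  have hp1 : 1 ≤ p := by omega
  have hL : 0 < α + 3 * (α * p) + 3 := by positivity
  obtain ⟨ε, hε, hεδ⟩ : ∃ ε : ℝ, 0 < ε ∧ (α + 3 * (α * p) + 3) * ε = δ :=
    ⟨δ / (α + 3 * (α * p) + 3), by positivity, by field_simp⟩
  obtain ⟨Θ, H₀, K, c, a, hΘ, hH, hM, -, hO, h1, h2⟩ := exists_model hp hp2 hα μ ν hμ hν hfac hε
  obtain ⟨X', ξ₀, hrep, h3⟩ := exists_step_trial hp1 hα hΘ hH hm hX hε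
  have h4 := trial_eq_BQ hp1 hα hΘ hH K (fun d => (hm.2 d).1) hrep
  have hg : GoodM R01 (mapM (fun x => Diluted.tilt x true) ξ₀) :=
    GoodM.mapM (P := Any) (fun x _ => tilt_mem x) (good_up.1 hrep.good)
  have h5 := press_le_BQ hp1 hM hα (by linarith) hO (admN_revm hm) hg N hN
  have h6 := pressure_eq_press hα hΘ hH K N hN
  have h7 := (abs_le.1 (h1 N hN)).2
  have h8 := (abs_le.1 (h2 r m X hm hX)).1
  have h9 := (abs_le.1 h3).1
  linarith

theorem le_pressure {p : ℕ} (hp : Even p) (hp2 : 2 ≤ p) {α : ℝ} (hα : 0 ≤ α)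
    (μ : Measure (Diluted.Inter p)) [IsProbabilityMeasure μ] (ν : Measure ℝ)
    [IsProbabilityMeasure ν] (hμ : Integrable (fun θ => Diluted.supNorm θ) μ)
    (hν : Integrable (fun x : ℝ => x) ν) (hfac : Diluted.HasFactorization p μ) {β : ℝ}
    (hβ : ∀ (r : ℕ) (m : Fin r → ℝ) (X : (Fin (r + 1) → unitInterval) → ℝ),
      Diluted.AdmissibleExponents m → Measurable X → β ≤ Diluted.trialFunctional p α μ ν r m X)
    {δ : ℝ} (hδ : 0 < δ) : ∀ᶠ N : ℕ in atTop, β - δ ≤ Diluted.pressure p α μ ν N := by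
  have hp1 : 1 ≤ p := by omega
  have hL : 0 < α + 2 * (α * p) + 3 := by positivity
  obtain ⟨ε, hε, hεδ⟩ : ∃ ε : ℝ, 0 < ε ∧ (α + 2 * (α * p) + 3) * ε = δ :=
    ⟨δ / (α + 2 * (α * p) + 3), by positivity, by field_simp⟩
  obtain ⟨Θ, H₀, K, c, a, hΘ, hH, hM, hS, -, h1, h2⟩ := exists_model hp hp2 hα μ ν hμ hν hfac hε
  have key := le_press hp1 hM hS hα (β := β - a - (α * (2 * p) * ε + ε) - K) (fun r m ξ hm hξ => by
    obtain ⟨F, hF, hrep⟩ := exists_repN
      (X := up (mapM (fun r => Real.log (r / (1 - r)) / 2) ξ))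
      (good_up.2 (hξ.mapM fun _ _ => trivial))
    have hm' := adm_of_admN hm
    have h3 := trial_eq_BQ hp1 hα hΘ hH K (fun d => (hm'.2 d).1) hrep
    rw [mapM_mapM, mapM_congr (g := fun a => a) (fun a ha => tilt_msg ha) hξ, mapM_id,
      BQ_congr (m' := m) fun i hi => by simp [revm, hi]] at h3
    have h4 := (abs_le.1 (h2 r _ F hm' hF)).2
    have h5 := hβ r _ F hm' hF
    linarith) hε
  filter_upwards [key, eventually_ge_atTop 1] with N h3 hN
  have h4 := pressure_eq_press hα hΘ hH K N hN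
  have h5 := (abs_le.1 (h1 N hN)).1
  linarith

theorem mezard_parisi (p : ℕ) (hp : Even p) (hp2 : 2 ≤ p) (α : ℝ) (hα : 0 < α)
    (μ : Measure (Diluted.Inter p)) [IsProbabilityMeasure μ] (ν : Measure ℝ)
    [IsProbabilityMeasure ν] (hμ : Integrable (fun θ => Diluted.supNorm θ) μ)
    (hν : Integrable (fun x : ℝ => x) ν) (hfac : Diluted.HasFactorization p μ) :
    ∃ F : ℝ, Tendsto (Diluted.pressure p α μ ν) atTop (nhds F) ∧
      IsGLB {B : ℝ | ∃ (r : ℕ) (m : Fin r → ℝ) (X : (Fin (r + 1) → unitInterval) → ℝ),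
        Diluted.AdmissibleExponents m ∧ Measurable X ∧
        B = Diluted.trialFunctional p α μ ν r m X} F := by
  obtain ⟨T, hT⟩ : ∃ T : Set ℝ, T = {B : ℝ | ∃ (r : ℕ) (m : Fin r → ℝ)
      (X : (Fin (r + 1) → unitInterval) → ℝ), Diluted.AdmissibleExponents m ∧ Measurable X ∧
        B = Diluted.trialFunctional p α μ ν r m X} := ⟨_, rfl⟩
  rw [← hT]
  have hlb : ∀ N, 1 ≤ N → Diluted.pressure p α μ ν N ∈ lowerBounds T := by
    intro N hN B hB
    rw [hT] at hB
    obtain ⟨r, m, X, hm, hX, rfl⟩ := hB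
    exact pressure_le_trial hp hp2 hα.le μ ν hμ hν hfac hN hm hX
  have hne : T.Nonempty := by
    rw [hT]
    exact ⟨_, 0, Fin.elim0, fun _ => 0, ⟨fun a => a.elim0, fun a => a.elim0⟩, measurable_const, rfl⟩
  have hglb := isGLB_csInf hne ⟨_, hlb 1 le_rfl⟩
  refine ⟨sInf T, ?_, hglb⟩
  rw [Metric.tendsto_nhds]
  intro δ hδ
  have h1 := le_pressure hp hp2 hα.le μ ν hμ hν hfac (β := sInf T)
    (fun r m X hm hX => hglb.1 (by rw [hT]; exact ⟨r, m, X, hm, hX, rfl⟩)) (half_pos hδ)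
  filter_upwards [h1, eventually_ge_atTop 1] with N h2 hN
  have h3 := hglb.2 (hlb N hN)
  rw [Real.dist_eq, abs_lt]
  constructor <;> linarith

end Crest.Agent.R141
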