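import Crest.Agent.R141.PiB_Pm

/-! Row 141, task PiB: padding of nests, naturality. -/

set_option autoImplicit false

namespace Crest.Agent.R141.PiB

open Crest.Agent.R153 Crest.Agent.R153.Ms Crest.Agent.R153.Nest
open Crest.ProbabilityR

variable {A B S T ι : Type} {p j : ℕ}

/-- push-forward along a monoid homomorphism -/
noncomputable def msHom {M N : Type} [Monoid M] [Monoid N] (f : M →* N) : Ms M →* Ms N where
  toFun := Ms.map f
  map_one' := by rw [← dirac_one, map_dirac, f.map_one, dirac_one]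
  map_mul' := Ms.map_mul f f.map_mul

theorem map_bind {M N O : Type} (g : N → O) (X : Ms M) (κ : M → Ms N) :
    Ms.map g (Ms.bind X κ) = Ms.bind X fun c => Ms.map g (κ c) := ext_I fun f => by simp

/-! ### padding -/

noncomputable def wrapN : (k : ℕ) → Nest A j → Nest A (j + k)
  | 0, X => X
  | k + 1, X => up (dirac (wrapN k X))

theorem wrapN_mul [CommMonoid A] (X Y : Nest A j) :
    ∀ k, wrapN k (X * Y) = wrapN k X * wrapN k Y
  | 0 => rfl
  | k + 1 => by
    change up (dirac (wrapN k (X * Y))) = up (dirac (wrapN k X) * dirac (wrapN k Y))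
    rw [wrapN_mul X Y k, dirac_mul]

theorem wrapN_map (f : A → B) (X : Nest A j) :
    ∀ k, wrapN k (Nest.map f X) = Nest.map f (wrapN k X)
  | 0 => rfl
  | k + 1 => by
    change up (dirac (wrapN k (Nest.map f X))) = up (mapM f (dirac (wrapN k X)))
    rw [wrapN_map f X k, mapM_dirac]

theorem wrapN_det (a : A) : ∀ k, wrapN k (det a j) = det a (j + k)
  | 0 => rfl
  | k + 1 => by
    change up (dirac (wrapN k (det a j))) = up (dirac (det a (j + k)))
    rw [wrapN_det a k]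

theorem good_wrapN {P : A → Prop} {X : Nest A j} (hX : Good P X) : ∀ k, Good P (wrapN k X)
  | 0 => hX
  | k + 1 => goodM_dirac (good_wrapN hX k)

theorem pm_wrapN {m : ℕ → ℝ} (hm : ∀ i, 0 < m i) {v : A → ℝ} {X : Nest A j}
    (h : 0 ≤ pm m v X) : ∀ k, pm m v (wrapN k X) = pm m v X
  | 0 => rfl
  | k + 1 => by
    change (I (dirac (wrapN k X)) fun c => pm m v c ^ m (j + k)) ^ (1 / m (j + k)) = _
    rw [I_dirac, pm_wrapN hm h k, one_div, Real.rpow_rpow_inv h (hm _).ne']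

def Dep (n : ℕ → ℕ) : ℕ → ℕ
  | 0 => 0 + n 0
  | r + 1 => Dep n r + 1 + n (r + 1)

noncomputable def pad (n : ℕ → ℕ) : {r : ℕ} → Nest A r → Nest A (Dep n r)
  | 0, x => wrapN (n 0) x
  | r + 1, X => wrapN (n (r + 1)) (up (Ms.map (pad n) (dn X)))

variable {n : ℕ → ℕ}

theorem pad_mul [CommMonoid A] : ∀ {r : ℕ} (X Y : Nest A r), pad n (X * Y) = pad n X * pad n Y
  | 0, X, Y => wrapN_mul X Y _
  | r + 1, X, Y => by
    change wrapN _ (up (Ms.map (pad n) (dn X * dn Y))) = wrapN _ _ * wrapN _ _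
    rw [Ms.map_mul _ pad_mul, up_mul, wrapN_mul]
    rfl

theorem pad_map (f : A → B) : ∀ {r : ℕ} (X : Nest A r),
    pad n (Nest.map f X) = Nest.map f (pad n X)
  | 0, X => wrapN_map f X _
  | r + 1, X => by
    change wrapN _ (up (Ms.map (pad n) (mapM f (dn X)))) = Nest.map f (wrapN _ _)
    rw [← wrapN_map, map_up, mapM, mapM, Ms.map_map, Ms.map_map]
    simp only [pad_map f (r := r)]

theorem pad_det (a : A) : ∀ r : ℕ, pad n (det a r) = det a (Dep n r)
  | 0 => wrapN_det a _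
  | r + 1 => by
    change wrapN _ (up (Ms.map (pad n) (dirac (det a r)))) = _
    rw [map_dirac, pad_det a r]
    exact wrapN_det (j := Dep n r + 1) a _

theorem good_pad {P : A → Prop} : ∀ {r : ℕ} {X : Nest A r}, Good P X → Good P (pad n X)
  | 0, _, hX => good_wrapN hX _
  | _ + 1, _, hX => good_wrapN (X := up _) ⟨hX.1.map _, hX.2.map fun _ hc => good_pad hc⟩ _

theorem pm_pad {m : ℕ → ℝ} (hm : ∀ i, 0 < m i) {P : A → Prop} {v : A → ℝ}
    (hv : ∀ x, P x → 0 ≤ v x) : ∀ {r : ℕ} {X : Nest A r}, Good P X →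
      pm m v (pad n X) = pm (fun i => m (Dep n i)) v X
  | 0, x, hX => pm_wrapN hm (v := v) (X := x) (hv _ hX) _
  | r + 1, X, hX => by
    change pm m v (wrapN _ (up (Ms.map (pad n) (dn X)))) = _
    rw [pm_wrapN hm (pm_nonneg hv (X := up (Ms.map (pad n) (dn X)))
        ⟨hX.1.map _, hX.2.map fun _ hc => good_pad hc⟩),
      pm_succ, pm_succ, dn_up, I_map, hX.2.I_congr fun c hc => by rw [pm_pad hm hv hc]]

noncomputable def padHom (n : ℕ → ℕ) (A : Type) [CommMonoid A] (r : ℕ) :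
    Nest A r →* Nest A (Dep n r) where
  toFun := pad n
  map_one' := by rw [← det_one, pad_det, det_one]
  map_mul' := pad_mul

variable {r : ℕ}

theorem pad_mapM (f : A → B) (X : Ms (Nest A r)) :
    Ms.map (pad n) (mapM f X) = mapM f (Ms.map (pad n) X) := by
  simp only [mapM, Ms.map_map, pad_map]

theorem pad_tens [Fintype ι] [DecidableEq ι] [CommMonoid A] (X : ι → Ms (Nest A r)) :
    Ms.map (pad n) (tens X) = tens fun i => Ms.map (pad n) (X i) := by
  have := map_prod (msHom (padHom n (ι → A) r))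
    (fun i => mapM (fun a => Pi.mulSingle i a) (X i)) Finset.univ
  refine this.trans (Finset.prod_congr rfl fun i _ => ?_)
  exact pad_mapM _ _

theorem pad_CL (Γ : Ms (Diluted.Inter p)) (X : Fin p → Ms (Nest (S → ℝ) r)) :
    Ms.map (pad n) (CL Γ X) = CL Γ fun i => Ms.map (pad n) (X i) := by
  simp only [CL, map_bind, clz, pad_mapM, pad_tens]

theorem lastSlot_map {C D : Type} (f : C → D) (X Y : C) (ℓ : Fin p) :
    f (lastSlot p X Y ℓ) = lastSlot p (f X) (f Y) ℓ := by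
  unfold lastSlot; split_ifs <;> rfl

theorem pad_siteN (Γ : Ms (Diluted.Inter p)) (H : Ms (Bool → ℝ)) (ξ : Ms (Nest ℝ r)) (J : ℕ) :
    siteN Γ H (Ms.map (pad n) ξ) J = Ms.map (pad n) (siteN Γ H ξ J) := by
  have h1 := map_mul (msHom (padHom n (Bool → ℝ) r)) (Ms.map (fun w => det w r) H)
    (CL Γ (lastSlot p (dirac (det spin1 r)) (slotE Bool ξ)) ^ J)
  rw [map_pow] at h1
  refine Eq.trans ?_ h1.symm
  change _ = Ms.map (pad n) _ * Ms.map (pad n) _ ^ J
  rw [pad_CL, Ms.map_map]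
  simp only [pad_det, lastSlot_map (Ms.map (pad n)), map_dirac, slotE, pad_mapM]
  rfl

/-! ### naturality for monoid homomorphisms of the leaves -/

theorem mapM_tens [Fintype ι] [DecidableEq ι] [CommMonoid A] [CommMonoid B] (φ : A →* B)
    (X : ι → Ms (Nest A j)) :
    mapM (fun x i => φ (x i)) (tens X) = tens fun i => mapM φ (X i) := by
  have := map_prod (msHom (mapHom (φ.compLeft ι) j))
    (fun i => mapM (fun a => Pi.mulSingle i a) (X i)) Finset.univ
  refine this.trans (Finset.prod_congr rfl fun i _ => ?_)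
  change mapM (φ.compLeft ι) (mapM _ _) = _
  rw [mapM_mapM, mapM_mapM]
  congr 1
  funext a i'
  by_cases h : i' = i
  · subst h; simp
  · simp [h]

/-- precomposition -/
def preHom (g : T → S) : (S → ℝ) →* (T → ℝ) where
  toFun x := fun t => x (g t)
  map_one' := rfl
  map_mul' _ _ := rfl

theorem pre_CL (g : T → S) (Γ : Ms (Diluted.Inter p)) (X : Fin p → Ms (Nest (S → ℝ) j)) :
    mapM (preHom g) (CL Γ X) = CL Γ fun i => mapM (preHom g) (X i) := by
  unfold CL
  rw [mapM, map_bind]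
  congr 1
  funext g'
  unfold clz
  rw [← mapM_tens, mapM_mapM, ← mapM, mapM_mapM]
  rfl

/-- the site nest for two scalar nests `ξ` and `f ξ` carried together -/
noncomputable def site2 (Γ : Ms (Diluted.Inter p)) (H : Ms (Bool → ℝ)) (f : Bool → ℝ → ℝ)
    (ξ : Ms (Nest ℝ j)) (J : ℕ) : Ms (Nest (Bool × Bool → ℝ) j) :=
  Ms.map (fun w => det (fun q : Bool × Bool => w q.1) j) H *
    CL Γ (lastSlot p (dirac (det (fun q : Bool × Bool => spin1 q.1) j))
      (mapM (fun r q => f q.2 r) ξ)) ^ J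

theorem pre_site2 (Γ : Ms (Diluted.Inter p)) (H : Ms (Bool → ℝ)) (f : Bool → ℝ → ℝ)
    (ξ : Ms (Nest ℝ j)) (J : ℕ) (t : Bool) :
    siteN Γ H (mapM (f t) ξ) J = mapM (preHom fun σ => (σ, t)) (site2 Γ H f ξ J) := by
  unfold site2
  rw [mapM_mul _ (preHom _).map_mul, mapM_pow _ (preHom _).map_one (preHom _).map_mul, pre_CL,
    mapM.eq_1 (preHom _), Ms.map_map]
  simp only [map_det, lastSlot_map (mapM (preHom fun σ : Bool => (σ, t))), mapM_dirac, mapM_mapM]
  unfold siteN slotE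
  rw [mapM_mapM]
  rfl

theorem tens2 (f : Bool → ℝ → ℝ) (ξ : Ms (Nest ℝ j)) (t : Bool) :
    (tens fun _ : Fin p => mapM (f t) ξ) =
      mapM (fun x ℓ => x ℓ t) (tens fun _ : Fin p => mapM (fun r (s : Bool) => f s r) ξ) := by
  have := mapM_tens (Pi.evalMonoidHom (fun _ : Bool => ℝ) t)
    (fun _ : Fin p => mapM (fun r (s : Bool) => f s r) ξ)
  simp only [mapM_mapM] at this
  exact this.symm

theorem mlin_ge {g : Diluted.Inter p} (hg : ∀ s, 0 ≤ g s) {x x' : Fin p → ℝ} {τ : ℝ} (hτ : 0 ≤ τ)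
    (hx : ∀ ℓ, R01 (x ℓ)) (h : ∀ ℓ s, τ * qq (x ℓ) s ≤ qq (x' ℓ) s) :
    τ ^ p * mlin g x ≤ mlin g x' := by
  unfold mlin
  rw [Finset.mul_sum]
  refine Finset.sum_le_sum fun s _ => ?_
  rw [mul_left_comm]
  refine mul_le_mul_of_nonneg_left ?_ (hg s)
  calc τ ^ p * ∏ ℓ, qq (x ℓ) (s ℓ) = ∏ ℓ, τ * qq (x ℓ) (s ℓ) := by
        rw [Finset.prod_mul_distrib]; simp
    _ ≤ _ := Finset.prod_le_prod (fun ℓ _ => mul_nonneg hτ (qq_nonneg (hx ℓ) _)) fun ℓ _ => h ℓ _

theorem mlin_one_sub (g : Diluted.Inter p) (x : Fin p → ℝ) :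
    mlin (fun s => 1 - g s) x = 1 - mlin g x := by
  simp only [mlin, sub_mul, one_mul, Finset.sum_sub_distrib, sum_prod_qq]

theorem mlin_cmp {c δ τ : ℝ} (hc : 0 < c) {g : Diluted.Inter p} (hg : Inc c g)
    {x x' : Fin p → ℝ} (hτ : 0 ≤ τ) (hδ : 0 ≤ δ) (h1 : Real.exp (-δ) ≤ τ ^ p)
    (h2 : 1 - c * δ ≤ τ ^ p) (h3 : τ ^ p ≤ 1)
    (hx : ∀ ℓ, R01 (x ℓ)) (h : ∀ ℓ s, τ * qq (x ℓ) s ≤ qq (x' ℓ) s) :
    mlin g x' ≤ Real.exp δ * mlin g x ∧ mlin g x ≤ Real.exp δ * mlin g x' := by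
  have a1 := mlin_ge (fun s => hc.le.trans (hg s).1) hτ hx h
  have a2 := mlin_ge (g := fun s => 1 - g s) (fun s => sub_nonneg.2 (hg s).2) hτ hx h
  rw [mlin_one_sub, mlin_one_sub] at a2
  have a3 := mlin_mem hg hx
  have a4 := Real.add_one_le_exp δ
  constructor
  · have := mul_le_mul_of_nonneg_left a3.1 hδ
    have := mul_le_mul_of_nonneg_right a4 (hc.le.trans a3.1)
    have := mul_le_mul_of_nonneg_right h3 (hc.le.trans a3.1)
    nlinarith
  · have a5 := mul_le_mul_of_nonneg_right h1 (hc.le.trans a3.1)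
    have a6 := mul_le_mul_of_nonneg_left (a5.trans a1) (Real.exp_pos δ).le
    rwa [← mul_assoc, ← Real.exp_add, add_neg_cancel, Real.exp_zero, one_mul] at a6

end Crest.Agent.R141.PiB
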