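import Crest.Agent.R141.Defs

/-! Row 141, task PiB: nested power means. -/

set_option autoImplicit false

namespace Crest.Agent.R141.PiB

open Crest.Agent.R153 Crest.Agent.R153.Ms Crest.Agent.R153.Nest
open Crest.ProbabilityR

variable {A B S ι : Type} {p : ℕ}

theorem pm_map (m : ℕ → ℝ) (v : B → ℝ) (f : A → B) : ∀ {j : ℕ} (X : Nest A j),
    pm m v (Nest.map f X) = pm m (fun a => v (f a)) X
  | 0, _ => rfl
  | j + 1, X => by simp [pm_succ, pm_map m v f (j := j)]

theorem mean_mem {M : Type} {X : Ms M} (hX : X.Prob) {W : M → ℝ} {a b s : ℝ} (ha : 0 ≤ a)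
    (hs : 0 < s) (hW : ∀ c, X.coeff c ≠ 0 → a ≤ W c ∧ W c ≤ b) :
    a ≤ (I X fun c => W c ^ s) ^ (1 / s) ∧ (I X fun c => W c ^ s) ^ (1 / s) ≤ b := by
  have h1 : a ^ s ≤ I X fun c => W c ^ s :=
    hX.ge_of_ge fun c hc => Real.rpow_le_rpow ha (hW c hc).1 hs.le
  have h2 : (I X fun c => W c ^ s) ≤ b ^ s :=
    hX.le_of_le fun c hc => Real.rpow_le_rpow (ha.trans (hW c hc).1) (hW c hc).2 hs.le
  have hb : 0 ≤ b := by
    have := hX.ge_of_ge (a := a) (f := fun _ => b) fun c hc => (hW c hc).1.trans (hW c hc).2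
    rw [hX.I_const] at this; linarith
  constructor
  · calc a = (a ^ s) ^ (1 / s) := by rw [one_div, Real.rpow_rpow_inv ha hs.ne']
      _ ≤ _ := Real.rpow_le_rpow (Real.rpow_nonneg ha _) h1 (by positivity)
  · calc _ ≤ (b ^ s) ^ (1 / s) :=
          Real.rpow_le_rpow ((Real.rpow_nonneg ha _).trans h1) h2 (by positivity)
      _ = b := by rw [one_div, Real.rpow_rpow_inv hb hs.ne']

theorem pm_mem {m : ℕ → ℝ} {P : A → Prop} {v : A → ℝ} {a b : ℝ} (ha : 0 ≤ a)
    (hv : ∀ x, P x → a ≤ v x ∧ v x ≤ b) : ∀ {j : ℕ} {X : Nest A j}, (∀ i < j, 0 < m i) →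
      Good P X → a ≤ pm m v X ∧ pm m v X ≤ b
  | 0, _, _, hX => hv _ hX
  | j + 1, _, hm, hX => mean_mem hX.1 ha (hm j (by omega)) fun c hc =>
      pm_mem ha hv (fun i hi => hm i (by omega)) (hX.2 c hc)

theorem pm_nonneg {m : ℕ → ℝ} {P : A → Prop} {v : A → ℝ} (hv : ∀ x, P x → 0 ≤ v x) :
    ∀ {j : ℕ} {X : Nest A j}, Good P X → 0 ≤ pm m v X
  | 0, _, hX => hv _ hX
  | _ + 1, _, hX => Real.rpow_nonneg (hX.2.I_nonneg hX.1.1 fun _ hc =>
      Real.rpow_nonneg (pm_nonneg hv hc) _) _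

theorem val_eq_pm {θ : ℝ} (hθ : 0 < θ) {P : A → Prop} {v : A → ℝ} (hv : ∀ x, P x → 0 ≤ v x) :
    ∀ {j : ℕ} {X : Nest A j}, Good P X → val θ v X = pm (fun i => θ ^ i) v X ^ (θ ^ j)
  | 0, _, _ => by simp
  | j + 1, X, hX => by
    rw [val_succ, pm_succ, pre, hX.2.I_congr fun c hc => val_eq_pm hθ hv hc,
      ← Real.rpow_mul (hX.2.I_nonneg hX.1.1 fun _ hc => Real.rpow_nonneg (pm_nonneg hv hc) _)]
    congr 1
    field_simp
    ring

/-- comparison of two power means -/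
theorem mean_cmp {M : Type} {X : Ms M} (hX : X.Prob) {W : M → ℝ} {a b s t d : ℝ} (ha : 0 < a)
    (hs : 0 < s) (ht : 0 < t) (hd : 0 ≤ d) (hst : s ≤ (1 + d) * t)
    (hW : ∀ c, X.coeff c ≠ 0 → a ≤ W c ∧ W c ≤ b) :
    Real.log ((I X fun c => W c ^ s) ^ (1 / s)) ≤
      Real.log ((I X fun c => W c ^ t) ^ (1 / t)) + d * (Real.log b - Real.log a) := by
  have m1 := mean_mem hX ha.le hs hW
  have m2 := mean_mem hX ha.le ht hW
  have hab : Real.log a ≤ Real.log b := Real.log_le_log ha (m1.1.trans m1.2)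
  have hb : 0 < b := ha.trans_le (m1.1.trans m1.2)
  have p1 : 0 < I X fun c => W c ^ s := (Real.rpow_pos_of_pos ha s).trans_le
    (hX.ge_of_ge fun c hc => Real.rpow_le_rpow ha.le (hW c hc).1 hs.le)
  have p2 : 0 < I X fun c => W c ^ t := (Real.rpow_pos_of_pos ha t).trans_le
    (hX.ge_of_ge fun c hc => Real.rpow_le_rpow ha.le (hW c hc).1 ht.le)
  have l1 := Real.log_le_log ha m1.1
  rw [Real.log_rpow p1] at l1 ⊢
  rw [Real.log_rpow p2]
  rcases le_total s t with h | h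
  · have h1 : (I X fun c => W c ^ s) ^ (t / s) ≤ I X fun c => W c ^ t := by
      have := Real.rpow_arith_mean_le_arith_mean_rpow X.coeff.support X.coeff (fun c => W c ^ s)
        (fun c _ => hX.1 c) (by simpa [mass, I_eq_sum] using hX.2)
        (fun c hc => Real.rpow_nonneg (ha.le.trans (hW c (Finsupp.mem_support_iff.1 hc)).1) _)
        (p := t / s) ((one_le_div hs).2 h)
      refine this.trans (le_of_eq (Finset.sum_congr rfl fun c hc => ?_))
      rw [← Real.rpow_mul (ha.le.trans (hW c (Finsupp.mem_support_iff.1 hc)).1)]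
      congr 2; field_simp
    have h2 := Real.log_le_log (Real.rpow_pos_of_pos p1 _) h1
    rw [Real.log_rpow p1] at h2
    have h3 := mul_le_mul_of_nonneg_left h2 (by positivity : 0 ≤ 1 / t)
    have h4 : 1 / t * (t / s * Real.log (I X fun c => W c ^ s)) =
        1 / s * Real.log (I X fun c => W c ^ s) := by field_simp
    have h5 := mul_nonneg hd (sub_nonneg.2 hab)
    linarith
  · have h1 : b ^ (t - s) * (I X fun c => W c ^ s) ≤ I X fun c => W c ^ t := by
      rw [← I_const_mul]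
      refine I_mono hX.1 fun c hc => ?_
      have hc0 : 0 < W c := ha.trans_le (hW c hc).1
      calc b ^ (t - s) * W c ^ s ≤ W c ^ (t - s) * W c ^ s :=
            mul_le_mul_of_nonneg_right
              (Real.rpow_le_rpow_of_nonpos hc0 (hW c hc).2 (by linarith)) (by positivity)
        _ = _ := by rw [← Real.rpow_add hc0]; congr 1; ring
    have h2 := Real.log_le_log (mul_pos (Real.rpow_pos_of_pos hb _) p1) h1
    rw [Real.log_mul (Real.rpow_pos_of_pos hb _).ne' p1.ne', Real.log_rpow hb] at h2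
    set L := 1 / s * Real.log (I X fun c => W c ^ s) with hL
    have h3 : Real.log (I X fun c => W c ^ s) = s * L := by rw [hL]; field_simp
    rw [h3] at h2
    refine le_of_mul_le_mul_left ?_ ht
    have h4 : t * (1 / t * Real.log (I X fun c => W c ^ t)) = Real.log (I X fun c => W c ^ t) := by
      field_simp
    have h5 := mul_le_mul_of_nonneg_left l1 (sub_nonneg.2 h)
    have h6 := mul_le_mul_of_nonneg_right (show s - t ≤ d * t by linarith) (sub_nonneg.2 hab)
    rw [mul_add, h4]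
    nlinarith

theorem pm_cmp {m m' d : ℕ → ℝ} {P : A → Prop} {u v : A → ℝ} {a b κ : ℝ} (ha : 0 < a)
    (hv : ∀ x, P x → a ≤ v x ∧ v x ≤ b) (hu : ∀ x, P x → a ≤ u x ∧ u x ≤ b)
    (huv : ∀ x, P x → u x ≤ Real.exp κ * v x) :
    ∀ {j : ℕ} {X : Nest A j}, (∀ i < j, 0 < m i) → (∀ i < j, 0 < m' i) →
      (∀ i < j, 0 ≤ d i ∧ m i ≤ (1 + d i) * m' i) → Good P X →
      Real.log (pm m u X) ≤ Real.log (pm m' v X) + κ +
        (∑ i ∈ Finset.range j, d i) * (Real.log b - Real.log a)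
  | 0, x, _, _, _, hX => by
    have h1 := Real.log_le_log (ha.trans_le (hu _ hX).1) (huv _ hX)
    rw [Real.log_mul (Real.exp_pos _).ne' (ha.trans_le (hv _ hX).1).ne', Real.log_exp] at h1
    simp only [pm_zero, Finset.range_zero, Finset.sum_empty, zero_mul]
    linarith
  | j + 1, X, hm, hm', hd, hX => by
    have hs := hm j (by omega)
    set κ' := κ + (∑ i ∈ Finset.range j, d i) * (Real.log b - Real.log a) with hκ'
    have b1 : ∀ c, (dn X).coeff c ≠ 0 → a ≤ pm m' v c ∧ pm m' v c ≤ b := fun c hc =>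
      pm_mem ha.le hv (fun i hi => hm' i (by omega)) (hX.2 c hc)
    have b2 : ∀ c, (dn X).coeff c ≠ 0 → a ≤ pm m u c ∧ pm m u c ≤ b := fun c hc =>
      pm_mem ha.le hu (fun i hi => hm i (by omega)) (hX.2 c hc)
    have h1 : (I (dn X) fun c => pm m u c ^ m j) ≤
        Real.exp κ' ^ m j * I (dn X) fun c => pm m' v c ^ m j := by
      rw [← I_const_mul]
      refine I_mono hX.1.1 fun c hc => ?_
      rw [← Real.mul_rpow (Real.exp_pos _).le (ha.le.trans (b1 c hc).1)]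
      refine Real.rpow_le_rpow (ha.le.trans (b2 c hc).1) ?_ hs.le
      have := pm_cmp ha hv hu huv (fun i hi => hm i (by omega)) (fun i hi => hm' i (by omega))
        (fun i hi => hd i (by omega)) (hX.2 c hc)
      rw [← Real.exp_log (ha.trans_le (b2 c hc).1), ← Real.exp_log (ha.trans_le (b1 c hc).1),
        ← Real.exp_add]
      exact Real.exp_le_exp.2 (by linarith)
    have p1 : 0 < I (dn X) fun c => pm m u c ^ m j := (Real.rpow_pos_of_pos ha _).trans_le
      (hX.1.ge_of_ge fun c hc => Real.rpow_le_rpow ha.le (b2 c hc).1 hs.le)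
    have p2 : 0 < I (dn X) fun c => pm m' v c ^ m j := (Real.rpow_pos_of_pos ha _).trans_le
      (hX.1.ge_of_ge fun c hc => Real.rpow_le_rpow ha.le (b1 c hc).1 hs.le)
    have h2 := Real.log_le_log p1 h1
    rw [Real.log_mul (Real.rpow_pos_of_pos (Real.exp_pos _) _).ne' p2.ne',
      Real.log_rpow (Real.exp_pos _), Real.log_exp] at h2
    have h3 := mean_cmp hX.1 ha hs (hm' j (by omega)) (hd j (by omega)).1 (hd j (by omega)).2 b1
    rw [Real.log_rpow p2] at h3
    rw [pm_succ, pm_succ, Real.log_rpow p1, Finset.sum_range_succ, add_mul]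
    have h4 := mul_le_mul_of_nonneg_left h2 (by positivity : 0 ≤ 1 / m j)
    have h5 : 1 / m j * (m j * κ') = κ' := by field_simp
    rw [mul_add, h5] at h4
    linarith

/-! ### bounds for the site and edge terms -/

section model
variable {c : ℝ} {Γ : Ms (Diluted.Inter p)} {H : Ms (Bool → ℝ)} {j : ℕ}

theorem c_le_one (hM : Model c Γ H) : c ≤ 1 := by
  have := hM.probH.ge_of_ge (a := c) (f := fun _ => 1) fun w hw =>
    (hM.suppH w hw true).1.trans (hM.suppH w hw true).2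
  rwa [hM.probH.I_const] at this

theorem inc_mul {a b : ℝ} (ha : 0 ≤ a) (hb : 0 ≤ b) (x y : S → ℝ) (hx : Inc a x) (hy : Inc b y) :
    Inc (a * b) (x * y) := fun s =>
  ⟨mul_le_mul (hx s).1 (hy s).1 hb (ha.trans (hx s).1),
    mul_le_one₀ (hx s).2 (hb.trans (hy s).1) (hy s).2⟩

theorem goodM_pow_idx [CommMonoid A] {Q : ℕ → A → Prop} (h0 : Q 0 1)
    (h : ∀ n a b, Q n a → Q 1 b → Q (n + 1) (a * b)) {X : Ms (Nest A j)} (hX : GoodM (Q 1) X)
    (n : ℕ) : GoodM (Q n) (X ^ n) := by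
  induction n with
  | zero => rw [pow_zero]; exact goodM_one h0
  | succ n ih => rw [pow_succ]; exact GoodM.mul (h n) ih hX

theorem goodM_siteN_inc (hM : Model c Γ H) {ξ : Ms (Nest ℝ j)} (hξ : GoodM R01 ξ) (J : ℕ) :
    GoodM (Inc (c ^ (J + 1))) (siteN Γ H ξ J) := by
  have hc := hM.pos.le
  rw [pow_succ']
  refine GoodM.mul (inc_mul hc (by positivity))
    ⟨hM.probH.map _, hM.suppH.map fun _ hw => good_det hw j⟩ ?_
  refine goodM_pow_idx (Q := fun n => Inc (c ^ n)) (fun _ => by simp)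
    (fun n a b ha hb => by
      rw [pow_add]; exact inc_mul (by positivity) (by positivity) a b ha hb) ?_ J
  rw [pow_one]
  exact goodM_CL_inc hM.probΓ hM.suppΓ
    (lastSlot_prop (goodM_dirac (good_det U01_spin1 j)) hξ.slotE)

theorem sumv_mem {a : ℝ} (x : Bool → ℝ) (hx : Inc a x) : 2 * a ≤ sumv x ∧ sumv x ≤ 2 := by
  simp only [sumv, Fintype.sum_bool]
  constructor <;> linarith [hx true, hx false]

theorem log_pm_site (hM : Model c Γ H) {m : ℕ → ℝ} (hm : ∀ i < j, 0 < m i) {J : ℕ}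
    {X : Nest (Bool → ℝ) j} (hX : Good (Inc (c ^ (J + 1))) X) :
    0 < pm m sumv X ∧ Real.log 2 + (J + 1) * Real.log c ≤ Real.log (pm m sumv X) ∧
      Real.log (pm m sumv X) ≤ Real.log 2 := by
  have hc := hM.pos
  have h := pm_mem (by positivity) sumv_mem hm hX
  have h0 : 0 < 2 * c ^ (J + 1) := by positivity
  refine ⟨h0.trans_le h.1, ?_, Real.log_le_log (h0.trans_le h.1) h.2⟩
  have := Real.log_le_log h0 h.1
  rw [Real.log_mul (by norm_num) (by positivity), Real.log_pow] at this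
  push_cast at this; exact this

theorem log_pm_edge (hc : 0 < c) {g : Diluted.Inter p} (hg : Inc c g) {m : ℕ → ℝ}
    (hm : ∀ i < j, 0 < m i) {X : Nest (Fin p → ℝ) j} (hX : Good (fun x => ∀ ℓ, R01 (x ℓ)) X) :
    0 < pm m (mlin g) X ∧ Real.log c ≤ Real.log (pm m (mlin g) X) ∧
      Real.log (pm m (mlin g) X) ≤ 0 := by
  have h := pm_mem hc.le (fun x hx => mlin_mem hg hx) hm hX
  exact ⟨hc.trans_le h.1, Real.log_le_log hc h.1, Real.log_nonpos (hc.le.trans h.1) h.2⟩

theorem summable_poi_sq {x : ℝ} (hx : 0 ≤ x) {f : ℕ → ℝ} {B : ℝ}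
    (hf : ∀ J, |f J| ≤ B * ((J : ℝ) + 1) ^ 2) : Summable fun J => poi x J * f J := by
  have hB : 0 ≤ B := by have := (abs_nonneg _).trans (hf 0); simpa using this
  refine Summable.of_norm_bounded ((hasSum_poi_mul_pow x 4).summable.mul_left B) fun J => ?_
  rw [Real.norm_eq_abs, abs_mul, abs_of_nonneg (poi_nonneg hx J), mul_left_comm]
  refine mul_le_mul_of_nonneg_left ((hf J).trans (mul_le_mul_of_nonneg_left ?_ hB))
    (poi_nonneg hx J)
  have : J + 1 ≤ 2 ^ J := Nat.lt_two_pow_self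
  have h2 : ((J : ℝ) + 1) ≤ 2 ^ J := by exact_mod_cast this
  calc ((J : ℝ) + 1) ^ 2 ≤ (2 ^ J) ^ 2 := by gcongr
    _ = 4 ^ J := by rw [← pow_mul, mul_comm, pow_mul]; norm_num

theorem summable_site (hM : Model c Γ H) {x : ℝ} (hx : 0 ≤ x) {m : ℕ → ℝ}
    (hm : ∀ i < j, 0 < m i) {ξ : Ms (Nest ℝ j)} (hξ : GoodM R01 ξ) :
    Summable fun J => poi x J * I (siteN Γ H ξ J) fun c => Real.log (pm m sumv c) := by
  refine summable_poi_sq hx (B := Real.log 2 - Real.log c) fun J => ?_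
  have hg := goodM_siteN_inc hM hξ J
  have l2 : 0 ≤ Real.log 2 := Real.log_nonneg (by norm_num)
  have lc : Real.log c ≤ 0 := Real.log_nonpos hM.pos.le (c_le_one hM)
  have h1 := hg.1.ge_of_ge fun c hc => (log_pm_site hM hm (hg.2 c hc)).2.1
  have h2 := hg.1.le_of_le fun c hc => (log_pm_site hM hm (hg.2 c hc)).2.2
  have hJ : (0 : ℝ) ≤ J := by positivity
  have h3 : (J : ℝ) + 1 ≤ (J + 1) ^ 2 := by nlinarith
  have h4 := mul_le_mul_of_nonneg_left h3 (show 0 ≤ Real.log 2 - Real.log c by linarith)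
  rw [abs_le]
  constructor <;> nlinarith

theorem BQ_le (hp : 1 ≤ p) (hM : Model c Γ H) {α : ℝ} (hα : 0 ≤ α) {j' : ℕ} {m m' : ℕ → ℝ}
    (hm : ∀ i < j, 0 < m i) (hm' : ∀ i < j', 0 < m' i) {ξ : Ms (Nest ℝ j)} {ξ' : Ms (Nest ℝ j')}
    (hξ : GoodM R01 ξ) (hξ' : GoodM R01 ξ') {δ : ℝ}
    (h1 : ∀ J : ℕ, (I (siteN Γ H ξ' J) fun c => Real.log (pm m' sumv c)) ≤
      (I (siteN Γ H ξ J) fun c => Real.log (pm m sumv c)) + (J + 1) * δ)
    (h2 : ∀ g, Inc c g → (I (tens fun _ : Fin p => ξ) fun c => Real.log (pm m (mlin g) c)) ≤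
      (I (tens fun _ : Fin p => ξ') fun c => Real.log (pm m' (mlin g) c)) + δ) :
    BQ m' α Γ H ξ' ≤ BQ m α Γ H ξ + (α * p + 1 + α * ((p : ℝ) - 1)) * δ := by
  have hx : 0 ≤ α * p := by positivity
  have hp' : (0 : ℝ) ≤ α * ((p : ℝ) - 1) :=
    mul_nonneg hα (sub_nonneg.2 (by exact_mod_cast hp))
  have s1 := summable_site hM hx hm hξ
  have s2 := summable_site hM hx hm' hξ'
  have s3 := ((hasSum_poi_mul_nat (α * p)).add (hasSum_poi (α * p))).mul_right δ
  have a1 := hasSum_le (fun J => ?_) s2.hasSum (s1.hasSum.add s3)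
  · have a2 := hM.suppΓ.I_mono hM.probΓ.1 h2
    rw [I_add_fun, hM.probΓ.I_const] at a2
    have a3 := mul_le_mul_of_nonneg_left a2 hp'
    unfold BQ
    linarith
  · have := mul_le_mul_of_nonneg_left (h1 J) (poi_nonneg hx J)
    linarith

end model

end Crest.Agent.R141.PiB
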