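import Crest.Prelude.Def_DilutedSpinGlass

/-!
Row 141: measure theory of the nested power means.
-/

set_option autoImplicit false

namespace Crest.Agent.R141.TL

open Crest.ProbabilityR Crest.ProbabilityR.Diluted MeasureTheory Filter Topology

variable {L : Type} [Fintype L] {r : ℕ}

abbrev Arr (L : Type) (r : ℕ) : Type := L → Fin (r + 1) → unitInterval

noncomputable abbrev volL (L : Type) [Fintype L] : Measure (L → unitInterval) :=
  Measure.pi fun _ : L => (volume : Measure unitInterval)

instance : IsProbabilityMeasure (uniformArrays L r) := by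
  unfold uniformArrays; infer_instance

def upd (lvl : Fin (r + 1)) (u : Arr L r) (v : L → unitInterval) : Arr L r :=
  fun ω j => if j = lvl then v ω else u ω j

omit [Fintype L] in
theorem measurable_upd (lvl : Fin (r + 1)) :
    Measurable fun q : Arr L r × (L → unitInterval) => upd lvl q.1 q.2 := by
  refine measurable_pi_iff.2 fun ω => measurable_pi_iff.2 fun j => ?_
  unfold upd
  split_ifs <;> fun_prop

theorem mp_upd1 (lvl : Fin (r + 1)) :
    MeasurePreserving (fun (q : (Fin (r + 1) → unitInterval) × unitInterval) j =>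
      if j = lvl then q.2 else q.1 j) ((volL (Fin (r + 1))).prod volume) (volL (Fin (r + 1))) := by
  have hm : Measurable fun (q : (Fin (r + 1) → unitInterval) × unitInterval) j =>
      if j = lvl then q.2 else q.1 j := by
    refine measurable_pi_iff.2 fun j => ?_
    split_ifs <;> fun_prop
  refine ⟨hm, (Measure.pi_eq fun s hs => ?_).symm⟩
  rw [Measure.map_apply hm (MeasurableSet.univ_pi hs)]
  have : (fun (q : (Fin (r + 1) → unitInterval) × unitInterval) j =>
      if j = lvl then q.2 else q.1 j) ⁻¹' Set.univ.pi s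
      = (Set.univ.pi (Function.update s lvl Set.univ)) ×ˢ s lvl := by
    ext ⟨a, b⟩
    simp only [Set.mem_preimage, Set.mem_pi, Set.mem_univ, true_imp_iff, Set.mem_prod]
    constructor
    · intro h
      refine ⟨fun j => ?_, by simpa using h lvl⟩
      by_cases hj : j = lvl
      · subst hj; simp
      · simpa [hj] using h j
    · rintro ⟨h1, h2⟩ j
      by_cases hj : j = lvl
      · subst hj; simpa using h2
      · simpa [hj] using h1 j
  rw [this, Measure.prod_prod, Measure.pi_pi,
    ← Finset.prod_erase_mul _ _ (Finset.mem_univ lvl),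
    ← Finset.prod_erase_mul _ (fun i => volume (s i)) (Finset.mem_univ lvl)]
  simp only [Function.update_self, measure_univ, mul_one]
  congr 1
  exact Finset.prod_congr rfl fun j hj => by
    rw [Function.update_of_ne (Finset.ne_of_mem_erase hj)]

theorem mp_upd (lvl : Fin (r + 1)) :
    MeasurePreserving (fun q : Arr L r × (L → unitInterval) => upd lvl q.1 q.2)
      ((uniformArrays L r).prod (volL L)) (uniformArrays L r) :=
  (measurePreserving_pi _ _ fun _ : L => mp_upd1 lvl).comp
    (measurePreserving_arrowProdEquivProdArrow _ _ L (fun _ => volL (Fin (r + 1)))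
      fun _ => (volume : Measure unitInterval)).symm

theorem pmStep_eq (m : ℝ) (lvl : Fin (r + 1)) (W : Arr L r → ℝ) (u : Arr L r) :
    pmStep m lvl W u = (∫ v, W (upd lvl u v) ^ m ∂volL L) ^ (1 / m) := rfl

theorem measurable_pmStep {Z : Type} [MeasurableSpace Z] (m : ℝ) (lvl : Fin (r + 1))
    {W : Z → Arr L r → ℝ} (hW : Measurable fun q : Z × Arr L r => W q.1 q.2) :
    Measurable fun q : Z × Arr L r => pmStep m lvl (W q.1) q.2 := by
  have h1 : Measurable fun q : (Z × Arr L r) × (L → unitInterval) =>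
      W q.1.1 (upd lvl q.1.2 q.2) ^ m :=
    (hW.comp (measurable_fst.fst.prodMk ((measurable_upd lvl).comp
      (measurable_fst.snd.prodMk measurable_snd)))).pow_const m
  exact (h1.stronglyMeasurable.integral_prod_right' (ν := volL L)).measurable.pow_const _

/-- measurable with logarithm bounded by `B` -/
structure Bd (B : ℝ) (W : Arr L r → ℝ) : Prop where
  meas : Measurable W
  lo : ∀ u, Real.exp (-B) ≤ W u
  hi : ∀ u, W u ≤ Real.exp B

omit [Fintype L] in
theorem Bd.pos {B : ℝ} {W : Arr L r → ℝ} (h : Bd B W) (u : Arr L r) : 0 < W u :=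
  (Real.exp_pos _).trans_le (h.lo u)

omit [Fintype L] in
theorem Bd.abs_log {B : ℝ} {W : Arr L r → ℝ} (h : Bd B W) (u : Arr L r) :
    |Real.log (W u)| ≤ B :=
  abs_le.2 ⟨(Real.le_log_iff_exp_le (h.pos u)).2 (h.lo u), (Real.log_le_iff_le_exp (h.pos u)).2 (h.hi u)⟩

omit [Fintype L] in
theorem Bd.meas_upd {B : ℝ} {W : Arr L r → ℝ} (h : Bd B W) (m : ℝ) (lvl : Fin (r + 1))
    (u : Arr L r) : Measurable fun v => W (upd lvl u v) ^ m :=
  (h.meas.comp ((measurable_upd lvl).comp (measurable_const.prodMk measurable_id))).pow_const m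

omit [Fintype L] in
theorem Bd.norm_le {B : ℝ} {W : Arr L r → ℝ} (h : Bd B W) {m : ℝ} (hm : 0 < m) (u : Arr L r) :
    ‖W u ^ m‖ ≤ Real.exp B ^ m := by
  rw [Real.norm_of_nonneg (Real.rpow_nonneg (h.pos u).le _)]
  exact Real.rpow_le_rpow (h.pos u).le (h.hi u) hm.le

theorem Bd.int {B : ℝ} {W : Arr L r → ℝ} (h : Bd B W) {m : ℝ} (hm : 0 < m) (lvl : Fin (r + 1))
    (u : Arr L r) : Integrable (fun v => W (upd lvl u v) ^ m) (volL L) :=
  Integrable.of_bound (h.meas_upd m lvl u).aestronglyMeasurable _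
    (Eventually.of_forall fun _ => h.norm_le hm _)

theorem Bd.int_lo {B : ℝ} {W : Arr L r → ℝ} (h : Bd B W) {m : ℝ} (hm : 0 < m) (lvl : Fin (r + 1))
    (u : Arr L r) : Real.exp (-B) ^ m ≤ ∫ v, W (upd lvl u v) ^ m ∂volL L := by
  have := integral_mono (integrable_const (Real.exp (-B) ^ m)) (h.int hm lvl u)
    fun v => Real.rpow_le_rpow (Real.exp_pos _).le (h.lo _) hm.le
  simpa using this

theorem Bd.step {B : ℝ} {W : Arr L r → ℝ} (h : Bd B W) {m : ℝ} (hm : 0 < m) (lvl : Fin (r + 1)) :
    Bd B (pmStep m lvl W) where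
  meas := (measurable_pmStep (Z := Unit) m lvl (W := fun _ => W) (h.meas.comp measurable_snd)).comp
    (measurable_const.prodMk measurable_id (f := fun _ => ()))
  lo u := by
    rw [pmStep_eq, one_div]
    exact (Real.le_rpow_inv_iff_of_pos (Real.exp_pos _).le
      ((Real.rpow_nonneg (Real.exp_pos _).le _).trans (h.int_lo hm lvl u)) hm).2 (h.int_lo hm lvl u)
  hi u := by
    rw [pmStep_eq, one_div]
    refine (Real.rpow_inv_le_iff_of_pos
      ((Real.rpow_nonneg (Real.exp_pos _).le _).trans (h.int_lo hm lvl u)) (Real.exp_pos _).le hm).2 ?_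
    have := integral_mono (h.int hm lvl u) (integrable_const (Real.exp B ^ m))
      fun v => Real.rpow_le_rpow (h.pos _).le (h.hi _) hm.le
    simpa using this

theorem Bd.step_le {B B' C : ℝ} {W W' : Arr L r → ℝ} (h : Bd B W) (h' : Bd B' W') (hC : 0 ≤ C)
    (hle : ∀ u, W u ≤ C * W' u) {m : ℝ} (hm : 0 < m) (lvl : Fin (r + 1)) (u : Arr L r) :
    pmStep m lvl W u ≤ C * pmStep m lvl W' u := by
  have h0 := (Real.rpow_nonneg (Real.exp_pos _).le _).trans (h.int_lo hm lvl u)
  have h0' := (Real.rpow_nonneg (Real.exp_pos _).le _).trans (h'.int_lo hm lvl u)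
  have h1 := integral_mono (h.int hm lvl u) ((h'.int hm lvl u).const_mul (C ^ m)) fun v => by
    have := Real.rpow_le_rpow (h.pos (upd lvl u v)).le (hle _) hm.le
    rwa [Real.mul_rpow hC (h'.pos _).le] at this
  rw [integral_const_mul] at h1
  have h2 := Real.rpow_le_rpow h0 h1 (one_div_pos.2 hm).le
  rwa [Real.mul_rpow (Real.rpow_nonneg hC _) h0', ← Real.rpow_mul hC, mul_one_div_cancel hm.ne',
    Real.rpow_one] at h2

theorem Bd.step_tendsto {B : ℝ} {W : ℕ → Arr L r → ℝ} {W' : Arr L r → ℝ} (h : ∀ n, Bd B (W n))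
    (hl : ∀ᵐ u ∂uniformArrays L r, Tendsto (fun n => W n u) atTop (𝓝 (W' u))) {m : ℝ} (hm : 0 < m)
    (lvl : Fin (r + 1)) :
    ∀ᵐ u ∂uniformArrays L r,
      Tendsto (fun n => pmStep m lvl (W n) u) atTop (𝓝 (pmStep m lvl W' u)) := by
  have h1 := Measure.ae_ae_of_ae_prod ((mp_upd (L := L) lvl).quasiMeasurePreserving.ae hl)
  filter_upwards [h1] with u hu
  refine Tendsto.rpow_const ?_ (Or.inr (one_div_pos.2 hm).le)
  refine tendsto_integral_of_dominated_convergence (fun _ => Real.exp B ^ m)
    (fun n => ((h n).meas_upd m lvl u).aestronglyMeasurable) (integrable_const _)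
    (fun n => Eventually.of_forall fun v => (h n).norm_le hm _) ?_
  filter_upwards [hu] with v hv
  exact hv.rpow_const (Or.inr hm.le)

/-- the fold over an arbitrary list of levels -/
noncomputable def pml (m : Fin r → ℝ) (l : List (Fin r)) (W : Arr L r → ℝ) : Arr L r → ℝ :=
  l.foldr (fun d acc => pmStep (m d) d.succ acc) W

theorem measurable_pml {Z : Type} [MeasurableSpace Z] (m : Fin r → ℝ) (l : List (Fin r))
    {W : Z → Arr L r → ℝ} (hW : Measurable fun q : Z × Arr L r => W q.1 q.2) :
    Measurable fun q : Z × Arr L r => pml m l (W q.1) q.2 := by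
  induction l with
  | nil => exact hW
  | cons d l ih => exact measurable_pmStep (m d) d.succ (W := fun z => pml m l (W z)) ih

theorem Bd.pml {B : ℝ} {W : Arr L r → ℝ} (h : Bd B W) {m : Fin r → ℝ} (hm : ∀ d, 0 < m d)
    (l : List (Fin r)) : Bd B (pml m l W) := by
  induction l with
  | nil => exact h
  | cons d l ih => exact ih.step (hm d) _

theorem Bd.pml_le {B B' C : ℝ} {W W' : Arr L r → ℝ} (h : Bd B W) (h' : Bd B' W') (hC : 0 ≤ C)
    (hle : ∀ u, W u ≤ C * W' u) {m : Fin r → ℝ} (hm : ∀ d, 0 < m d) (l : List (Fin r)) :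
    ∀ u, TL.pml m l W u ≤ C * TL.pml m l W' u := by
  induction l with
  | nil => exact hle
  | cons d l ih => exact (h.pml hm l).step_le (h'.pml hm l) hC ih (hm d) _

theorem Bd.pml_tendsto {B : ℝ} {W : ℕ → Arr L r → ℝ} {W' : Arr L r → ℝ} (h : ∀ n, Bd B (W n))
    (hl : ∀ᵐ u ∂uniformArrays L r, Tendsto (fun n => W n u) atTop (𝓝 (W' u)))
    {m : Fin r → ℝ} (hm : ∀ d, 0 < m d) (l : List (Fin r)) :
    ∀ᵐ u ∂uniformArrays L r,
      Tendsto (fun n => TL.pml m l (W n) u) atTop (𝓝 (TL.pml m l W' u)) := by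
  induction l with
  | nil => exact hl
  | cons d l ih => exact Bd.step_tendsto (fun n => (h n).pml hm l) ih (hm d) _

/-- the expected logarithm of the nested power means of a function `T` of the messages -/
noncomputable def G (m : Fin r → ℝ) (X : (Fin (r + 1) → unitInterval) → ℝ) (T : (L → ℝ) → ℝ) : ℝ :=
  ∫ u, Real.log (powerMeans m (fun u' : Arr L r => T fun ω => X (u' ω)) u) ∂uniformArrays L r

/-- continuous with logarithm bounded by `B` -/
structure Ct (B : ℝ) (T : (L → ℝ) → ℝ) : Prop where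
  cont : Continuous T
  lo : ∀ x, Real.exp (-B) ≤ T x
  hi : ∀ x, T x ≤ Real.exp B

theorem Ct.bd {B : ℝ} {T : (L → ℝ) → ℝ} (h : Ct B T) {X : (Fin (r + 1) → unitInterval) → ℝ}
    (hX : Measurable X) : Bd B fun u' : Arr L r => T fun ω => X (u' ω) :=
  ⟨h.cont.measurable.comp (measurable_pi_iff.2 fun ω => hX.comp (measurable_pi_apply ω)),
    fun _ => h.lo _, fun _ => h.hi _⟩

theorem Bd.int_log {B : ℝ} {W : Arr L r → ℝ} (h : Bd B W) :
    Integrable (fun u => Real.log (W u)) (uniformArrays L r) :=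
  Integrable.of_bound h.meas.log.aestronglyMeasurable B (Eventually.of_forall h.abs_log)

section G
variable {m : Fin r → ℝ} {X : (Fin (r + 1) → unitInterval) → ℝ}

theorem measurable_G {Z : Type} [MeasurableSpace Z] (hX : Measurable X) {T : Z → (L → ℝ) → ℝ}
    (hT : Measurable fun q : Z × (L → ℝ) => T q.1 q.2) : Measurable fun z => G m X (T z) := by
  have h1 := (measurable_pml m (List.finRange r)
    (W := fun z (u' : Arr L r) => T z fun ω => X (u' ω)) (hT.comp (measurable_fst.prodMk
      (measurable_pi_iff.2 fun ω => hX.comp ((measurable_pi_apply ω).comp measurable_snd))))).log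
  exact (h1.stronglyMeasurable.integral_prod_right' (ν := uniformArrays L r)).measurable

theorem Ct.abs_G {B : ℝ} {T : (L → ℝ) → ℝ} (h : Ct B T) (hm : ∀ d, 0 < m d) (hX : Measurable X) :
    |G m X T| ≤ B := by
  have := norm_integral_le_of_norm_le_const (μ := uniformArrays L r) (C := B)
    (f := fun u => Real.log (pml m (List.finRange r) (fun u' : Arr L r => T fun ω => X (u' ω)) u))
    (Eventually.of_forall ((h.bd hX).pml hm (List.finRange r)).abs_log)
  rw [probReal_univ, mul_one] at this
  exact this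

theorem Ct.G_le {B B' a : ℝ} {T T' : (L → ℝ) → ℝ} (h : Ct B T) (h' : Ct B' T')
    (hle : ∀ x, T x ≤ Real.exp a * T' x) (hm : ∀ d, 0 < m d) (hX : Measurable X) :
    G m X T ≤ a + G m X T' := by
  have b := (h.bd hX).pml hm (List.finRange r)
  have b' := (h'.bd hX).pml hm (List.finRange r)
  have := integral_mono b.int_log ((integrable_const a).add b'.int_log) fun u => by
    have h1 := (h.bd hX).pml_le (h'.bd hX) (Real.exp_pos a).le (fun _ => hle _) hm
      (List.finRange r) u
    have h2 := Real.log_le_log (b.pos u) h1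
    rwa [Real.log_mul (Real.exp_pos a).ne' (b'.pos u).ne', Real.log_exp] at h2
  simp only [Pi.add_apply] at this
  rw [integral_add (integrable_const a) b'.int_log, integral_const, probReal_univ, one_smul] at this
  exact this

theorem Ct.G_tendsto {B : ℝ} {T : (L → ℝ) → ℝ} (h : Ct B T) (hm : ∀ d, 0 < m d)
    (hX : Measurable X) {Y : ℕ → (Fin (r + 1) → unitInterval) → ℝ} (hY : ∀ n, Measurable (Y n))
    (hl : ∀ᵐ a ∂volL (Fin (r + 1)), Tendsto (fun n => Y n a) atTop (𝓝 (X a))) :
    Tendsto (fun n => G m (Y n) T) atTop (𝓝 (G m X T)) := by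
  have h1 : ∀ᵐ u ∂uniformArrays L r, ∀ ω, Tendsto (fun n => Y n (u ω)) atTop (𝓝 (X (u ω))) :=
    ae_all_iff.2 fun ω =>
      (Measure.quasiMeasurePreserving_eval (fun _ : L => volL (Fin (r + 1))) ω).ae hl
  have h2 := Bd.pml_tendsto (fun n => h.bd (hY n)) (W' := fun u' : Arr L r => T fun ω => X (u' ω))
    (by
      filter_upwards [h1] with u hu
      exact (h.cont.tendsto _).comp (tendsto_pi_nhds.2 hu)) hm (List.finRange r)
  refine tendsto_integral_of_dominated_convergence (fun _ => B)
    (fun n => ((h.bd (hY n)).pml hm _).meas.log.aestronglyMeasurable) (integrable_const _)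
    (fun n => Eventually.of_forall ((h.bd (hY n)).pml hm _).abs_log) ?_
  filter_upwards [h2] with u hu
  exact hu.log (((h.bd hX).pml hm _).pos u).ne'

end G

end Crest.Agent.R141.TL
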