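import Crest.Agent.R141.Pre

/-!
Row 141, task R141-TRep, part A: step functions of a uniform variable, nested power means as `pm`.
-/

set_option autoImplicit false

namespace Crest.Agent.R141.TRep

open Crest.Agent.R153 Crest.Agent.R153.Ms Crest.Agent.R153.Nest
open Crest.ProbabilityR MeasureTheory Filter

/-- `τ` is a step function with law `X`. -/
def Law {C : Type} (τ : unitInterval → C) (X : Ms C) : Prop :=
  (Set.range τ).Finite ∧ (∀ c, MeasurableSet (τ ⁻¹' {c})) ∧
    ∀ c, X.coeff c = (volume (τ ⁻¹' {c})).toReal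

theorem coeff_eq_real {C : Type} [MeasurableSpace C] [MeasurableSingletonClass C] {X : Ms C}
    (hX : X.NN) (c : C) : X.coeff c = (toMeas X).real {c} := by
  classical
  rw [real_toMeas hX (measurableSet_singleton c), coeff_eq_I]
  exact I_congr fun d _ => by simp [Set.indicator_apply]

theorem Law.spec {C : Type} [MeasurableSpace C] [MeasurableSingletonClass C]
    {τ : unitInterval → C} {X : Ms C} (h : Law τ X) :
    X.Prob ∧ X.Supp (· ∈ Set.range τ) ∧ MeasurePreserving τ volume (toMeas X) := by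
  have hm : Measurable τ := fun s _ => by
    have : τ ⁻¹' s = ⋃ c ∈ Set.range τ ∩ s, τ ⁻¹' {c} := by
      ext u
      simp only [Set.mem_preimage, Set.mem_iUnion, Set.mem_singleton_iff]
      exact ⟨fun hu => ⟨_, ⟨⟨u, rfl⟩, hu⟩, rfl⟩, fun ⟨c, hc, e⟩ => e ▸ hc.2⟩
    rw [this]
    exact (h.1.inter_of_left s).measurableSet_biUnion fun c _ => h.2.1 c
  obtain ⟨Y, h1, h2, h3⟩ := exists_map_eq_toMeas volume hm h.1
  have : X = Y := by
    apply MonoidAlgebra.coeff_injective
    ext c
    rw [h.2.2, coeff_eq_real h1.1, ← h3, map_measureReal_apply hm (measurableSet_singleton c)]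
    rfl
  subst this
  exact ⟨h1, h2, hm, h3⟩

theorem Law.prob {C : Type} {τ : unitInterval → C} {X : Ms C} (h : Law τ X) :
    X.Prob ∧ X.Supp (· ∈ Set.range τ) :=
  letI : MeasurableSpace C := ⊤
  ⟨h.spec.1, h.spec.2.1⟩

theorem integral_pi_mp {L C Ω : Type} [Fintype L] [DecidableEq L] [MeasurableSpace C]
    [MeasurableSingletonClass C] [MeasurableSpace Ω] {P : Measure Ω} [IsProbabilityMeasure P]
    {τ : L → Ω → C} {X : L → Ms C} (hX : ∀ ω, (X ω).Prob)
    (h : ∀ ω, MeasurePreserving (τ ω) P (toMeas (X ω))) (f : (L → C) → ℝ) :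
    ∫ v, f (fun ω => τ ω (v ω)) ∂(Measure.pi fun _ : L => P) = I (piM X) f := by
  have h1 := measurePreserving_pi (fun _ : L => P) (fun ω => toMeas (X ω)) h
  rw [pi_toMeas hX] at h1
  rw [mp_integral h1 (integrable_toMeas _ f), integral_toMeas (prob_piM hX).1]

theorem exists_law {C : Type} {X : Ms C} (hX : X.Prob) :
    ∃ (S : Type) (_ : Fintype S) (_ : MeasurableSpace S) (_ : MeasurableSingletonClass S)
      (e : S → C) (f : unitInterval → S), Measurable f ∧ (∀ s, X.coeff (e s) ≠ 0) ∧
        Law (fun u => e (f u)) X := by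
  let : MeasurableSpace C := ⊤
  have hne : X.coeff.support.Nonempty := by
    by_contra h
    rw [Finset.not_nonempty_iff_eq_empty] at h
    have := hX.2
    rw [mass, I_eq_sum, h] at this
    simp at this
  have : Nonempty X.coeff.support := hne.to_subtype
  let Y : Ms X.coeff.support := ∑ s : X.coeff.support, X.coeff s • dirac s
  have hY : Ms.map Subtype.val Y = X := ext_I fun g => by
    simp only [Y, I_map, I_sum, I_smul, I_dirac]
    rw [I_eq_sum, ← Finset.sum_coe_sort X.coeff.support fun c => X.coeff c * g c]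
  have hYp : Y.Prob := ⟨NN_sum fun s _ => (NN_dirac s).smul (hX.1 _), by
    rw [← mass_map Subtype.val, hY, hX.2]⟩
  have := isProb_toMeas hYp
  obtain ⟨f, hf, hf'⟩ := (toMeas Y).exists_measurable_map_eq
  have hv : Measurable (Subtype.val : X.coeff.support → C) := measurable_subtype_coe
  refine ⟨X.coeff.support, inferInstance, inferInstance, inferInstance, Subtype.val, f, hf,
    fun s => Finsupp.mem_support_iff.1 s.2, (Set.finite_range (Subtype.val : X.coeff.support → C)).subset ?_,
    fun c => (hv.comp hf) (measurableSet_singleton c), fun c => ?_⟩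
  · rintro _ ⟨u, rfl⟩
    exact ⟨_, rfl⟩
  · have e := map_toMeas hYp.1 hv
    rw [hY, ← hf', Measure.map_map hv hf] at e
    rw [coeff_eq_real hX.1, ← e, map_measureReal_apply (hv.comp hf) (measurableSet_singleton c)]
    rfl

section tens
variable {ι A B : Type} [Fintype ι] [DecidableEq ι] [CommMonoid A] [CommMonoid B] {j : ℕ}

theorem I_tens (T : ι → Ms (Nest A j)) (h : Nest (ι → A) j → ℝ) :
    I (tens T) h = I (piM T) fun t => h (tensN t) := by
  simp only [tens, mapM, Ms.map, I_prod_bind, ← dirac_prod, I_dirac, tensN]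

theorem tensN_map (f : ι → A → B) : ∀ {j : ℕ} (t : ι → Nest A j),
    tensN (fun i => Nest.map (f i) (t i)) = Nest.map (fun x i => f i (x i)) (tensN t)
  | 0, t => ext0 (by simp [unleaf_tensN])
  | j + 1, t => extS (ext_I fun h => by
      have e : ∀ a : ι → Nest A j, ∏ i, Nest.map (fun b => Pi.mulSingle i b) (Nest.map (f i) (a i))
          = Nest.map (fun x i => f i (x i)) (tensN a) := fun a => tensN_map f a
      rw [dn_map, I_mapM, dn_tensN, dn_tensN, I_tens (fun i => dn (t i))]
      simp only [tens, dn_map, mapM, Ms.map_map]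
      simp only [Ms.map, I_prod_bind, ← dirac_prod, I_dirac, e])

theorem map_hom_tensN (φ : (ι → A) →* B) (t : ι → Nest A j) :
    Nest.map φ (tensN t) = ∏ i, Nest.map (fun a => φ (Pi.mulSingle i a)) (t i) := by
  rw [tensN]
  refine (map_prod (mapHom φ j) _ _).trans (Finset.prod_congr rfl fun i _ => ?_)
  exact Nest.map_map _ _ _

theorem prod_eq_map_tensN (t : ι → Nest A j) :
    ∏ i, t i = Nest.map (fun x => ∏ i, x i) (tensN t) := by
  have := map_hom_tensN (∏ i, Pi.evalMonoidHom (fun _ => A) i) t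
  simp only [MonoidHom.finsetProd_apply, Pi.evalMonoidHom_apply, Finset.prod_pi_mulSingle',
    Finset.mem_univ, if_true, Nest.map_id] at this
  rw [← this]
  congr 1
  ext x
  simp

theorem tensN_tensN {κ : Type} [Fintype κ] [DecidableEq κ] (t : ι × κ → Nest A j) :
    tensN (fun i => tensN fun k => t (i, k)) = Nest.map (fun x i k => x (i, k)) (tensN t) := by
  let φ : (ι × κ → A) →* (ι → κ → A) :=
    { toFun := fun x i k => x (i, k), map_one' := rfl, map_mul' := fun _ _ => rfl }
  refine Eq.trans ?_ (map_hom_tensN φ t).symm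
  rw [Fintype.prod_prod_type, tensN]
  refine Finset.prod_congr rfl fun i _ => ?_
  refine (map_hom_tensN (MonoidHom.mulSingle (fun _ : ι => κ → A) i) _).trans ?_
  refine Finset.prod_congr rfl fun k _ => ?_
  congr 1
  ext a i' k'
  by_cases hi : i' = i <;> by_cases hk : k' = k <;> simp [φ, hi, hk]

theorem tensN_lastSlot (q : ℕ) (b : A) (T : Nest A j) :
    tensN (lastSlot (q + 1) (det b j) T)
      = Nest.map (fun x : Fin q → A => (Fin.snoc x b : Fin (q + 1) → A)) (tensN fun _ => T) := by
  let φ : (Fin q → A) →* (Fin (q + 1) → A) :=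
    { toFun := fun x => Fin.snoc x 1
      map_one' := by ext i; induction i using Fin.lastCases <;> simp
      map_mul' := fun _ _ => by ext i; induction i using Fin.lastCases <;> simp }
  have h1 := map_hom_tensN φ fun _ => T
  rw [tensN, Fin.prod_univ_castSucc]
  have e1 : ∀ i : Fin q, lastSlot (q + 1) (det b j) T i.castSucc = T := fun i => by simp [lastSlot]
  have e2 : lastSlot (q + 1) (det b j) T (Fin.last q) = det b j := by simp [lastSlot]
  have e3 : ∀ i : Fin q, (fun a : A => (Pi.mulSingle i.castSucc a : Fin (q + 1) → A))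
      = fun a => φ (Pi.mulSingle i a) := fun i => by
    ext a i'
    induction i' using Fin.lastCases with
    | last => simp [φ, (Fin.castSucc_ne_last i).symm]
    | cast i' => simp [φ, Pi.mulSingle_apply]
  simp only [e1, e2, e3, ← h1, map_det, mul_det, Nest.map_map]
  congr 1
  ext x i
  induction i using Fin.lastCases with
  | last => simp [φ]
  | cast i => simp [φ, Fin.castSucc_ne_last i]

end tens

section pm
variable {A B : Type} {m : ℕ → ℝ}

theorem pm_map (v : B → ℝ) (f : A → B) : ∀ {j : ℕ} (X : Nest A j),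
    pm m v (Nest.map f X) = pm m (fun a => v (f a)) X
  | 0, _ => rfl
  | j + 1, X => by simp [pm_succ, pm_map v f (j := j)]

theorem pm_mem (hm : ∀ i, 0 < m i) {P : A → Prop} {v : A → ℝ} {a b : ℝ} (ha : 0 < a)
    (h : ∀ x, P x → a ≤ v x ∧ v x ≤ b) :
    ∀ {j : ℕ} {X : Nest A j}, Good P X → a ≤ pm m v X ∧ pm m v X ≤ b
  | 0, _, hX => h _ hX
  | j + 1, X, hX => by
    have ih := fun c hc => pm_mem hm ha h (j := j) (hX.2 c hc)
    have h1 : a ^ m j ≤ I (dn X) fun c => pm m v c ^ m j :=
      hX.1.ge_of_ge fun c hc => Real.rpow_le_rpow ha.le (ih c hc).1 (hm j).le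
    have h2 : (I (dn X) fun c => pm m v c ^ m j) ≤ |b| ^ m j ∧ 0 ≤ b := by
      refine ⟨hX.1.le_of_le fun c hc => Real.rpow_le_rpow (ha.le.trans (ih c hc).1)
        ((ih c hc).2.trans (le_abs_self b)) (hm j).le, ?_⟩
      have := hX.1.le_of_le (f := fun _ => a) (a := b) fun c hc => (ih c hc).1.trans (ih c hc).2
      rw [hX.1.I_const] at this
      exact ha.le.trans this
    rw [abs_of_nonneg h2.2] at h2
    have hp : 0 ≤ a ^ m j := Real.rpow_nonneg ha.le _
    rw [pm_succ, one_div]
    constructor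
    · rw [← Real.rpow_rpow_inv ha.le (hm j).ne']
      exact Real.rpow_le_rpow hp h1 (inv_pos.2 (hm j)).le
    · rw [← Real.rpow_rpow_inv h2.2 (hm j).ne']
      exact Real.rpow_le_rpow (hp.trans h1) h2.1 (inv_pos.2 (hm j)).le

theorem pm_nonneg {P : A → Prop} {v : A → ℝ} (h : ∀ x, P x → 0 ≤ v x) :
    ∀ {j : ℕ} {X : Nest A j}, Good P X → 0 ≤ pm m v X
  | 0, _, hX => h _ hX
  | _ + 1, _, hX => Real.rpow_nonneg
      (hX.2.I_nonneg hX.1.1 fun _ hc => Real.rpow_nonneg (pm_nonneg h hc) _) _

theorem pm_const_mul (hm : ∀ i, 0 < m i) {P : A → Prop} {v : A → ℝ} (h : ∀ x, P x → 0 ≤ v x)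
    {c : ℝ} (hc : 0 ≤ c) :
    ∀ {j : ℕ} {X : Nest A j}, Good P X → pm m (fun x => c * v x) X = c * pm m v X
  | 0, _, _ => rfl
  | j + 1, X, hX => by
    rw [pm_succ, pm_succ, hX.2.I_congr (g := fun d => c ^ m j * pm m v d ^ m j) fun d hd => by
      rw [pm_const_mul hm h hc hd, Real.mul_rpow hc (pm_nonneg h hd)], I_const_mul,
      Real.mul_rpow (Real.rpow_nonneg hc _)
        (hX.2.I_nonneg hX.1.1 fun _ hd => Real.rpow_nonneg (pm_nonneg h hd) _), one_div,
      Real.rpow_rpow_inv hc (hm j).ne']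

end pm

section steps
variable {L : Type} [Fintype L]

theorem foldr_succ {r : ℕ} {ι : Type} (m : ι → ℝ) (lvl : ι → Fin (r + 1))
    (W : (L → Fin (r + 2) → unitInterval) → ℝ) (a : L → unitInterval) (l : List ι)
    (u : L → Fin (r + 1) → unitInterval) :
    l.foldr (fun d acc => Diluted.pmStep (m d) (lvl d).succ acc) W (fun ω => Fin.cons (a ω) (u ω))
      = l.foldr (fun d acc => Diluted.pmStep (m d) (lvl d) acc)
        (fun u' => W fun ω => Fin.cons (a ω) (u' ω)) u := by
  induction l generalizing u with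
  | nil => rfl
  | cons d l ih =>
    rw [List.foldr_cons, List.foldr_cons, Diluted.pmStep, Diluted.pmStep]
    refine congrArg (fun x : ℝ => x ^ (1 / m d)) (integral_congr_ae (Eventually.of_forall fun v => ?_))
    simp only
    rw [← ih]
    refine congrArg (fun z => List.foldr _ W l z ^ m d) ?_
    ext ω i : 2
    induction i using Fin.cases with
    | zero => simp [(Fin.succ_ne_zero _).symm]
    | succ i => simp

theorem powerMeans_eq [DecidableEq L] (m' : ℕ → ℝ) : ∀ {r : ℕ} (m : Fin r → ℝ)
    (_ : ∀ d : Fin r, m' d.rev = m d) (w : (L → ℝ) → ℝ)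
    (F : L → (Fin (r + 1) → unitInterval) → ℝ) (u : L → Fin (r + 1) → unitInterval)
    (t : L → Nest ℝ r) (_ : ∀ ω, RepN r (fun u' => F ω (Fin.cons (u ω 0) u')) (t ω)),
    Diluted.powerMeans m (fun u' => w fun ω => F ω (u' ω)) u = pm m' w (tensN t)
  | 0, m, _, w, F, u, t, ht => by
    simp only [Diluted.powerMeans, List.finRange_zero, List.foldr_nil, pm_zero, unleaf_tensN]
    congr 1
    ext ω
    rw [← ht ω (Fin.tail (u ω))]
    simp only [Fin.cons_self_tail]
  | r + 1, m, hm, w, F, u, t, ht => by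
    choose τ h1 h2 h3 h4 using ht
    let : MeasurableSpace (Nest ℝ r) := ⊤
    have hL : ∀ ω, Law (τ ω) (dn (t ω)) := fun ω => ⟨h1 ω, h2 ω, h3 ω⟩
    have h0 : m' r = m 0 := by simpa using hm 0
    rw [pm_succ, dn_tensN, I_tens, ← integral_pi_mp (fun ω => (hL ω).spec.1)
      fun ω => (hL ω).spec.2.2, h0, Diluted.powerMeans, List.finRange_succ, List.foldr_cons,
      List.foldr_map, Diluted.pmStep]
    congr 2
    ext v
    congr 1
    have e : (fun ω j => if j = Fin.succ 0 then v ω else u ω j)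
        = fun ω => (Fin.cons (u ω 0) (Fin.cons (v ω) (Fin.tail (Fin.tail (u ω)))) :
          Fin (r + 2) → unitInterval) := by
      ext ω i : 2
      induction i using Fin.cases with
      | zero => simp
      | succ i =>
        induction i using Fin.cases with
        | zero => simp
        | succ i => simp only [Fin.tail, Fin.cons_succ, Fin.succ_inj, Fin.succ_ne_zero, if_false]
    rw [e, foldr_succ (fun d : Fin r => m d.succ) Fin.succ]
    exact powerMeans_eq m' (fun d => m d.succ) (fun d => by simpa [Fin.rev_succ] using hm d.succ) w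
      (fun ω u' => F ω (Fin.cons (u ω 0) u')) _ _ fun ω => h4 ω (v ω)

theorem integral_powerMeans [DecidableEq L] {r : ℕ} (m : Fin r → ℝ) (w : (L → ℝ) → ℝ)
    {X : (Fin (r + 1) → unitInterval) → ℝ} {ξ₀ : Ms (Nest ℝ r)} (hX : RepN (r + 1) X (up ξ₀)) :
    ∫ u, Real.log (Diluted.powerMeans m (fun u' => w fun ω => X (u' ω)) u)
      ∂(Diluted.uniformArrays L r)
      = I (tens fun _ : L => ξ₀) fun c => Real.log (pm (revm m) w c) := by
  obtain ⟨τ, h1, h2, h3, h4⟩ := hX
  let : MeasurableSpace (Nest ℝ r) := ⊤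
  have hL : Law τ ξ₀ := ⟨h1, h2, h3⟩
  rw [I_tens, ← integral_pi_mp (fun _ => hL.spec.1) fun _ => hL.spec.2.2.comp
    (measurePreserving_eval (fun _ : Fin (r + 1) => (volume : Measure unitInterval)) 0),
    Diluted.uniformArrays]
  congr 1
  ext u
  rw [powerMeans_eq (revm m) m (fun d => by rw [revm, dif_pos d.rev.2, Fin.eta, Fin.rev_rev]) w (fun _ => X) u _ fun ω => h4 (u ω 0)]
  rfl

end steps

end Crest.Agent.R141.TRep
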